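import Claimed.Agent.R289.Defs.Top
import Claimed.Agent.R289.Chart

/-!
# Row 289 (S0537), unit EXT, block E1: ANALYTIC SUBDOMAINS, MARKS, MODULI      (helper270 + helper10; prefix `pvx1_`)

EXPORT: `pvx1_main` (sec. 7).      Consumer: `Exit/Ext.lean` (head helper74).
1. disc automorphisms `pvx1M c e ζ = -(ē ζ + c̄)/(c ζ + e)`, `|c| < |e|`: holomorphic and injective off their pole (outside the closed disc), `|M ζ| < 1 ↔ |ζ| < 1`;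
2. `PvAn` is stable under the changes of chart `PvChart.aff`, `PvChart.inv` (`PvAn.aff`, `PvAn.inv`, through `pvx1_an_mob`);
3. (helper10) the chart is uniformly continuous where it is bounded: frontier points `ρ0`-close to the shrunk arcs lie on the arcs (`pvx1_sepL`, `pvx1_sepR`); `pvx1_thick`;
4. (helper10) the real Moebius map `T_κ : (κ, 1 + κ, 1/κ) → (0, 1, ∞)`; `x' = T_κ (x - κ) → x`, `cardyF` continuous (`pvx1_kappa`);
5. the subdomain `Ψ⁻¹ (s 𝔻)` with its chart and radial projection (`pvx1_sub`, from sec. 4 of `Chart.lean`, helper61);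
6. the chart `T_κ ∘ ψ0` of the subdomain and its two arcs (`pvx1_marks`, `pvx1_quad`);
7. `pvx1_main`.
-/

set_option autoImplicit false

namespace Claimed.Agent.R289

open Complex MeasureTheory Set Filter Topology
open Claims.C0465

/-! ## 1. disc automorphisms -/

/-- the disc automorphism `-(ē ζ + c̄)/(c ζ + e)` -/
noncomputable def pvx1M (c e ζ : ℂ) : ℂ := -((starRingEnd ℂ) e * ζ + (starRingEnd ℂ) c) / (c * ζ + e)

theorem pvx1_eqns_cite : True := by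
  have := @pvx1M.eq_1
  trivial

theorem pvx1_den_ne {c e ζ : ℂ} (hce : ‖c‖ < ‖e‖) (hζ : ‖ζ‖ ≤ 1) : c * ζ + e ≠ 0 := by
  intro h
  have h1 : e = -(c * ζ) := by linear_combination h
  have h2 : ‖e‖ ≤ ‖c‖ := by
    rw [h1, norm_neg, norm_mul]
    exact mul_le_of_le_one_right (norm_nonneg _) hζ
  linarith

theorem pvx1_isOpen_dom (c e : ℂ) : IsOpen {ζ : ℂ | c * ζ + e ≠ 0} :=
  isOpen_ne_fun (by fun_prop) continuous_const

theorem pvx1_M_diff (c e : ℂ) : DifferentiableOn ℂ (pvx1M c e) {ζ : ℂ | c * ζ + e ≠ 0} := by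
  intro ζ hζ
  have h1 : DifferentiableAt ℂ (fun ζ : ℂ => -((starRingEnd ℂ) e * ζ + (starRingEnd ℂ) c)) ζ := by fun_prop
  have h2 : DifferentiableAt ℂ (fun ζ : ℂ => c * ζ + e) ζ := by fun_prop
  exact (h1.div h2 hζ).differentiableWithinAt

theorem pvx1_normSq_sub (c e : ℂ) : ((‖e‖ ^ 2 - ‖c‖ ^ 2 : ℝ) : ℂ) = e * (starRingEnd ℂ) e - c * (starRingEnd ℂ) c := by
  rw [Complex.mul_conj, Complex.mul_conj, Complex.normSq_eq_norm_sq, Complex.normSq_eq_norm_sq]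
  push_cast
  ring

theorem pvx1_M_inj {c e : ℂ} (hce : ‖c‖ < ‖e‖) : InjOn (pvx1M c e) {ζ : ℂ | c * ζ + e ≠ 0} := by
  intro ζ hζ ζ' hζ' h
  unfold pvx1M at h
  rw [div_eq_div_iff hζ hζ'] at h
  have h1 : ((‖e‖ ^ 2 - ‖c‖ ^ 2 : ℝ) : ℂ) * (ζ - ζ') = 0 := by
    rw [pvx1_normSq_sub]
    linear_combination -h
  have h2 : ((‖e‖ ^ 2 - ‖c‖ ^ 2 : ℝ) : ℂ) ≠ 0 := by
    have : 0 < ‖e‖ ^ 2 - ‖c‖ ^ 2 := by nlinarith [norm_nonneg c, norm_nonneg e]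
    exact_mod_cast this.ne'
  exact sub_eq_zero.1 ((mul_eq_zero.1 h1).resolve_left h2)

/-- `|c ζ + e|² - |ē ζ + c̄|² = (|e|² - |c|²)(1 - |ζ|²)` -/
theorem pvx1_norm_id (c e ζ : ℂ) :
    ‖c * ζ + e‖ ^ 2 - ‖(starRingEnd ℂ) e * ζ + (starRingEnd ℂ) c‖ ^ 2 = (‖e‖ ^ 2 - ‖c‖ ^ 2) * (1 - ‖ζ‖ ^ 2) := by
  simp only [← Complex.normSq_eq_norm_sq, Complex.normSq_apply]
  simp
  ring

theorem pvx1_M_norm_lt {c e ζ : ℂ} (hce : ‖c‖ < ‖e‖) (hζ : c * ζ + e ≠ 0) : ‖pvx1M c e ζ‖ < 1 ↔ ‖ζ‖ < 1 := by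
  have h0 : 0 < ‖c * ζ + e‖ := norm_pos_iff.2 hζ
  have hK : 0 < ‖e‖ ^ 2 - ‖c‖ ^ 2 := by nlinarith [norm_nonneg c, norm_nonneg e]
  have hid := pvx1_norm_id c e ζ
  unfold pvx1M
  rw [norm_div, norm_neg, div_lt_one h0]
  constructor
  · intro h
    have h1 : 0 < (‖e‖ ^ 2 - ‖c‖ ^ 2) * (1 - ‖ζ‖ ^ 2) := by
      rw [← hid]
      nlinarith [norm_nonneg ((starRingEnd ℂ) e * ζ + (starRingEnd ℂ) c)]
    have h2 : 0 < 1 - ‖ζ‖ ^ 2 := (mul_pos_iff_of_pos_left hK).1 h1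
    nlinarith [norm_nonneg ζ]
  · intro h
    have h2 : 0 < 1 - ‖ζ‖ ^ 2 := by nlinarith [norm_nonneg ζ]
    have h1 := mul_pos hK h2
    rw [← hid] at h1
    nlinarith [norm_nonneg ((starRingEnd ℂ) e * ζ + (starRingEnd ℂ) c)]

/-! ## 2. `PvAn` under a disc automorphism -/

variable {D : Set ℂ} {d : ℂ} {ψ : ℂ → ℂ}

/-- the values of the extended disc chart on the closure -/
theorem pvx1_g_le {N : Set ℂ} {g : ℂ → ℂ} (hN : IsOpen N) (hcl : closure D ⊆ N) (hg : DifferentiableOn ℂ g N)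
    (hD : D = N ∩ g ⁻¹' Metric.ball 0 1) {z : ℂ} (hz : z ∈ closure D) : ‖g z‖ ≤ 1 := by
  have hc : ContinuousAt g z := (hg.differentiableAt (hN.mem_nhds (hcl hz))).continuousAt
  have h1 : g z ∈ closure (g '' D) := mem_closure_image hc hz
  have h2 : g '' D ⊆ Metric.closedBall 0 1 := by
    rintro _ ⟨w, hw, rfl⟩
    rw [hD] at hw
    exact Metric.ball_subset_closedBall hw.2
  have h3 := closure_minimal h2 Metric.isClosed_closedBall h1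
  simpa using h3

/-- **change of chart by a disc automorphism** -/
theorem pvx1_an_mob {d' : ℂ} {ψ' : ℂ → ℂ} (h' : PvChart D d' ψ') {N : Set ℂ} {g : ℂ → ℂ} (hN : IsOpen N) (hcl : closure D ⊆ N)
    (hg : DifferentiableOn ℂ g N) (hinj : InjOn g N) (hD : D = N ∩ g ⁻¹' Metric.ball 0 1) {c e : ℂ} (hce : ‖c‖ < ‖e‖)
    (h1 : pvx1M c e (g d') = 1) (h2 : ∀ z ∈ closure D \ {d'}, ψ' z = I * (1 + pvx1M c e (g z)) / (1 - pvx1M c e (g z))) : PvAn D d' ψ' := by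
  refine ⟨h', N ∩ g ⁻¹' {ζ : ℂ | c * ζ + e ≠ 0}, fun z => pvx1M c e (g z), ?_, ?_, ?_, ?_, ?_, h1, h2⟩
  · exact hg.continuousOn.isOpen_inter_preimage hN (pvx1_isOpen_dom c e)
  · exact fun z hz => ⟨hcl hz, pvx1_den_ne hce (pvx1_g_le hN hcl hg hD hz)⟩
  · exact (pvx1_M_diff c e).comp (hg.mono inter_subset_left) fun z hz => hz.2
  · intro z hz z' hz' hzz
    exact hinj hz.1 hz'.1 (pvx1_M_inj hce hz.2 hz'.2 hzz)
  · ext z
    constructor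
    · intro hz
      have hz' := hz
      rw [hD] at hz'
      have h3 : ‖g z‖ < 1 := by simpa using hz'.2
      have h4 : c * g z + e ≠ 0 := pvx1_den_ne hce h3.le
      exact ⟨⟨hz'.1, h4⟩, by simpa using (pvx1_M_norm_lt hce h4).2 h3⟩
    · rintro ⟨⟨hzN, h4⟩, h5⟩
      rw [hD]
      exact ⟨hzN, by simpa using (pvx1_M_norm_lt hce h4).1 (by simpa using h5)⟩

theorem pvx1_one_sub_M {c e ζ : ℂ} (hζ : c * ζ + e ≠ 0) :
    1 - pvx1M c e ζ = ((c + (starRingEnd ℂ) e) * ζ + (e + (starRingEnd ℂ) c)) / (c * ζ + e) := by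
  have h : pvx1M c e ζ * (c * ζ + e) = -((starRingEnd ℂ) e * ζ + (starRingEnd ℂ) c) := div_mul_cancel₀ _ hζ
  rw [eq_div_iff hζ]
  linear_combination -h

theorem pvx1_one_add_M {c e ζ : ℂ} (hζ : c * ζ + e ≠ 0) :
    1 + pvx1M c e ζ = ((c - (starRingEnd ℂ) e) * ζ + (e - (starRingEnd ℂ) c)) / (c * ζ + e) := by
  have h : pvx1M c e ζ * (c * ζ + e) = -((starRingEnd ℂ) e * ζ + (starRingEnd ℂ) c) := div_mul_cancel₀ _ hζ
  rw [eq_div_iff hζ]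
  linear_combination h

theorem pvx1_Ci_M {c e ζ : ℂ} (hζ : c * ζ + e ≠ 0) :
    I * (1 + pvx1M c e ζ) / (1 - pvx1M c e ζ)
      = I * ((c - (starRingEnd ℂ) e) * ζ + (e - (starRingEnd ℂ) c)) / ((c + (starRingEnd ℂ) e) * ζ + (e + (starRingEnd ℂ) c)) := by
  rw [pvx1_one_sub_M hζ, pvx1_one_add_M hζ, mul_div_assoc', div_div_div_cancel_right₀ hζ]

theorem pvx1_norm_lt_of_sq {c e : ℂ} (h : Complex.normSq c < Complex.normSq e) : ‖c‖ < ‖e‖ := by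
  rw [Complex.normSq_eq_norm_sq, Complex.normSq_eq_norm_sq] at h
  exact lt_of_pow_lt_pow_left₀ 2 (norm_nonneg _) h

namespace PvAn

/-- the extended disc chart does not take the value `1` off the pole -/
theorem g_ne_one {N : Set ℂ} {g : ℂ → ℂ} (hcl : closure D ⊆ N) (hinj : InjOn g N) (hd : d ∈ closure D) (hgd : g d = 1) {z : ℂ} (hz : z ∈ closure D)
    (hzd : z ≠ d) : 1 - g z ≠ 0 := fun h0 =>
  hzd (hinj (hcl hz) (hcl hd) (by rw [hgd]; linear_combination -h0))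

theorem aff (h : PvAn D d ψ) {α β : ℝ} (hα : 0 < α) : PvAn D d fun z => (α : ℂ) * ψ z + (β : ℂ) := by
  obtain ⟨N, g, hN, hcl, hg, hinj, hD, hgd, hψ⟩ := h.an
  have hdc : d ∈ closure D := frontier_subset_closure h.toPvChart.hd
  have hce : ‖((α : ℂ) - 1) * I - β‖ < ‖((α : ℂ) + 1) * I + β‖ := by
    refine pvx1_norm_lt_of_sq ?_
    simp only [Complex.normSq_apply]
    simp
    nlinarith
  have c1 : (starRingEnd ℂ) (((α : ℂ) - 1) * I - β) = -(((α : ℂ) - 1) * I) - β := by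
    simp
  have c2 : (starRingEnd ℂ) (((α : ℂ) + 1) * I + β) = -(((α : ℂ) + 1) * I) + β := by
    simp
  have hα' : (α : ℂ) ≠ 0 := by exact_mod_cast hα.ne'
  refine pvx1_an_mob (h.toPvChart.aff hα) hN hcl hg hinj hD hce ?_ ?_
  · rw [hgd]
    unfold pvx1M
    rw [c1, c2, div_eq_one_iff_eq]
    · ring
    · intro h0
      have : (2 : ℂ) * α * I = 0 := by linear_combination h0
      simp [hα'] at this
  · intro z hz
    have h1 := g_ne_one hcl hinj hdc hgd hz.1 hz.2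
    have h4 : (((α : ℂ) - 1) * I - β) * g z + (((α : ℂ) + 1) * I + β) ≠ 0 := pvx1_den_ne hce (pvx1_g_le hN hcl hg hD hz.1)
    rw [pvx1_Ci_M h4, c1, c2, hψ z hz]
    have h5 : (((α : ℂ) - 1) * I - β + (-(((α : ℂ) + 1) * I) + β)) * g z + (((α : ℂ) + 1) * I + β + (-(((α : ℂ) - 1) * I) - β)) = 2 * I * (1 - g z) := by ring
    rw [h5]
    have hI : (I : ℂ) ≠ 0 := I_ne_zero
    field_simp
    ring

theorem inv (h : PvAn D d ψ) {e : ℂ} (he : e ∈ frontier D) (hed : e ≠ d) : PvAn D e fun z => if z = d then 0 else -1 / (ψ z - ψ e) := by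
  obtain ⟨N, g, hN, hcl, hg, hinj, hD, hgd, hψ⟩ := h.an
  have hdc : d ∈ closure D := frontier_subset_closure h.toPvChart.hd
  have hec : e ∈ closure D := frontier_subset_closure he
  obtain ⟨t, ht⟩ : ∃ t : ℝ, ψ e = (t : ℂ) := ⟨(ψ e).re, by
    apply Complex.ext
    · simp
    · simp [h.toPvChart.im_zero he hed]⟩
  have hce : ‖I * (t : ℂ)‖ < ‖-(2 + I * (t : ℂ))‖ := by
    refine pvx1_norm_lt_of_sq ?_
    simp only [Complex.normSq_apply]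
    simp
  have c1 : (starRingEnd ℂ) (I * (t : ℂ)) = -(I * (t : ℂ)) := by simp
  have c2 : (starRingEnd ℂ) (-(2 + I * (t : ℂ))) = -(2 - I * (t : ℂ)) := by
    have h2 : (starRingEnd ℂ) (2 : ℂ) = 2 := Complex.conj_ofNat 2
    simp only [map_neg, map_add, map_mul, Complex.conj_I, Complex.conj_ofReal, h2]
    ring
  have hI : (I : ℂ) ≠ 0 := I_ne_zero
  have hII : (I : ℂ) * I = -1 := I_mul_I
  -- the value of `g` at `e`
  have hge1 := g_ne_one hcl hinj hdc hgd hec hed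
  have hge : ((t : ℂ) + I) * g e - ((t : ℂ) - I) = 0 := by
    have h1 := hψ e ⟨hec, hed⟩
    rw [ht, eq_div_iff hge1] at h1
    linear_combination -h1
  refine pvx1_an_mob (h.toPvChart.inv he hed) hN hcl hg hinj hD hce ?_ ?_
  · have h4 : (I * (t : ℂ)) * g e + (-(2 + I * (t : ℂ))) ≠ 0 := pvx1_den_ne hce (pvx1_g_le hN hcl hg hD hec)
    have h5 := pvx1_one_sub_M h4
    rw [c1, c2] at h5
    have h6 : (I * (t : ℂ) + -(2 - I * (t : ℂ))) * g e + (-(2 + I * (t : ℂ)) + -(I * (t : ℂ))) = 0 := by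
      linear_combination (2 * I) * hge - (2 * g e + 2) * hII
    rw [h6, zero_div] at h5
    linear_combination -h5
  · intro z hz
    have h4 : (I * (t : ℂ)) * g z + (-(2 + I * (t : ℂ))) ≠ 0 := pvx1_den_ne hce (pvx1_g_le hN hcl hg hD hz.1)
    rw [pvx1_Ci_M h4, c1, c2]
    have h7 : (I * (t : ℂ) - -(2 - I * (t : ℂ))) * g z + (-(2 + I * (t : ℂ)) - -(I * (t : ℂ))) = 2 * (g z - 1) := by ring
    have h8 : (I * (t : ℂ) + -(2 - I * (t : ℂ))) * g z + (-(2 + I * (t : ℂ)) + -(I * (t : ℂ))) = 2 * I * (((t : ℂ) + I) * g z - ((t : ℂ) - I)) := by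
      linear_combination (-(2 * g z + 2)) * hII
    rw [h7, h8]
    by_cases hzd : z = d
    · rw [if_pos hzd, hzd, hgd]
      simp
    · rw [if_neg hzd, hψ z ⟨hz.1, hzd⟩, ht]
      have h1 := g_ne_one hcl hinj hdc hgd hz.1 hzd
      have h9 : I * (1 + g z) / (1 - g z) - (t : ℂ) = (((t : ℂ) + I) * g z - ((t : ℂ) - I)) / (1 - g z) := by
        rw [eq_div_iff h1, sub_mul, div_mul_cancel₀ _ h1]
        ring
      rw [h9]
      by_cases h10 : ((t : ℂ) + I) * g z - ((t : ℂ) - I) = 0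
      · rw [h10]
        simp
      · field_simp
        ring

end PvAn

/-! ## 3. E1 (d), (b): separation of compact sub-arcs in the chart      (helper10) -/

/-- difference of two values of the inverse Cayley map -/
theorem pvx1_Ci_sub {ζ ζ' : ℂ} (h : ζ ≠ 1) (h' : ζ' ≠ 1) : pvchCi ζ - pvchCi ζ' = 2 * I * (ζ - ζ') / ((1 - ζ) * (1 - ζ')) := by
  have h1 : 1 - ζ ≠ 0 := sub_ne_zero.2 h.symm
  have h2 : 1 - ζ' ≠ 0 := sub_ne_zero.2 h'.symm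
  unfold pvchCi
  field_simp
  ring

/-- **the chart is uniformly continuous where it is bounded, and that region stays away from the pole**:
`z, w ∈ closure D`, `z ≠ d`, `‖ψ z‖ ≤ R`, `|w - z| < ρ0`  ⟹  `w ≠ d` and `‖ψ w - ψ z‖ ≤ κ` -/
theorem pvx1_unif {D : Set ℂ} {d : ℂ} {ψ : ℂ → ℂ} (h : PvChart D d ψ) {R κ : ℝ} (hR : 0 ≤ R) (hκ : 0 < κ) :
    ∃ ρ0 : ℝ, 0 < ρ0 ∧ ∀ z ∈ closure D, z ≠ d → ‖ψ z‖ ≤ R → ∀ w ∈ closure D, dist w z < ρ0 → w ≠ d ∧ ‖ψ w - ψ z‖ ≤ κ := by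
  obtain ⟨c, hc⟩ : ∃ c : ℝ, c = 1 / (R + 1) := ⟨_, rfl⟩
  have hc0 : 0 < c := by rw [hc]; positivity
  have hu := h.bdd.isCompact_closure.uniformContinuousOn_of_continuous h.disc_cont
  rw [Metric.uniformContinuousOn_iff] at hu
  obtain ⟨ρ0, hρ0, H⟩ := hu (min c (κ * c ^ 2)) (lt_min hc0 (by positivity))
  refine ⟨ρ0, hρ0, fun z hz hzd hzR w hw hwz => ?_⟩
  have hd := H w hw z hz hwz
  have hd1 : dist (h.disc w) (h.disc z) < c := hd.trans_le (min_le_left _ _)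
  have hd2 : dist (h.disc w) (h.disc z) < κ * c ^ 2 := hd.trans_le (min_le_right _ _)
  have him := h.im_nonneg hz hzd
  -- `‖1 - Ψ z‖ ≥ 2 c`
  have hz1 : 2 * c ≤ ‖1 - h.disc z‖ := by
    rw [h.disc_of_ne hzd, pvch_one_sub_C him, norm_div, hc]
    have hn : ‖ψ z + I‖ ≤ R + 1 := (norm_add_le _ _).trans (by rw [Complex.norm_I]; linarith)
    have hp : 0 < ‖ψ z + I‖ := norm_pos_iff.2 (pvch_add_I_ne him)
    have h2 : ‖(2 * I : ℂ)‖ = 2 := by simp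
    rw [h2, mul_one_div]
    exact div_le_div_of_nonneg_left (by norm_num) hp hn
  have hw1 : c ≤ ‖1 - h.disc w‖ := by
    have e : 1 - h.disc z = (1 - h.disc w) + (h.disc w - h.disc z) := by ring
    have h3 : ‖1 - h.disc z‖ ≤ ‖1 - h.disc w‖ + ‖h.disc w - h.disc z‖ := by rw [e]; exact norm_add_le _ _
    rw [← dist_eq_norm (h.disc w)] at h3
    linarith
  have hwd : w ≠ d := by
    rintro rfl
    rw [h.disc_d, sub_self, norm_zero] at hw1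
    linarith
  refine ⟨hwd, ?_⟩
  have himw := h.im_nonneg hw hwd
  have e1 : ψ w = pvchCi (h.disc w) := by rw [h.disc_of_ne hwd, pvch_Ci_C himw]
  have e2 : ψ z = pvchCi (h.disc z) := by rw [h.disc_of_ne hzd, pvch_Ci_C him]
  have n1 : h.disc w ≠ 1 := by rw [h.disc_of_ne hwd]; exact pvch_C_ne_one himw
  have n2 : h.disc z ≠ 1 := by rw [h.disc_of_ne hzd]; exact pvch_C_ne_one him
  rw [e1, e2, pvx1_Ci_sub n1 n2, norm_div, norm_mul, norm_mul, norm_mul]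
  have h2 : ‖(2 : ℂ)‖ * ‖I‖ = 2 := by simp
  rw [h2, ← dist_eq_norm (h.disc w)]
  have hden : c * (2 * c) ≤ ‖1 - h.disc w‖ * ‖1 - h.disc z‖ := mul_le_mul hw1 hz1 (by positivity) (norm_nonneg _)
  rw [div_le_iff₀ (lt_of_lt_of_le (by positivity) hden)]
  calc 2 * dist (h.disc w) (h.disc z) ≤ 2 * (κ * c ^ 2) := by linarith
    _ = κ * (c * (2 * c)) := by ring
    _ ≤ κ * (‖1 - h.disc w‖ * ‖1 - h.disc z‖) := mul_le_mul_of_nonneg_left hden hκ.le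

/-- **(d), bounded arc**: a frontier point close to a point of the shrunk arc `[p + κ, q - κ]` lies on the arc `[p, q]` -/
theorem pvx1_sep {D : Set ℂ} {d : ℂ} {ψ : ℂ → ℂ} (h : PvChart D d ψ) (p q : ℝ) {κ : ℝ} (hκ : 0 < κ) :
    ∃ ρ0 : ℝ, 0 < ρ0 ∧ ∀ z ∈ frontier D, z ≠ d → p + κ ≤ (ψ z).re → (ψ z).re ≤ q - κ → ∀ w ∈ closure D, dist w z < ρ0 →
      w ≠ d ∧ p ≤ (ψ w).re ∧ (ψ w).re ≤ q := by
  obtain ⟨ρ0, hρ0, H⟩ := pvx1_unif h (R := |p| + |q| + κ) (by positivity) hκ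
  refine ⟨ρ0, hρ0, fun z hz hzd h1 h2 w hw hwz => ?_⟩
  have hzc : z ∈ closure D := frontier_subset_closure hz
  have hre : ψ z = (((ψ z).re : ℝ) : ℂ) := Complex.ext (by simp) (by simp [h.im_zero hz hzd])
  have hn : ‖ψ z‖ ≤ |p| + |q| + κ := by
    rw [hre, Complex.norm_real, Real.norm_eq_abs, abs_le]
    constructor
    · have := neg_abs_le p; have := abs_nonneg q; linarith
    · have := le_abs_self q; have := abs_nonneg p; linarith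
  obtain ⟨a, b⟩ := H z hzc hzd hn w hw hwz
  have hb : |(ψ w).re - (ψ z).re| ≤ κ := by
    have := Complex.abs_re_le_norm (ψ w - ψ z)
    rw [Complex.sub_re] at this
    exact this.trans b
  rw [abs_le] at hb
  exact ⟨a, by linarith [hb.1], by linarith [hb.2]⟩

/-- (d), left arc -/
theorem pvx1_sepL {D : Set ℂ} {d : ℂ} {ψ : ℂ → ℂ} (h : PvChart D d ψ) (x : ℝ) {κ : ℝ} (hκ : 0 < κ) :
    ∃ ρ0 : ℝ, 0 < ρ0 ∧ ∀ z ∈ frontier D, z ≠ d → κ ≤ (ψ z).re → (ψ z).re ≤ x - κ → ∀ w ∈ frontier D, dist w z < ρ0 → w ∈ pvArcL D d ψ x := by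
  obtain ⟨ρ0, hρ0, H⟩ := pvx1_sep h 0 x hκ
  refine ⟨ρ0, hρ0, fun z hz hzd h1 h2 w hw hwz => ?_⟩
  obtain ⟨a, b, c⟩ := H z hz hzd (by linarith) h2 w (frontier_subset_closure hw) hwz
  exact ⟨hw, a, b, c⟩

/-- (d), right arc `{d} ∪ ψ⁻¹[1, ∞)`, shrunk to `[1 + κ, 1/κ]` -/
theorem pvx1_sepR {D : Set ℂ} {d : ℂ} {ψ : ℂ → ℂ} (h : PvChart D d ψ) {κ : ℝ} (hκ : 0 < κ) :
    ∃ ρ0 : ℝ, 0 < ρ0 ∧ ∀ z ∈ frontier D, z ≠ d → 1 + κ ≤ (ψ z).re → (ψ z).re ≤ 1 / κ → ∀ w ∈ frontier D, dist w z < ρ0 → w ∈ pvArcR D d ψ := by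
  obtain ⟨ρ0, hρ0, H⟩ := pvx1_sep h 1 (1 / κ + κ) hκ
  refine ⟨ρ0, hρ0, fun z hz hzd h1 h2 w hw hwz => ?_⟩
  obtain ⟨a, b, -⟩ := H z hz hzd h1 (by linarith) w (frontier_subset_closure hw) hwz
  exact Or.inr ⟨hw, a, b⟩

/-- **(b)**: a set whose closure lies in the open `D` has a thickening inside `D` -/
theorem pvx1_thick {D D' : Set ℂ} (hD : IsOpen D) (hb : Bornology.IsBounded D') (hsub : closure D' ⊆ D) :
    ∃ ρ1 : ℝ, 0 < ρ1 ∧ Metric.thickening ρ1 D' ⊆ D := by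
  obtain ⟨ρ1, h1, h2⟩ := hb.isCompact_closure.exists_thickening_subset_open hD hsub
  exact ⟨ρ1, h1, by rwa [Metric.thickening_closure] at h2⟩

/-! ## 4. the real Moebius map `(κ, 1 + κ, 1/κ) → (0, 1, ∞)`      (helper10) -/

noncomputable def pvx1A (κ : ℝ) : ℝ := (1 / κ - κ) * (1 / κ - κ - 1)

noncomputable def pvx1B (κ : ℝ) : ℝ := 1 + κ - 1 / κ

/-- the Moebius map of the line with `(κ, 1 + κ, 1/κ) → (0, 1, ∞)` -/
noncomputable def pvx1T (κ w : ℝ) : ℝ := pvx1A κ * (-1 / (w - 1 / κ)) + pvx1B κ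

theorem pvx1_T_eqns_cite : True := by
  have := @pvx1A.eq_1; have := @pvx1B.eq_1; have := @pvx1T.eq_1
  trivial

theorem pvx1_inv_gt {κ : ℝ} (h0 : 0 < κ) (h1 : κ < 1 / 2) : 2 < 1 / κ := by
  rw [lt_div_iff₀ h0]; linarith

theorem pvx1_A_pos {κ : ℝ} (h0 : 0 < κ) (h1 : κ < 1 / 2) : 0 < pvx1A κ := by
  have := pvx1_inv_gt h0 h1
  unfold pvx1A
  exact mul_pos (by linarith) (by linarith)

theorem pvx1_B_neg {κ : ℝ} (h0 : 0 < κ) (h1 : κ < 1 / 2) : pvx1B κ < 0 := by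
  have := pvx1_inv_gt h0 h1
  unfold pvx1B
  linarith

theorem pvx1_T_neg {κ w : ℝ} (h0 : 0 < κ) (h1 : κ < 1 / 2) (hw : 1 / κ < w) : pvx1T κ w < 0 := by
  have hA := pvx1_A_pos h0 h1
  have hB := pvx1_B_neg h0 h1
  have h2 : -1 / (w - 1 / κ) < 0 := div_neg_of_neg_of_pos (by norm_num) (by linarith)
  unfold pvx1T
  nlinarith

/-- the form used below the pole -/
theorem pvx1_T_eq (κ w : ℝ) : pvx1T κ w = pvx1A κ * (1 / (1 / κ - w)) + pvx1B κ := by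
  unfold pvx1T
  congr 2
  rw [← neg_sub (1 / κ) w, div_neg, neg_div, neg_neg]

theorem pvx1_T_le {κ w w' : ℝ} (h0 : 0 < κ) (h1 : κ < 1 / 2) (hw : w < 1 / κ) (hw' : w' < 1 / κ) : pvx1T κ w ≤ pvx1T κ w' ↔ w ≤ w' := by
  have hA := pvx1_A_pos h0 h1
  have p1 : 0 < 1 / κ - w := by linarith
  have p2 : 0 < 1 / κ - w' := by linarith
  rw [pvx1_T_eq, pvx1_T_eq, add_le_add_iff_right, mul_le_mul_iff_right₀ hA, one_div_le_one_div p1 p2]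
  constructor <;> intro h <;> linarith

theorem pvx1_T_zero {κ : ℝ} (h0 : 0 < κ) (h1 : κ < 1 / 2) : pvx1T κ κ = 0 := by
  have := pvx1_inv_gt h0 h1
  have h2 : 1 / κ - κ ≠ 0 := by intro h; linarith
  rw [pvx1_T_eq]
  unfold pvx1A pvx1B
  rw [mul_comm (1 / κ - κ), mul_assoc, mul_one_div_cancel h2]
  ring

theorem pvx1_T_one {κ : ℝ} (h0 : 0 < κ) (h1 : κ < 1 / 2) : pvx1T κ (1 + κ) = 1 := by
  have := pvx1_inv_gt h0 h1
  have h2 : 1 / κ - (1 + κ) ≠ 0 := by intro h; linarith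
  have e : pvx1A κ = (1 / κ - κ) * (1 / κ - (1 + κ)) := by unfold pvx1A; ring
  rw [pvx1_T_eq, e, mul_assoc, mul_one_div_cancel h2]
  unfold pvx1B
  ring

/-- closed form of `x' = T_κ (x - κ)` -/
theorem pvx1_T_x {κ x : ℝ} (h0 : 0 < κ) (hd : 0 < 1 - x * κ + κ ^ 2) :
    pvx1T κ (x - κ) = (1 - κ - κ ^ 2) * (x - 2 * κ) / (1 - x * κ + κ ^ 2) := by
  have h3 : 1 / κ - (x - κ) = (1 - x * κ + κ ^ 2) / κ := by field_simp; ring
  have hk : κ ≠ 0 := h0.ne'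
  rw [pvx1_T_eq, h3, one_div_div, eq_div_iff hd.ne', add_mul, mul_assoc, div_mul_cancel₀ _ hd.ne']
  unfold pvx1A pvx1B
  field_simp
  ring

/-- `|x' - x| ≤ 14 κ` -/
theorem pvx1_T_x_near {κ x : ℝ} (h0 : 0 < κ) (h1 : κ < 1 / 2) (hx0 : 0 < x) (hx1 : x < 1) : |pvx1T κ (x - κ) - x| ≤ 14 * κ := by
  have hxk : x * κ < 1 / 2 := by nlinarith
  have hd : 1 / 2 < 1 - x * κ + κ ^ 2 := by nlinarith [sq_nonneg κ]
  have hd0 : 0 < 1 - x * κ + κ ^ 2 := by linarith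
  have e : pvx1T κ (x - κ) - x = κ * (-2 - x + 2 * κ - 2 * κ * x + 2 * κ ^ 2 + x ^ 2) / (1 - x * κ + κ ^ 2) := by
    rw [pvx1_T_x h0 hd0, div_sub' hd0.ne']
    congr 1
    ring
  have hb : |-2 - x + 2 * κ - 2 * κ * x + 2 * κ ^ 2 + x ^ 2| ≤ 7 := by
    rw [abs_le]
    constructor <;> nlinarith [sq_nonneg κ, sq_nonneg x, mul_pos h0 hx0]
  rw [e, abs_div, abs_mul, abs_of_pos h0, abs_of_pos hd0, div_le_iff₀ hd0]
  calc κ * |-2 - x + 2 * κ - 2 * κ * x + 2 * κ ^ 2 + x ^ 2| ≤ κ * 7 := mul_le_mul_of_nonneg_left hb h0.le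
    _ = 14 * κ * (1 / 2) := by ring
    _ ≤ 14 * κ * (1 - x * κ + κ ^ 2) := mul_le_mul_of_nonneg_left hd.le (by positivity)

/-- x' = T_κ (x - κ) = (1 - κ - κ²)(x - 2κ)/(1 - xκ + κ²) -> x as κ -> 0+ -/
theorem pvx1_kappa {x η : ℝ} (hx0 : 0 < x) (hx1 : x < 1) (hη : 0 < η) :
    ∃ κ : ℝ, 0 < κ ∧ κ < 1 / 2 ∧ 2 * κ < x ∧ 0 < pvx1T κ (x - κ) ∧ pvx1T κ (x - κ) < 1 ∧ cardyF x - η ≤ cardyF (pvx1T κ (x - κ)) := by
  have hc : ContinuousWithinAt cardyF (Icc 0 1) x := pvcx_cardyF_cont x ⟨hx0.le, hx1.le⟩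
  rw [Metric.continuousWithinAt_iff] at hc
  obtain ⟨δ, hδ, H⟩ := hc η hη
  obtain ⟨κ, hκ⟩ : ∃ κ : ℝ, κ = min (1 / 4) (min (x / 4) (δ / 28)) := ⟨_, rfl⟩
  have k0 : 0 < κ := by rw [hκ]; exact lt_min (by norm_num) (lt_min (by positivity) (by positivity))
  have k1 : κ ≤ 1 / 4 := by rw [hκ]; exact min_le_left _ _
  have k2 : κ ≤ x / 4 := by rw [hκ]; exact (min_le_right _ _).trans (min_le_left _ _)
  have k3 : κ ≤ δ / 28 := by rw [hκ]; exact (min_le_right _ _).trans (min_le_right _ _)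
  have k12 : κ < 1 / 2 := by linarith
  have hinv := pvx1_inv_gt k0 k12
  have a1 : 0 < pvx1T κ (x - κ) := by
    rw [← pvx1_T_zero k0 k12]
    exact not_le.1 fun h => by
      have := (pvx1_T_le k0 k12 (by linarith) (by linarith)).1 h
      linarith
  have a2 : pvx1T κ (x - κ) < 1 := by
    rw [← pvx1_T_one k0 k12]
    exact not_le.1 fun h => by
      have := (pvx1_T_le k0 k12 (by linarith) (by linarith)).1 h
      linarith
  refine ⟨κ, k0, k12, by linarith, a1, a2, ?_⟩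
  have hn := pvx1_T_x_near k0 k12 hx0 hx1
  have hd : dist (pvx1T κ (x - κ)) x < δ := by
    rw [Real.dist_eq]
    linarith
  have := H ⟨a1.le, a2.le⟩ hd
  rw [Real.dist_eq, abs_lt] at this
  linarith [this.1]

/-! ## 5. the subdomains `Ψ⁻¹ (s 𝔻)`      (from `Chart.lean` sec. 4 of helper61) -/

/-- **the analytic subdomain**: chart `ψ0 = Cayley⁻¹ (Ψ / s)`, the radial projection keeps the chart coordinate and moves the points by less than `τ` -/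
theorem pvx1_sub (h : PvChart D d ψ) {τ : ℝ} (hτ : 0 < τ) :
    ∃ (D' : Set ℂ) (d0 : ℂ) (ψ0 : ℂ → ℂ), PvAn D' d0 ψ0 ∧ closure D' ⊆ D ∧
      ∀ z ∈ frontier D', z ≠ d0 → ∃ z' ∈ frontier D, z' ≠ d ∧ ψ z' = ψ0 z ∧ dist z z' < τ := by
  obtain ⟨s, hs0, hs1, H⟩ := h.lift_unif hτ
  refine ⟨h.sd s, h.sp s, h.sψ s, ⟨h.sub_chart hs0 hs1, h.sub_an hs0 hs1⟩, h.sd_closure_sub hs0 hs1, fun z hz hz0 => ?_⟩
  have hzc : z ∈ closure (h.sd s) := frontier_subset_closure hz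
  refine ⟨h.lift s z, h.lift_mem_fr hs0 hs1 hz, h.lift_ne_d hs0 hs1 hzc hz0, h.ψ_lift hs0 hs1 hzc hz0, ?_⟩
  rw [dist_eq_norm]
  exact (H s le_rfl hs1 z hzc).1

/-! ## 6. the marks -/

/-- **the chart `T_κ ∘ ψ0`**, pole at the point of coordinate `1/κ` -/
theorem pvx1_marks {D' : Set ℂ} {d0 : ℂ} {ψ0 : ℂ → ℂ} (h0 : PvAn D' d0 ψ0) {κ : ℝ} (hκ0 : 0 < κ) (hκ1 : κ < 1 / 2) :
    ∃ (d' : ℂ) (ψ' : ℂ → ℂ), PvAn D' d' ψ' ∧ d' ∈ frontier D' ∧ d' ≠ d0 ∧ ψ0 d' = ((1 / κ : ℝ) : ℂ) ∧ ψ' d0 = ((pvx1B κ : ℝ) : ℂ) ∧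
      ∀ z ∈ frontier D', z ≠ d0 → z ≠ d' → ∃ w : ℝ, ψ0 z = (w : ℂ) ∧ w ≠ 1 / κ ∧ ψ' z = ((pvx1T κ w : ℝ) : ℂ) := by
  obtain ⟨d', ⟨hd'f, hd'0⟩, hd'⟩ : ((1 / κ : ℝ) : ℂ) ∈ ψ0 '' (frontier D' \ {d0}) := by
    rw [h0.toPvChart.imgB]
    simp
  have hd'0' : d' ≠ d0 := hd'0
  refine ⟨d', _, (h0.inv hd'f hd'0').aff (α := pvx1A κ) (β := pvx1B κ) (pvx1_A_pos hκ0 hκ1), hd'f, hd'0', hd', by simp, ?_⟩
  intro z hz hz0 hzd
  refine ⟨(ψ0 z).re, ?_, ?_, ?_⟩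
  · apply Complex.ext
    · simp
    · simp [h0.toPvChart.im_zero hz hz0]
  · intro hw
    apply h0.toPvChart.psi_ne hd'f hd'0' (frontier_subset_closure hz) hz0 hzd
    rw [hd']
    apply Complex.ext
    · simp [hw]
    · simp [h0.toPvChart.im_zero hz hz0]
  · have e1 : ψ0 z = (((ψ0 z).re : ℝ) : ℂ) := by
      apply Complex.ext
      · simp
      · simp [h0.toPvChart.im_zero hz hz0]
    simp only [if_neg hz0, hd']
    rw [e1]
    unfold pvx1T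
    push_cast
    simp

/-- the shrunk left arc -/
def pvx1AL (D : Set ℂ) (d : ℂ) (ψ : ℂ → ℂ) (x κ : ℝ) : Set ℂ := {z | z ∈ frontier D ∧ z ≠ d ∧ κ ≤ (ψ z).re ∧ (ψ z).re ≤ x - κ}

/-- the shrunk right arc -/
def pvx1AR (D : Set ℂ) (d : ℂ) (ψ : ℂ → ℂ) (κ : ℝ) : Set ℂ := {z | z ∈ frontier D ∧ z ≠ d ∧ 1 + κ ≤ (ψ z).re ∧ (ψ z).re ≤ 1 / κ}

theorem pvx1_arc_eqns_cite : True := by
  have := @pvx1AL.eq_1; have := @pvx1AR.eq_1
  trivial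

/-- **(a), (b), (c)**: the analytic quad for given `κ`, `τ` -/
theorem pvx1_quad (h : PvChart D d ψ) {x κ τ : ℝ} (hx1 : x < 1) (hκ0 : 0 < κ) (hκ1 : κ < 1 / 2) (hτ : 0 < τ) :
    ∃ (D' : Set ℂ) (d' : ℂ) (ψ' : ℂ → ℂ), PvAn D' d' ψ' ∧ closure D' ⊆ D ∧
      (∀ z ∈ pvArcL D' d' ψ' (pvx1T κ (x - κ)), ∃ z' ∈ pvx1AL D d ψ x κ, dist z z' < τ) ∧
      (∀ z ∈ pvArcR D' d' ψ', ∃ z' ∈ pvx1AR D d ψ κ, dist z z' < τ) := by
  obtain ⟨D', d0, ψ0, h0, hcl, hrad⟩ := pvx1_sub h hτ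
  obtain ⟨d', ψ', h', hd'f, hd'0, hd', hψ'0, hT⟩ := pvx1_marks h0 hκ0 hκ1
  have hB := pvx1_B_neg hκ0 hκ1
  have hk2 := pvx1_inv_gt hκ0 hκ1
  refine ⟨D', d', ψ', h', hcl, ?_, ?_⟩
  · rintro z ⟨hzf, hzd, hz1, hz2⟩
    have hz0 : z ≠ d0 := by
      rintro rfl
      rw [hψ'0, Complex.ofReal_re] at hz1
      linarith
    obtain ⟨w, hw, hwk, hTw⟩ := hT z hzf hz0 hzd
    rw [hTw, Complex.ofReal_re] at hz1 hz2
    have hwlt : w < 1 / κ := by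
      rcases lt_or_gt_of_ne hwk with h1 | h1
      · exact h1
      · linarith [pvx1_T_neg hκ0 hκ1 h1]
    obtain ⟨z', hz'f, hz'd, hz'ψ, hz'τ⟩ := hrad z hzf hz0
    refine ⟨z', ⟨hz'f, hz'd, ?_, ?_⟩, hz'τ⟩
    · rw [hz'ψ, hw, Complex.ofReal_re]
      refine (pvx1_T_le hκ0 hκ1 (by linarith) hwlt).1 ?_
      rw [pvx1_T_zero hκ0 hκ1]
      exact hz1
    · rw [hz'ψ, hw, Complex.ofReal_re]
      exact (pvx1_T_le hκ0 hκ1 hwlt (by linarith)).1 hz2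
  · rintro z (rfl | ⟨hzf, hzd, hz1⟩)
    · obtain ⟨z', hz'f, hz'd, hz'ψ, hz'τ⟩ := hrad z hd'f hd'0
      refine ⟨z', ⟨hz'f, hz'd, ?_, ?_⟩, hz'τ⟩
      · rw [hz'ψ, hd', Complex.ofReal_re]
        linarith
      · rw [hz'ψ, hd', Complex.ofReal_re]
    · have hz0 : z ≠ d0 := by
        rintro rfl
        rw [hψ'0, Complex.ofReal_re] at hz1
        linarith
      obtain ⟨w, hw, hwk, hTw⟩ := hT z hzf hz0 hzd
      rw [hTw, Complex.ofReal_re] at hz1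
      have hwlt : w < 1 / κ := by
        rcases lt_or_gt_of_ne hwk with h1 | h1
        · exact h1
        · linarith [pvx1_T_neg hκ0 hκ1 h1]
      obtain ⟨z', hz'f, hz'd, hz'ψ, hz'τ⟩ := hrad z hzf hz0
      refine ⟨z', ⟨hz'f, hz'd, ?_, ?_⟩, hz'τ⟩
      · rw [hz'ψ, hw, Complex.ofReal_re]
        refine (pvx1_T_le hκ0 hκ1 (by linarith) hwlt).1 ?_
        rw [pvx1_T_one hκ0 hκ1]
        exact hz1
      · rw [hz'ψ, hw, Complex.ofReal_re]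
        exact hwlt.le

/-! ## 7. THE EXPORT OF E1 -/

/-- **E1**: analytic quads inside `D` whose arcs are `τ`-close to compact sub-arcs `AL`, `AR` of the two arcs of `D`, these being `ρ0`-inside the arcs;
the modulus `x'` loses at most `η` in Cardy's formula -/
theorem pvx1_main (h : PvChart D d ψ) {x η : ℝ} (hx0 : 0 < x) (hx1 : x < 1) (hη : 0 < η) :
    ∃ (x' ρ0 : ℝ) (AL AR : Set ℂ), 0 < x' ∧ x' < 1 ∧ cardyF x - η ≤ cardyF x' ∧ 0 < ρ0 ∧ AL ⊆ frontier D ∧ AR ⊆ frontier D ∧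
      (∀ z ∈ AL, ∀ w ∈ frontier D, dist w z < ρ0 → w ∈ pvArcL D d ψ x) ∧ (∀ z ∈ AR, ∀ w ∈ frontier D, dist w z < ρ0 → w ∈ pvArcR D d ψ) ∧
      ∀ τ : ℝ, 0 < τ → ∃ (D' : Set ℂ) (d' : ℂ) (ψ' : ℂ → ℂ), PvAn D' d' ψ' ∧ closure D' ⊆ D ∧
        (∀ z ∈ pvArcL D' d' ψ' x', ∃ z' ∈ AL, dist z z' < τ) ∧ (∀ z ∈ pvArcR D' d' ψ', ∃ z' ∈ AR, dist z z' < τ) := by
  obtain ⟨κ, hκ0, hκ1, -, hx'0, hx'1, hF⟩ := pvx1_kappa hx0 hx1 hη
  obtain ⟨ρL, hρL, HL⟩ := pvx1_sepL h x hκ0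
  obtain ⟨ρR, hρR, HR⟩ := pvx1_sepR h hκ0
  refine ⟨pvx1T κ (x - κ), min ρL ρR, pvx1AL D d ψ x κ, pvx1AR D d ψ κ, hx'0, hx'1, hF, lt_min hρL hρR, fun z hz => hz.1, fun z hz => hz.1, ?_, ?_, ?_⟩
  · exact fun z hz w hw hwz => HL z hz.1 hz.2.1 hz.2.2.1 hz.2.2.2 w hw (hwz.trans_le (min_le_left _ _))
  · exact fun z hz w hw hwz => HR z hz.1 hz.2.1 hz.2.2.1 hz.2.2.2 w hw (hwz.trans_le (min_le_right _ _))
  · exact fun τ hτ => pvx1_quad h hx1 hκ0 hκ1 hτ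

end Claimed.Agent.R289
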