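import Claimed.Agent.R289.Del.Strict
import Claimed.Agent.R289.Rsw.Topo

/-!
# Row 289 (S0537), box EXT, file Ext/Cells : THICK CELLS (kit T3 of the design of helper74)      (owner helper255, with helper132; prefix `pvxk_`, defs `vorThick vorThickUn pvxkFat`)

CONSUMER: DET-MAIN / DET-BANK / TGT of EXT (74, 284, 158, 93, 290, 49).   Pure geometry on a site set `Y : Set ℂ`; no probability, no chart.
* `vorThick Y t w  = {z | ∀ v ∈ Y, |z-w| ≤ |z-v| + t}`         the thick cell `C_t(w)`: closed, STAR-SHAPED about `w`, increasing in `t`, `C_0 = vorCell`, `⋂_{t>0} C_t = vorCell`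
* `vorThickUn Y t A`                                            the union of the thick cells of the sites of `A`
* `pvxkFat A B t   = {z | ∃ a ∈ A, ∀ b ∈ B, |z-a| ≤ |z-b| + t}` `Wh_t = pvxkFat Wh Bk t`,   `Bk_t = pvxkFat Bk Wh (-t)`   (quantifier forms of `dist(z,Wh) ≤ dist(z,Bk) + t`, `dist(z,Bk) + t ≤ dist(z,Wh)`; robust for empty classes)
* sec. 1  thick cells;   sec. 2  the regions `pvxkFat`: closed, cover, union of thick cells;   sec. 3  **NERVE** `pvxk_nerve`: for `t ≤ t0(Y,K)` thick cells which meet in the compact `K` are thickenings of cells which meet in `K`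
* sec. 4  **CHAIN** `pvxk_chain`: a preconnected subset of `vorThickUn Y t A ∩ K` gives a chain of sites of `A`, consecutive CELLS meeting in `K`
* sec. 5  **STRICT** `pvxk_strict_thin`: a compact subset of `vorStrict Y S` lies in `pvxkFat S (Y \ S) (-t)` for some `t > 0`, and then misses the thick cells `C_t'(w)`, `w ∈ Y \ S`, `t' < t`
          (`own cells only` for the strict polygon of a chain = `dels_chain` with `A := S`: `pvxk_polygon`)
* sec. 6  frozen bridge: `pvBlack`, `pvWhite`, `delsBk`, `delsWh`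
-/

set_option autoImplicit false

namespace Claimed.Agent.R289

open Set Metric Claims.C0465

/-! ## 0. definitions -/

/-- the thick cell `C_t(w)` -/
def vorThick (Y : Set ℂ) (t : ℝ) (w : ℂ) : Set ℂ := {z | ∀ v ∈ Y, ‖z - w‖ ≤ ‖z - v‖ + t}

/-- the union of the thick cells of the sites of `A` -/
def vorThickUn (Y : Set ℂ) (t : ℝ) (A : Set ℂ) : Set ℂ := {z | ∃ w ∈ A, z ∈ vorThick Y t w}

/-- `dist(z, A) ≤ dist(z, B) + t` in quantifier form -/
def pvxkFat (A B : Set ℂ) (t : ℝ) : Set ℂ := {z | ∃ a ∈ A, ∀ b ∈ B, ‖z - a‖ ≤ ‖z - b‖ + t}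

theorem pvxk_eqns_cite : True := by
  have := @vorThick.eq_1
  have := @vorThickUn.eq_1
  have := @pvxkFat.eq_1
  trivial

variable {Y A B K S : Set ℂ} {t t' : ℝ} {w w' z : ℂ}

/-! ## 1. thick cells -/

theorem pvxk_thick_zero (Y : Set ℂ) (w : ℂ) : vorThick Y 0 w = vorCell Y w := by
  ext z
  simp only [vorThick, vorCell, add_zero]

theorem pvxk_thick_mono (Y : Set ℂ) (w : ℂ) (h : t ≤ t') : vorThick Y t w ⊆ vorThick Y t' w := by
  intro z hz v hv
  have := hz v hv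
  linarith

theorem pvxk_cell_subset_thick (Y : Set ℂ) (w : ℂ) (h : 0 ≤ t) : vorCell Y w ⊆ vorThick Y t w := by
  intro z hz v hv
  have := hz v hv
  linarith

theorem pvxk_thick_anti {Y' : Set ℂ} (h : Y ⊆ Y') (t : ℝ) (w : ℂ) : vorThick Y' t w ⊆ vorThick Y t w := by
  intro z hz v hv
  exact hz v (h hv)

theorem pvxk_self_mem_thick (Y : Set ℂ) (w : ℂ) (h : 0 ≤ t) : w ∈ vorThick Y t w := by
  intro v _
  rw [sub_self, norm_zero]
  have := norm_nonneg (w - v)
  linarith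

theorem pvxk_thick_closed (Y : Set ℂ) (t : ℝ) (w : ℂ) : IsClosed (vorThick Y t w) := by
  have e : vorThick Y t w = ⋂ v ∈ Y, {z : ℂ | ‖z - w‖ ≤ ‖z - v‖ + t} := by
    ext z
    simp only [vorThick, mem_setOf_eq, mem_iInter]
  rw [e]
  refine isClosed_biInter fun v _ => isClosed_le ?_ ?_
  · exact (continuous_id.sub continuous_const).norm
  · exact (continuous_id.sub continuous_const).norm.add continuous_const

/-- **star-shaped** about the site.   Plan: `p = w + λ (z - w)`: `|z-w| ≤ |z-v| + t ≤ (1-λ)|z-w| + |p-v| + t`, and `|p-w| = λ|z-w|`. -/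
theorem pvxk_thick_star (h : z ∈ vorThick Y t w) : segment ℝ w z ⊆ vorThick Y t w := by
  rintro p ⟨a, b, ha, hb, hab, rfl⟩ v hv
  have h1 := h v hv
  have e1 : a • w + b • z - w = b • (z - w) := by
    have : a = 1 - b := by linarith
    rw [this]
    simp only [sub_smul, one_smul, smul_sub]
    ring
  have e2 : z - (a • w + b • z) = a • (z - w) := by
    have : b = 1 - a := by linarith
    rw [this]
    simp only [sub_smul, one_smul, smul_sub]
    ring
  have h2 : ‖z - v‖ ≤ ‖z - (a • w + b • z)‖ + ‖a • w + b • z - v‖ := by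
    have := norm_add_le (z - (a • w + b • z)) (a • w + b • z - v)
    simpa using this
  rw [e2, norm_smul, Real.norm_of_nonneg ha] at h2
  rw [e1, norm_smul, Real.norm_of_nonneg hb]
  have h3 : b * ‖z - w‖ = ‖z - w‖ - a * ‖z - w‖ := by
    have : b = 1 - a := by linarith
    rw [this]
    ring
  rw [h3]
  linarith

theorem pvxk_thick_starConvex (Y : Set ℂ) (t : ℝ) (w : ℂ) : StarConvex ℝ w (vorThick Y t w) := by
  exact starConvex_iff_segment_subset.2 fun _ h => pvxk_thick_star h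

theorem pvxk_thick_joined (h : z ∈ vorThick Y t w) : JoinedIn (vorThick Y t w) w z := by
  exact JoinedIn.of_segment_subset (pvxk_thick_star h)

theorem pvxk_thick_preconnected (Y : Set ℂ) (t : ℝ) (w : ℂ) : IsPreconnected (vorThick Y t w) := by
  rcases (vorThick Y t w).eq_empty_or_nonempty with h | h
  · rw [h]
    exact isPreconnected_empty
  · obtain ⟨z, hz⟩ := h
    exact ((pvxk_thick_starConvex Y t w).isPathConnected (pvxk_thick_star hz (left_mem_segment ℝ w z))).isConnected.isPreconnected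

/-- the thick cells decrease to the cell -/
theorem pvxk_thick_iInter (Y : Set ℂ) (w : ℂ) : ⋂ (t : ℝ) (_ : 0 < t), vorThick Y t w = vorCell Y w := by
  ext z
  simp only [mem_iInter]
  constructor
  · intro h v hv
    exact le_of_forall_pos_le_add fun ε hε => h ε hε v hv
  · intro h t ht v hv
    exact (h v hv).trans (by linarith)

/-- location: where the sites are `μ`-dense the thick cell stays within `μ + t` of its site -/
theorem pvxk_thick_near {μ : ℝ} (hd : VorDense Y K μ) (hz : z ∈ vorThick Y t w) (hK : z ∈ K) : ‖z - w‖ ≤ μ + t := by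
  obtain ⟨u, hu, h1⟩ := hd z hK
  have h2 := hz u hu
  linarith

/-- location, global form.   Plan: as `vor_cell_subset_ball`: star-shaped, so a point of the thick cell outside `closedBall w (μ+t)` gives a point of it on the sphere of radius `R' ∈ (μ+t, R]`. -/
theorem pvxk_thick_subset_ball {μ R : ℝ} (hR0 : 0 ≤ R) (hR : μ + t < R) (hd : VorDense Y (closedBall w R) μ) : vorThick Y t w ⊆ closedBall w (μ + t) := by
  intro z hz
  rw [mem_closedBall, dist_eq_norm]
  by_cases h1 : ‖z - w‖ ≤ R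
  · exact pvxk_thick_near hd hz (by rw [mem_closedBall, dist_eq_norm]; exact h1)
  · exfalso
    have h2 : R < ‖z - w‖ := not_le.1 h1
    have h3 : 0 < ‖z - w‖ := lt_of_le_of_lt hR0 h2
    set p : ℂ := w + ((R / ‖z - w‖ : ℝ) : ℂ) * (z - w) with hp
    have hpn : ‖p - w‖ = R := by
      have : p - w = ((R / ‖z - w‖ : ℝ) : ℂ) * (z - w) := by rw [hp]; ring
      rw [this, norm_mul, Complex.norm_real, Real.norm_of_nonneg (div_nonneg hR0 h3.le), div_mul_cancel₀ _ h3.ne']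
    have hps : p ∈ segment ℝ w z := by
      rw [segment_eq_image']
      refine ⟨R / ‖z - w‖, ⟨div_nonneg hR0 h3.le, (div_le_one h3).2 h2.le⟩, ?_⟩
      show w + (R / ‖z - w‖) • (z - w) = p
      rw [hp, Complex.real_smul]
    have h4 := pvxk_thick_near hd (pvxk_thick_star hz hps) (by rw [mem_closedBall, dist_eq_norm, hpn])
    rw [hpn] at h4
    linarith

/-- the sites whose thick cell meets a bounded set are finitely many -/
theorem pvxk_finite_meet (h : VorLF Y) (hK : Bornology.IsBounded K) (t : ℝ) : {w | w ∈ Y ∧ (vorThick Y t w ∩ K).Nonempty}.Finite := by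
  rcases Y.eq_empty_or_nonempty with rfl | ⟨v₀, hv₀⟩
  · refine Set.Finite.subset Set.finite_empty ?_
    rintro w ⟨hw, -⟩
    exact hw
  · obtain ⟨R, hR⟩ := hK.subset_closedBall (0 : ℂ)
    refine (h (R + (R + ‖v₀‖) + t)).subset ?_
    rintro w ⟨hw, z, hz, hzK⟩
    refine ⟨hw, ?_⟩
    have h1 : ‖z‖ ≤ R := by simpa using hR hzK
    have h2 := hz v₀ hv₀
    have h3 : ‖z - v₀‖ ≤ ‖z‖ + ‖v₀‖ := norm_sub_le z v₀
    have h4 : ‖w‖ ≤ ‖z‖ + ‖z - w‖ := by
      have : w = z - (z - w) := by ring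
      calc ‖w‖ = ‖z - (z - w)‖ := by rw [← this]
        _ ≤ ‖z‖ + ‖z - w‖ := norm_sub_le _ _
    rw [mem_closedBall, dist_zero_right]
    linarith

theorem pvxk_un_mono (Y : Set ℂ) {A' : Set ℂ} (hA : A ⊆ A') (h : t ≤ t') : vorThickUn Y t A ⊆ vorThickUn Y t' A' := by
  rintro z ⟨w, hw, hz⟩
  exact ⟨w, hA hw, pvxk_thick_mono Y w h hz⟩

theorem pvxk_un_zero (Y A : Set ℂ) : vorThickUn Y 0 A = vorUn Y A := by
  unfold vorThickUn vorUn
  simp only [pvxk_thick_zero]

theorem pvxk_un_union (Y : Set ℂ) (t : ℝ) (A A' : Set ℂ) : vorThickUn Y t (A ∪ A') = vorThickUn Y t A ∪ vorThickUn Y t A' := by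
  ext z
  constructor
  · rintro ⟨w, hw | hw, hz⟩
    · exact Or.inl ⟨w, hw, hz⟩
    · exact Or.inr ⟨w, hw, hz⟩
  · rintro (⟨w, hw, hz⟩ | ⟨w, hw, hz⟩)
    · exact ⟨w, Or.inl hw, hz⟩
    · exact ⟨w, Or.inr hw, hz⟩

/-- Plan: locally finite union of closed sets (`pvxk_finite_meet` on balls), as `vor_isClosed_un`. -/
theorem pvxk_un_closed (h : VorLF Y) (hA : A ⊆ Y) (t : ℝ) : IsClosed (vorThickUn Y t A) := by
  have hU : vorThickUn Y t A = ⋃ v : A, vorThick Y t v := by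
    ext z; simp [vorThickUn]
  rw [hU]
  refine LocallyFinite.isClosed_iUnion ?_ fun v => pvxk_thick_closed Y t v
  intro x
  refine ⟨closedBall x 1, closedBall_mem_nhds x one_pos, ?_⟩
  have hfin := pvxk_finite_meet h (isBounded_closedBall (x := x) (r := 1)) t
  refine Set.Finite.of_finite_image (f := fun v : A => (v : ℂ)) (hfin.subset ?_) Subtype.val_injective.injOn
  rintro _ ⟨v, hv, rfl⟩
  exact ⟨hA v.2, hv⟩

/-! ## 2. the regions -/

theorem pvxk_fat_mono {A' B' : Set ℂ} (hA : A ⊆ A') (hB : B' ⊆ B) (h : t ≤ t') : pvxkFat A B t ⊆ pvxkFat A' B' t' := by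
  rintro z ⟨a, ha, hb⟩
  exact ⟨a, hA ha, fun b hb' => (hb b (hB hb')).trans (by linarith)⟩

/-- a nearest point of a nonempty locally finite set -/
theorem pvxk_nearest (h : VorLF A) (hne : A.Nonempty) (z : ℂ) : ∃ a ∈ A, ∀ a' ∈ A, ‖z - a‖ ≤ ‖z - a'‖ := by
  obtain ⟨v, hv, hz⟩ := vor_cover h hne z
  exact ⟨v, hv, hz⟩

/-- in the definition of `pvxkFat` the site may be taken nearest to `z` in `A` -/
theorem pvxk_fat_nearest (h : VorLF A) (hz : z ∈ pvxkFat A B t) : ∃ a ∈ A, (∀ a' ∈ A, ‖z - a‖ ≤ ‖z - a'‖) ∧ ∀ b ∈ B, ‖z - a‖ ≤ ‖z - b‖ + t := by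
  obtain ⟨a0, ha0, hb⟩ := hz
  obtain ⟨a, ha, hmin⟩ := pvxk_nearest h ⟨a0, ha0⟩ z
  exact ⟨a, ha, hmin, fun b hbB => (hmin a0 ha0).trans (hb b hbB)⟩

/-- `Wh_t` is the union of the thick cells of the white sites -/
theorem pvxk_fat_eq_un (h : VorLF A) (ht : 0 ≤ t) : pvxkFat A B t = vorThickUn (A ∪ B) t A := by
  ext z
  constructor
  · intro hz
    obtain ⟨a, ha, hmin, hb⟩ := pvxk_fat_nearest h hz
    refine ⟨a, ha, fun v hv => ?_⟩
    rcases hv with hv | hv
    · have := hmin v hv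
      linarith
    · exact hb v hv
  · rintro ⟨w, hw, hz⟩
    exact ⟨w, hw, fun b hb => hz b (Or.inr hb)⟩

theorem pvxk_un_subset_fat (hB : B ⊆ Y) : vorThickUn Y t A ⊆ pvxkFat A B t := by
  rintro z ⟨w, hw, hz⟩
  exact ⟨w, hw, fun b hb => hz b (hB hb)⟩

/-- **COVER** (every `t`) -/
theorem pvxk_cover (hA : VorLF A) (hne : (A ∪ B).Nonempty) (t : ℝ) : pvxkFat A B (-t) ∪ pvxkFat B A t = univ := by
  refine Set.eq_univ_of_forall fun z => ?_
  rcases Set.eq_empty_or_nonempty A with hAe | hAne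
  · subst hAe
    obtain ⟨b, hb⟩ := hne
    rcases hb with hb | hb
    · exact absurd hb (Set.notMem_empty b)
    · exact Or.inr ⟨b, hb, fun a ha => absurd ha (Set.notMem_empty a)⟩
  · obtain ⟨a, ha, hmin⟩ := pvxk_nearest hA hAne z
    by_cases hall : ∀ b ∈ B, ‖z - a‖ ≤ ‖z - b‖ + -t
    · exact Or.inl ⟨a, ha, hall⟩
    · simp only [not_forall, not_le] at hall
      obtain ⟨b, hb, hlt⟩ := hall
      refine Or.inr ⟨b, hb, fun a' ha' => ?_⟩
      have := hmin a' ha'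
      linarith

/-- `Bk_t` and `Wh_t'` are disjoint for `t' < t` -/
theorem pvxk_disjoint (h : t' < t) : Disjoint (pvxkFat A B (-t)) (pvxkFat B A t') := by
  rw [Set.disjoint_left]
  rintro z ⟨a, ha, h1⟩ ⟨b, hb, h2⟩
  have e1 := h1 b hb
  have e2 := h2 a ha
  linarith

/-- Plan: `B = ∅`: `univ` or `∅`.  `b₀ ∈ B`: the sets `{z | ∀ b ∈ B, |z-a| ≤ |z-b| + t}`, `a ∈ A`, are closed and locally finite (`|a| ≤ 2R + |b₀| + t` if the set meets `closedBall 0 R`). -/
theorem pvxk_fat_closed (h : VorLF A) (B : Set ℂ) (t : ℝ) : IsClosed (pvxkFat A B t) := by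
  rcases B.eq_empty_or_nonempty with rfl | ⟨b0, hb0⟩
  · rcases A.eq_empty_or_nonempty with rfl | ⟨a0, ha0⟩
    · have : pvxkFat ∅ ∅ t = ∅ := by
        ext z
        simp [pvxkFat]
      rw [this]
      exact isClosed_empty
    · have : pvxkFat A ∅ t = univ := by
        ext z
        simp only [pvxkFat, mem_ofPred_eq, mem_univ, iff_true]
        exact ⟨a0, ha0, fun b hb => hb.elim⟩
      rw [this]
      exact isClosed_univ
  · have e : pvxkFat A B t = ⋃ a : A, {z : ℂ | ∀ b ∈ B, ‖z - (a : ℂ)‖ ≤ ‖z - b‖ + t} := by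
      ext z
      simp only [pvxkFat, mem_ofPred_eq, mem_iUnion, Subtype.exists, exists_prop]
    rw [e]
    refine LocallyFinite.isClosed_iUnion ?_ fun a => ?_
    · intro z
      refine ⟨closedBall z 1, closedBall_mem_nhds z one_pos, ?_⟩
      have hf : (A ∩ closedBall (0 : ℂ) (‖z‖ + 1 + (1 + ‖z - b0‖ + t))).Finite := h _
      have hinj : Function.Injective (fun a : A => (a : ℂ)) := Subtype.val_injective
      refine Set.Finite.of_finite_image (f := fun a : A => (a : ℂ)) (hf.subset ?_) hinj.injOn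
      rintro _ ⟨a, ⟨p, hp1, hp2⟩, rfl⟩
      refine ⟨a.2, ?_⟩
      rw [mem_closedBall, dist_zero_right]
      rw [mem_closedBall, dist_eq_norm] at hp2
      have h1 := hp1 b0 hb0
      have h2 : ‖p - b0‖ ≤ ‖p - z‖ + ‖z - b0‖ := by
        have := norm_add_le (p - z) (z - b0)
        rwa [sub_add_sub_cancel] at this
      have h3 : ‖p‖ ≤ ‖p - z‖ + ‖z‖ := by
        have := norm_add_le (p - z) z
        rwa [sub_add_cancel] at this
      have h4 : ‖(a : ℂ)‖ ≤ ‖p‖ + ‖p - a‖ := by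
        have := norm_sub_le p (p - a)
        rwa [sub_sub_cancel] at this
      linarith
    · have : {z : ℂ | ∀ b ∈ B, ‖z - (a : ℂ)‖ ≤ ‖z - b‖ + t} = ⋂ b ∈ B, {z : ℂ | ‖z - (a : ℂ)‖ ≤ ‖z - b‖ + t} := by
        ext z
        simp only [mem_ofPred_eq, mem_iInter]
      rw [this]
      exact isClosed_biInter fun b _ => isClosed_le (by fun_prop) (by fun_prop)

/-- `Bk_t ⊆` strict black region, `t > 0` -/
theorem pvxk_thin_subset_strict (h : VorLF Y) (hA : A ⊆ Y) (ht : 0 < t) : pvxkFat A (Y \ A) (-t) ⊆ vorStrict Y A := by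
  intro z hz
  have hlfA : VorLF A := fun R => (h R).subset (inter_subset_inter_left _ hA)
  obtain ⟨a, haA, hmin, hgap⟩ := pvxk_fat_nearest hlfA hz
  refine ⟨⟨a, haA, fun u hu => ?_⟩, ?_⟩
  · by_cases huA : u ∈ A
    · exact hmin u huA
    · have := hgap u ⟨hu, huA⟩
      linarith
  · rintro ⟨b, hb, hzb⟩
    have h1 := hgap b hb
    have h2 := hzb a (hA haA)
    linarith

/-! ## 3. the nerve -/

/-- one pair.   Plan: `n ↦ C_{1/(n+1)}(w) ∩ C_{1/(n+1)}(w') ∩ K` is a decreasing sequence of compact sets with empty intersection (`pvxk_thick_iInter`): `IsCompact.nonempty_iInter_of_sequence_nonempty_isCompact_isClosed`. -/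
theorem pvxk_nerve_pair (hK : IsCompact K) (Y : Set ℂ) (w w' : ℂ) (h : vorCell Y w ∩ vorCell Y w' ∩ K = ∅) : ∃ t0 > 0, vorThick Y t0 w ∩ vorThick Y t0 w' ∩ K = ∅ := by
  by_contra hcon
  push Not at hcon
  set F : ℕ → Set ℂ := fun n => vorThick Y (1 / ((n : ℝ) + 1)) w ∩ vorThick Y (1 / ((n : ℝ) + 1)) w' ∩ K with hF
  have hpos : ∀ n : ℕ, (0 : ℝ) < 1 / ((n : ℝ) + 1) := fun n => by positivity
  have hne : (⋂ n, F n).Nonempty := by
    refine IsCompact.nonempty_iInter_of_sequence_nonempty_isCompact_isClosed F (fun n => ?_) (fun n => ?_) ?_ (fun n => ?_)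
    · have hle : 1 / (((n + 1 : ℕ) : ℝ) + 1) ≤ 1 / ((n : ℝ) + 1) := by
        apply one_div_le_one_div_of_le (by positivity)
        push_cast
        linarith
      exact inter_subset_inter_left _ (inter_subset_inter (pvxk_thick_mono Y w hle) (pvxk_thick_mono Y w' hle))
    · exact hcon _ (hpos n)
    · exact hK.inter_left ((pvxk_thick_closed Y _ w).inter (pvxk_thick_closed Y _ w'))
    · exact ((pvxk_thick_closed Y _ w).inter (pvxk_thick_closed Y _ w')).inter hK.isClosed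
  obtain ⟨z, hz⟩ := hne
  rw [mem_iInter] at hz
  have key : ∀ u : ℂ, (∀ n : ℕ, z ∈ vorThick Y (1 / ((n : ℝ) + 1)) u) → z ∈ vorCell Y u := by
    intro u hu
    rw [← pvxk_thick_iInter Y u]
    simp only [mem_iInter]
    intro s hs
    obtain ⟨n, hn⟩ := exists_nat_one_div_lt hs
    exact pvxk_thick_mono Y u hn.le (hu n)
  have : z ∈ vorCell Y w ∩ vorCell Y w' ∩ K := ⟨⟨key w fun n => (hz n).1.1, key w' fun n => (hz n).1.2⟩, (hz 0).2⟩
  rw [h] at this
  exact this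

/-- **NERVE**: for small `t` the thick cells which meet in `K` are the thickenings of cells which meet in `K`.   Plan: finitely many sites by `pvxk_finite_meet` at `t = 1`; minimum of the `t0` of the pairs and of `1`. -/
theorem pvxk_nerve (h : VorLF Y) (hK : IsCompact K) : ∃ t0 > 0, ∀ t ≤ t0, ∀ w ∈ Y, ∀ w' ∈ Y, (vorThick Y t w ∩ vorThick Y t w' ∩ K).Nonempty → (vorCell Y w ∩ vorCell Y w' ∩ K).Nonempty := by
  classical
  have hfin := pvxk_finite_meet (Y := Y) (K := K) h hK.isBounded 1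
  set F : Set ℂ := {w | w ∈ Y ∧ (vorThick Y 1 w ∩ K).Nonempty} with hF
  have hpair : ∀ p : ℂ × ℂ, ∃ t0 > 0, (vorThick Y t0 p.1 ∩ vorThick Y t0 p.2 ∩ K).Nonempty → (vorCell Y p.1 ∩ vorCell Y p.2 ∩ K).Nonempty := by
    intro p
    by_cases hp : vorCell Y p.1 ∩ vorCell Y p.2 ∩ K = ∅
    · obtain ⟨t0, h0, h1⟩ := pvxk_nerve_pair hK Y p.1 p.2 hp
      exact ⟨t0, h0, fun h2 => absurd h1 (nonempty_iff_ne_empty.1 h2)⟩
    · exact ⟨1, one_pos, fun _ => nonempty_iff_ne_empty.2 hp⟩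
  choose τ hτ0 hτ using hpair
  have hFF : (F ×ˢ F).Finite := hfin.prod hfin
  obtain ⟨t0, ht0, ht1, hmin⟩ : ∃ t0 > 0, t0 ≤ 1 ∧ ∀ p ∈ F ×ˢ F, t0 ≤ τ p := by
    rcases (F ×ˢ F).eq_empty_or_nonempty with he | hne
    · exact ⟨1, one_pos, le_refl _, fun p hp => by rw [he] at hp; exact hp.elim⟩
    · obtain ⟨p0, hp0, hmin⟩ := Set.exists_min_image (F ×ˢ F) τ hFF hne
      exact ⟨min 1 (τ p0), lt_min one_pos (hτ0 p0), min_le_left _ _, fun p hp => (min_le_right _ _).trans (hmin p hp)⟩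
  refine ⟨t0, ht0, fun t ht w hw w' hw' hne => ?_⟩
  obtain ⟨z, ⟨hz1, hz2⟩, hzK⟩ := hne
  have hwF : w ∈ F := ⟨hw, z, pvxk_thick_mono Y w (ht.trans ht1) hz1, hzK⟩
  have hwF' : w' ∈ F := ⟨hw', z, pvxk_thick_mono Y w' (ht.trans ht1) hz2, hzK⟩
  have hle : t ≤ τ (w, w') := ht.trans (hmin (w, w') ⟨hwF, hwF'⟩)
  exact hτ (w, w') ⟨z, ⟨pvxk_thick_mono Y w hle hz1, pvxk_thick_mono Y w' hle hz2⟩, hzK⟩

/-- the same for one cell and a compact set: for small `t` a thick cell which meets `K` is the thickening of a cell which meets `K` -/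
theorem pvxk_nerve_one (h : VorLF Y) (hK : IsCompact K) : ∃ t0 > 0, ∀ t ≤ t0, ∀ w ∈ Y, (vorThick Y t w ∩ K).Nonempty → (vorCell Y w ∩ K).Nonempty := by
  obtain ⟨t0, h0, H⟩ := pvxk_nerve h hK
  refine ⟨t0, h0, fun t ht w hw hne => ?_⟩
  obtain ⟨z, hz, hzK⟩ := hne
  obtain ⟨y, ⟨hy, -⟩, hyK⟩ := H t ht w hw w hw ⟨z, ⟨hz, hz⟩, hzK⟩
  exact ⟨y, hy, hyK⟩

/-! ## 4. chains -/

/-- **CHAIN, thick form**: consecutive THICK cells meet in `K`, every site of the chain has its thick cell meeting `K`.   Plan: `rsw_chain_of_connected` for the finite family of `pvxk_finite_meet`. -/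
theorem pvxk_chain_thick (h : VorLF Y) (hA : A ⊆ Y) (hK : Bornology.IsBounded K) (hS : IsPreconnected S) (hSs : S ⊆ vorThickUn Y t A ∩ K) {x y : ℂ} (hx : x ∈ S) (hy : y ∈ S) :
    ∃ a ∈ A, ∃ b ∈ A, x ∈ vorThick Y t a ∧ y ∈ vorThick Y t b ∧ Relation.ReflTransGen (fun u v => v ∈ A ∧ (vorThick Y t u ∩ vorThick Y t v ∩ K).Nonempty) a b := by
  have hfin : {w | w ∈ A ∧ (vorThick Y t w ∩ K).Nonempty}.Finite := (pvxk_finite_meet (K := K) h hK t).subset fun w hw => ⟨hA hw.1, hw.2⟩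
  set I : Set ℂ := {w | w ∈ A ∧ (vorThick Y t w ∩ K).Nonempty} with hI
  have : Finite I := hfin
  have hcov : S ⊆ (⋃ i : I, vorThick Y t i) ∩ K := by
    intro p hp
    obtain ⟨⟨a, ha, hpa⟩, hpK⟩ := hSs hp
    exact ⟨mem_iUnion.2 ⟨⟨a, ha, p, hpa, hpK⟩, hpa⟩, hpK⟩
  obtain ⟨i, j, hi, hj, hch⟩ := rsw_chain_of_connected (C := fun i : I => vorThick Y t i) (K := K) (fun i => pvxk_thick_closed Y t i) hS hcov hx hy
  refine ⟨i, i.2.1, j, j.2.1, hi.1, hj.1, ?_⟩
  clear hj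
  induction hch with
  | refl => exact Relation.ReflTransGen.refl
  | @tail b c _ hbc ih => exact Relation.ReflTransGen.tail (ih) ⟨c.2.1, hbc⟩

/-- **CHAIN**: for `t ≤ t0` of `pvxk_nerve` consecutive CELLS meet in `K` -/
theorem pvxk_chain (h : VorLF Y) (hA : A ⊆ Y) (hK : Bornology.IsBounded K)
    (hn : ∀ w ∈ Y, ∀ w' ∈ Y, (vorThick Y t w ∩ vorThick Y t w' ∩ K).Nonempty → (vorCell Y w ∩ vorCell Y w' ∩ K).Nonempty)
    (hS : IsPreconnected S) (hSs : S ⊆ vorThickUn Y t A ∩ K) {x y : ℂ} (hx : x ∈ S) (hy : y ∈ S) :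
    ∃ a ∈ A, ∃ b ∈ A, x ∈ vorThick Y t a ∧ y ∈ vorThick Y t b ∧ Relation.ReflTransGen (fun u v => v ∈ A ∧ (vorCell Y u ∩ vorCell Y v ∩ K).Nonempty) a b := by
  obtain ⟨a, ha, b, hb, hxa, hyb, hch⟩ := pvxk_chain_thick h hA hK hS hSs hx hy
  refine ⟨a, ha, b, hb, hxa, hyb, ?_⟩
  have key : ∀ c, Relation.ReflTransGen (fun u v => v ∈ A ∧ (vorThick Y t u ∩ vorThick Y t v ∩ K).Nonempty) a c →
      c ∈ A ∧ Relation.ReflTransGen (fun u v => v ∈ A ∧ (vorCell Y u ∩ vorCell Y v ∩ K).Nonempty) a c := by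
    intro c hc
    induction hc with
    | refl => exact ⟨ha, Relation.ReflTransGen.refl⟩
    | tail _ hstep ih => exact ⟨hstep.1, ih.2.tail ⟨hstep.1, hn _ (hA ih.1) _ (hA hstep.1) hstep.2⟩⟩
  exact (key b hch).2

/-- converse: the union of the thick cells of a chain is connected -/
theorem pvxk_chain_preconnected {a b : ℂ} (ha : a ∈ A) (h : Relation.ReflTransGen (fun u v => v ∈ A ∧ (vorThick Y t u ∩ vorThick Y t v).Nonempty) a b) :
    ∃ C ⊆ A, a ∈ C ∧ b ∈ C ∧ IsPreconnected (vorThickUn Y t C) := by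
  induction h with
  | refl =>
    refine ⟨{a}, by simpa using ha, rfl, rfl, ?_⟩
    have : vorThickUn Y t {a} = vorThick Y t a := by
      ext x
      simp [vorThickUn]
    rw [this]
    exact pvxk_thick_preconnected Y t a
  | @tail b c _ hbc ih =>
    obtain ⟨C, hCA, haC, hbC, hpre⟩ := ih
    obtain ⟨hcA, x, hxb, hxc⟩ := hbc
    refine ⟨insert c C, Set.insert_subset hcA hCA, Or.inr haC, Or.inl rfl, ?_⟩
    have : vorThickUn Y t (insert c C) = vorThickUn Y t C ∪ vorThick Y t c := by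
      ext y
      simp only [vorThickUn, mem_ofPred_eq, mem_insert_iff, mem_union]
      constructor
      · rintro ⟨u, rfl | hu, hy⟩
        · exact Or.inr hy
        · exact Or.inl ⟨u, hu, hy⟩
      · rintro (⟨u, hu, hy⟩ | hy)
        · exact ⟨u, Or.inr hu, hy⟩
        · exact ⟨c, Or.inl rfl, hy⟩
    rw [this]
    exact IsPreconnected.union x ⟨b, hbC, hxb⟩ hxc hpre (pvxk_thick_preconnected Y t c)

/-! ## 5. strict sets -/

/-- on the strict region of `S` the own site is strictly nearer than every foreign site -/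
theorem pvxk_strict_lt (hz : z ∈ vorStrict Y S) : ∃ a ∈ S, z ∈ vorCell Y a ∧ ∀ b ∈ Y \ S, ‖z - a‖ < ‖z - b‖ := by
  obtain ⟨⟨a, haS, hza⟩, hn⟩ := hz
  refine ⟨a, haS, hza, fun b hb => ?_⟩
  by_contra hcon
  push Not at hcon
  exact hn ⟨b, hb, fun u hu => hcon.trans (hza u hu)⟩

/-- local form.   Plan: `a` from `pvxk_strict_lt`; only finitely many `b ∈ Y` with `|z-b| ≤ |z-a| + 2`; `3δ` = the least gap (or `1`); for `|z'-z| ≤ δ`: `|z'-a| + δ ≤ |z-a| + 2δ ≤ |z-b| - δ ≤ |z'-b|`. -/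
theorem pvxk_strict_local (h : VorLF Y) (hz : z ∈ vorStrict Y S) : ∃ δ > 0, closedBall z δ ⊆ pvxkFat S (Y \ S) (-δ) := by
  obtain ⟨a, ha, -, hlt⟩ := pvxk_strict_lt hz
  -- the foreign sites near `z`
  have hfin : {b | b ∈ Y \ S ∧ ‖z - b‖ ≤ ‖z - a‖ + 2}.Finite := by
    refine (h (‖z‖ + (‖z - a‖ + 2))).subset ?_
    rintro b ⟨hb, hb2⟩
    refine ⟨hb.1, ?_⟩
    rw [mem_closedBall, dist_zero_right]
    calc ‖b‖ = ‖z - (z - b)‖ := by rw [sub_sub_cancel]
      _ ≤ ‖z‖ + ‖z - b‖ := norm_sub_le _ _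
      _ ≤ ‖z‖ + (‖z - a‖ + 2) := by linarith
  obtain ⟨g, hg0, hg1, hg⟩ : ∃ g > 0, g ≤ 1 ∧ ∀ b ∈ Y \ S, ‖z - a‖ + g ≤ ‖z - b‖ := by
    rcases {b | b ∈ Y \ S ∧ ‖z - b‖ ≤ ‖z - a‖ + 2}.eq_empty_or_nonempty with he | hne
    · refine ⟨1, one_pos, le_refl _, fun b hb => ?_⟩
      by_contra hcon
      have : b ∈ {b | b ∈ Y \ S ∧ ‖z - b‖ ≤ ‖z - a‖ + 2} := ⟨hb, by linarith [not_le.1 hcon]⟩
      rw [he] at this
      exact this
    · obtain ⟨b0, hb0, hmin⟩ := Set.exists_min_image _ (fun b => ‖z - b‖) hfin hne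
      refine ⟨min 1 (‖z - b0‖ - ‖z - a‖), lt_min one_pos (sub_pos.2 (hlt b0 hb0.1)), min_le_left _ _, fun b hb => ?_⟩
      by_cases hb2 : ‖z - b‖ ≤ ‖z - a‖ + 2
      · have := hmin b ⟨hb, hb2⟩
        have h2 := min_le_right 1 (‖z - b0‖ - ‖z - a‖)
        linarith
      · have h2 := min_le_left 1 (‖z - b0‖ - ‖z - a‖)
        linarith [not_le.1 hb2]
  refine ⟨g / 3, by positivity, fun p hp => ⟨a, ha, fun b hb => ?_⟩⟩
  rw [mem_closedBall, dist_eq_norm] at hp
  have h1 : ‖p - a‖ ≤ ‖p - z‖ + ‖z - a‖ := by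
    have := norm_add_le (p - z) (z - a)
    rwa [sub_add_sub_cancel] at this
  have h2 : ‖z - b‖ ≤ ‖p - z‖ + ‖p - b‖ := by
    have := norm_add_le (z - p) (p - b)
    rwa [sub_add_sub_cancel, norm_sub_rev z p] at this
  have := hg b hb
  linarith

/-- **STRICT**: a compact subset of the strict region of `S` lies in `Bk_t` for some `t > 0`.   Plan: finite subcover of the balls of `pvxk_strict_local`, minimum of the `δ`; `pvxk_fat_mono`. -/
theorem pvxk_strict_thin (h : VorLF Y) {G : Set ℂ} (hG : IsCompact G) (hGs : G ⊆ vorStrict Y S) : ∃ t > 0, G ⊆ pvxkFat S (Y \ S) (-t) := by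
  classical
  have hloc : ∀ z : G, ∃ δ > 0, closedBall (z : ℂ) δ ⊆ pvxkFat S (Y \ S) (-δ) := fun z => pvxk_strict_local h (hGs z.2)
  choose δ hδ0 hδ using hloc
  obtain ⟨F, hF⟩ := hG.elim_finite_subcover (fun z : G => ball (z : ℂ) (δ z)) (fun z => isOpen_ball) (fun z hz => mem_iUnion.2 ⟨⟨z, hz⟩, mem_ball_self (hδ0 _)⟩)
  rcases F.eq_empty_or_nonempty with he | hne
  · refine ⟨1, one_pos, fun z hz => ?_⟩
    have := hF hz
    rw [he] at this
    simp at this
  · obtain ⟨z0, hz0, hmin⟩ := F.exists_min_image δ hne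
    refine ⟨δ z0, hδ0 z0, fun z hz => ?_⟩
    obtain ⟨i, hi⟩ := mem_iUnion.1 (hF hz)
    obtain ⟨hiF, hzi⟩ := mem_iUnion.1 hi
    exact pvxk_fat_mono (le_refl _) (le_refl _) (neg_le_neg (hmin i hiF)) (hδ i (ball_subset_closedBall hzi))

/-- `Bk_t` of `S` misses the thick cells of the foreign sites -/
theorem pvxk_thin_misses (hS : S ⊆ Y) (h : t' < t) (hw : w ∈ Y \ S) : Disjoint (pvxkFat S (Y \ S) (-t)) (vorThick Y t' w) := by
  rw [Set.disjoint_left]
  rintro x ⟨a, haS, hx⟩ hxw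
  have h1 := hx w hw
  have h2 := hxw a (hS haS)
  linarith

/-- **the strict polygon of a chain** meets only the cells of the chain, stays at a positive gap from the foreign sites, and misses their thick cells.   Plan: `dels_chain` with `A := S`; the image of the path is compact; `pvxk_strict_thin`, `pvxk_thin_misses`. -/
theorem pvxk_polygon (lf : VorLF Y) (gp : VorGP Y) (hS : S ⊆ Y) (hbd : ∀ v ∈ S, Bornology.IsBounded (vorCell Y v)) {a b : ℂ} (ha : a ∈ S)
    (h : Relation.ReflTransGen (fun x y => y ∈ S ∧ (vorCell Y x ∩ vorCell Y y).Nonempty) a b) :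
    ∃ G : Set ℂ, IsCompact G ∧ JoinedIn G a b ∧ G ⊆ vorStrict Y S ∧ ∃ t > 0, G ⊆ pvxkFat S (Y \ S) (-t) ∧ ∀ w ∈ Y \ S, ∀ t' < t, Disjoint G (vorThick Y t' w) := by
  obtain ⟨-, γ, hγ⟩ := dels_chain lf gp hS (Subset.refl S) hbd ha h
  have hG : IsCompact (range γ) := isCompact_range γ.continuous
  have hGs : range γ ⊆ vorStrict Y S := by
    rintro _ ⟨s, rfl⟩
    exact (hγ s).1
  obtain ⟨t, ht, hsub⟩ := pvxk_strict_thin lf hG hGs
  exact ⟨range γ, hG, ⟨γ, fun s => mem_range_self s⟩, hGs, t, ht, hsub, fun w hw t' ht' => (pvxk_thin_misses hS ht' hw).mono_left hsub⟩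

/-! ## 6. frozen bridge -/

/-- `Bk_t(ω) ⊆ pvBlack ω \ pvWhite ω` -/
theorem pvxk_frozen_thin {ω : PVSample} (h : DelgpOk ω) (lf : VorLF (cfSites (pvConf ω))) (ht : 0 < t) :
    pvxkFat (delsBk (pvConf ω)) (delsWh (pvConf ω)) (-t) ⊆ pvBlack ω \ pvWhite ω := by
  rw [dels_frozen_ok h, dels_wh_eq h.cf.one]
  exact pvxk_thin_subset_strict lf (dels_bk_subset _) ht

/-- `pvWhite ω ⊆ Wh_t(ω)` -/
theorem pvxk_frozen_fat (ω : PVSample) (ht : 0 ≤ t) : pvWhite ω ⊆ pvxkFat (delsWh (pvConf ω)) (delsBk (pvConf ω)) t := by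
  rw [dels_white_eq]
  rintro z ⟨v, hv, hz⟩
  refine ⟨v, hv, fun b hb => ?_⟩
  have := hz b (dels_bk_subset _ hb)
  linarith

end Claimed.Agent.R289
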