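-- KEEP
import Claimed.Agent.R289.End
import Claimed.Agent.Lib.BfpCor

/-!
# Row 289 (S0537), unit EXT, block HEX: CONTINUUM HEX ON THE QUAD `(D, ψ, x)` FOR CLOSED COVERS      (helper285; contract of helper74; prefix `pvxh_`)

SORRY-FREE.      EXPORTS
* `pvxh_split`   a compact set `N` no connected subset of which joins `A` to `B` splits into two disjoint closed sets, one containing `N ∩ A`, the other `N ∩ B`   (components = quasi-components)
* `pvxh_H`       box `[a 0, b 0] × [a 1, b 1]`, `G ≤ 0` on the bottom, `G ≥ 0` on the top: a connected subset of `{G = 0}` joins the left side to the right side   (Poincare-Miranda, `Lib.bfp_poincare_miranda`)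
* `pvxh_arcL_compact`, `pvxh_arcR_compact`   the two arcs of `End.lean` are compact;   `pvxh_pt`, `pvxh_pt_d`, `pvxh_pt_of`, `pvxh_pt_cont`: frontier points in projective coordinates `[w0 : w1] ↦ h.dinv (pvxhK w0 w1)`
* **`pvxh_hex`** (and `pvxh_hex'`, `0 ≤ x ≤ 1`)   `closure D ⊆ B ∪ W`, `B` closed: a connected subset of `B ∩ closure D` joins `ψ⁻¹[0,x]` to `{d} ∪ ψ⁻¹[1,∞)`,
                 or a COMPACT connected subset of `W ∩ closure D` joins `ψ⁻¹[x,1]` to `{d} ∪ ψ⁻¹(-∞,0]`.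

PROOF OF HEX.      No homeomorphism of `closure D` with a rectangle is needed, only a continuous MAP `Θ = h.dinv ∘ pvxhTh x : [0,1] × [-1,2] → closure D` sending the four sides INTO the four arcs
(three layers of convex combinations of points of the unit circle in the disc chart).      If no connected subset of `B ∩ closure D` joins the arcs, `B ∩ closure D = B1 ⊔ B2` (`pvxh_split`),
`g := infDist (·) (arcL ∪ B1) - infDist (·) (arcR ∪ B2)` is `≤ 0` on `arcL`, `≥ 0` on `arcR` and does not vanish on `B ∩ closure D`;   `pvxh_H` for `g ∘ Θ`;   the image by `Θ` of the closure of the connected set found.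
-/

set_option autoImplicit false

namespace Claimed.Agent.R289

open Set Filter Topology Metric

/-! ## 1. clopen splitting of a compact set -/

/-- in a compact Hausdorff space, two closed sets which are not joined by a connected component are separated by a clopen set -/
theorem pvxh_split0 {X : Type*} [TopologicalSpace X] [CompactSpace X] [T2Space X] {A B : Set X} (hA : IsClosed A) (hB : IsClosed B)
    (h : ∀ x ∈ A, ∀ y ∈ B, y ∉ connectedComponent x) : ∃ U : Set X, IsClopen U ∧ A ⊆ U ∧ Disjoint U B := by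
  classical
  -- for each `x ∈ A` a clopen neighbourhood missing `B`
  have h1 : ∀ x ∈ A, ∃ U : Set X, IsClopen U ∧ x ∈ U ∧ Disjoint U B := by
    intro x hx
    have hc : connectedComponent x = ⋂ s : { s : Set X // IsClopen s ∧ x ∈ s }, (s : Set X) := connectedComponent_eq_iInter_isClopen x
    have hdir : Directed (· ⊇ ·) fun s : { s : Set X // IsClopen s ∧ x ∈ s } => (s : Set X) ∩ B := by
      intro s t
      exact ⟨⟨s.1 ∩ t.1, s.2.1.inter t.2.1, s.2.2, t.2.2⟩, fun z hz => ⟨hz.1.1, hz.2⟩, fun z hz => ⟨hz.1.2, hz.2⟩⟩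
    by_contra hcon
    push Not at hcon
    have hne : ∀ s : { s : Set X // IsClopen s ∧ x ∈ s }, ((s : Set X) ∩ B).Nonempty := by
      intro s
      exact Set.not_disjoint_iff_nonempty_inter.1 (hcon s.1 s.2.1 s.2.2)
    have : Nonempty { s : Set X // IsClopen s ∧ x ∈ s } := ⟨⟨univ, isClopen_univ, mem_univ x⟩⟩
    obtain ⟨y, hy⟩ := IsCompact.nonempty_iInter_of_directed_nonempty_isCompact_isClosed _ hdir hne
      (fun s => (s.2.1.isClosed.inter hB).isCompact) (fun s => s.2.1.isClosed.inter hB)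
    rw [mem_iInter] at hy
    have hyB : y ∈ B := (hy ⟨univ, isClopen_univ, mem_univ x⟩).2
    refine h x hx y hyB ?_
    rw [hc, mem_iInter]
    exact fun s => (hy s).1
  choose! U hU using h1
  obtain ⟨t, htA, ht⟩ := hA.isCompact.elim_nhds_subcover U (fun x hx => (hU x hx).1.isOpen.mem_nhds (hU x hx).2.1)
  refine ⟨⋃ x ∈ t, U x, ?_, ht, ?_⟩
  · exact t.finite_toSet.isClopen_biUnion fun x hx => (hU x (htA x hx)).1
  · rw [Set.disjoint_iUnion₂_left]
    exact fun x hx => (hU x (htA x hx)).2.2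

/-- **splitting**: a compact set `N` no connected subset of which joins `A` to `B` is the disjoint union of two closed sets, one containing `N ∩ A`, the other `N ∩ B` -/
theorem pvxh_split {X : Type*} [TopologicalSpace X] [T2Space X] {N A B : Set X} (hN : IsCompact N) (hA : IsClosed A) (hB : IsClosed B)
    (h : ∀ S ⊆ N, IsPreconnected S → (S ∩ A).Nonempty → (S ∩ B).Nonempty → False) :
    ∃ N1 N2 : Set X, IsClosed N1 ∧ IsClosed N2 ∧ Disjoint N1 N2 ∧ N = N1 ∪ N2 ∧ N ∩ A ⊆ N1 ∧ N ∩ B ⊆ N2 := by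
  have : CompactSpace N := isCompact_iff_compactSpace.1 hN
  obtain ⟨U, hU, hAU, hUB⟩ := pvxh_split0 (X := N) (A := Subtype.val ⁻¹' A) (B := Subtype.val ⁻¹' B)
    (hA.preimage continuous_subtype_val) (hB.preimage continuous_subtype_val) (by
      intro x hx y hy hxy
      refine h (Subtype.val '' connectedComponent x) (by rintro _ ⟨z, -, rfl⟩; exact z.2)
        (isPreconnected_connectedComponent.image _ continuous_subtype_val.continuousOn) ⟨x, ⟨x, mem_connectedComponent, rfl⟩, hx⟩ ⟨y, ⟨y, hxy, rfl⟩, hy⟩)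
  have hcl : ∀ W : Set N, IsClosed W → IsClosed (Subtype.val '' W) := fun W hW =>
    (hW.isCompact.image continuous_subtype_val).isClosed
  refine ⟨Subtype.val '' U, Subtype.val '' Uᶜ, hcl _ hU.isClosed, hcl _ hU.compl.isClosed, ?_, ?_, ?_, ?_⟩
  · rw [Set.disjoint_left]
    rintro _ ⟨z, hz, rfl⟩ ⟨z', hz', e⟩
    exact hz' (Subtype.ext e ▸ hz)
  · ext z
    constructor
    · intro hz
      by_cases hzU : (⟨z, hz⟩ : N) ∈ U
      · exact Or.inl ⟨⟨z, hz⟩, hzU, rfl⟩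
      · exact Or.inr ⟨⟨z, hz⟩, hzU, rfl⟩
    · rintro (⟨z', -, rfl⟩ | ⟨z', -, rfl⟩) <;> exact z'.2
  · rintro z ⟨hz, hzA⟩
    exact ⟨⟨z, hz⟩, hAU hzA, rfl⟩
  · rintro z ⟨hz, hzB⟩
    exact ⟨⟨z, hz⟩, fun hzU => Set.disjoint_left.1 hUB hzU hzB, rfl⟩

/-! ## 2. (H): the zero set of a function which changes sign between the bottom and the top of a rectangle joins the left side to the right side -/

/-- **(H)** `G ≤ 0` on the bottom, `G ≥ 0` on the top of the box `[a 0, b 0] × [a 1, b 1]`: a connected subset of `{G = 0}` joins the left side to the right side.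
PROOF: else `{G = 0} = N1 ⊔ N2` (`pvxh_split`), `F1 := infDist (·) (Left ∪ N1) - infDist (·) (Right ∪ N2)` does not vanish on `{G = 0}`: contradiction with Poincare-Miranda for `(F1, G)`. -/
theorem pvxh_H (a b : Fin 2 → ℝ) (hab : ∀ i, a i ≤ b i) (G : (Fin 2 → ℝ) → ℝ) (hG : ContinuousOn G (Icc a b))
    (hlo : ∀ x ∈ Icc a b, x 1 = a 1 → G x ≤ 0) (hhi : ∀ x ∈ Icc a b, x 1 = b 1 → 0 ≤ G x) :
    ∃ S ⊆ Icc a b, IsPreconnected S ∧ (∀ x ∈ S, G x = 0) ∧ (∃ x ∈ S, x 0 = a 0) ∧ ∃ x ∈ S, x 0 = b 0 := by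
  by_contra hcon
  set N : Set (Fin 2 → ℝ) := {x | x ∈ Icc a b ∧ G x = 0} with hN
  have hNc : IsCompact N := by
    have : N = Icc a b ∩ G ⁻¹' {0} := by ext x; simp [hN]
    rw [this]
    exact isCompact_Icc.of_isClosed_subset (hG.preimage_isClosed_of_isClosed isClosed_Icc isClosed_singleton) inter_subset_left
  set A : Set (Fin 2 → ℝ) := {x | x 0 = a 0} with hA
  set B : Set (Fin 2 → ℝ) := {x | x 0 = b 0} with hB
  have hAc : IsClosed A := isClosed_eq (continuous_apply 0) continuous_const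
  have hBc : IsClosed B := isClosed_eq (continuous_apply 0) continuous_const
  obtain ⟨N1, N2, hN1, hN2, hdis, hNu, hNA, hNB⟩ := pvxh_split hNc hAc hBc (by
    intro S hS hSc ⟨x, hx, hxA⟩ ⟨y, hy, hyB⟩
    exact hcon ⟨S, fun z hz => (hS hz).1, hSc, fun z hz => (hS hz).2, ⟨x, hx, hxA⟩, ⟨y, hy, hyB⟩⟩)
  set L : Set (Fin 2 → ℝ) := (Icc a b ∩ A) ∪ N1 with hL
  set R : Set (Fin 2 → ℝ) := (Icc a b ∩ B) ∪ N2 with hR
  have hLc : IsClosed L := (isClosed_Icc.inter hAc).union hN1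
  have hRc : IsClosed R := (isClosed_Icc.inter hBc).union hN2
  have hLne : L.Nonempty := ⟨a, Or.inl ⟨⟨le_rfl, hab⟩, rfl⟩⟩
  have hRne : R.Nonempty := ⟨b, Or.inl ⟨⟨hab, le_rfl⟩, rfl⟩⟩
  set F1 : (Fin 2 → ℝ) → ℝ := fun x => infDist x L - infDist x R with hF1
  have hF1c : Continuous F1 := (continuous_infDist_pt L).sub (continuous_infDist_pt R)
  obtain ⟨x, hx, hFx⟩ := Lib.bfp_poincare_miranda a b hab (fun x => ![F1 x, G x])
    (by
      refine continuousOn_pi.2 fun i => ?_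
      fin_cases i
      · exact hF1c.continuousOn
      · exact hG)
    (by
      intro x hx i hi
      fin_cases i
      · have : infDist x L = 0 := infDist_zero_of_mem (Or.inl ⟨hx, hi⟩)
        simp only [hF1]
        show infDist x L - infDist x R ≤ 0
        rw [this]
        linarith [infDist_nonneg (x := x) (s := R)]
      · exact hlo x hx hi)
    (by
      intro x hx i hi
      fin_cases i
      · have : infDist x R = 0 := infDist_zero_of_mem (Or.inl ⟨hx, hi⟩)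
        show 0 ≤ infDist x L - infDist x R
        rw [this]
        linarith [infDist_nonneg (x := x) (s := L)]
      · exact hhi x hx hi)
  have e1 : F1 x = 0 := congrFun hFx 0
  have e2 : G x = 0 := congrFun hFx 1
  have hxN : x ∈ N := ⟨hx, e2⟩
  have hLR : ∀ z, z ∈ L → z ∈ R → z ∈ N → False := by
    intro z hzL hzR hzN
    rcases hzL with hzL | hzL
    · have h1 : z ∈ N1 := hNA ⟨hzN, hzL.2⟩
      rcases hzR with hzR | hzR
      · exact Set.disjoint_left.1 hdis h1 (hNB ⟨hzN, hzR.2⟩)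
      · exact Set.disjoint_left.1 hdis h1 hzR
    · rcases hzR with hzR | hzR
      · exact Set.disjoint_left.1 hdis hzL (hNB ⟨hzN, hzR.2⟩)
      · exact Set.disjoint_left.1 hdis hzL hzR
  have hx12 : x ∈ N1 ∪ N2 := hNu ▸ hxN
  rcases hx12 with h1 | h2
  · have hxL : x ∈ L := Or.inr h1
    have h0 : infDist x L = 0 := infDist_zero_of_mem hxL
    have h3 : infDist x R = 0 := by simp only [hF1] at e1; linarith
    exact hLR x hxL ((hRc.mem_iff_infDist_zero hRne).2 h3) hxN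
  · have hxR : x ∈ R := Or.inr h2
    have h0 : infDist x R = 0 := infDist_zero_of_mem hxR
    have h3 : infDist x L = 0 := by simp only [hF1] at e1; linarith
    exact hLR x ((hLc.mem_iff_infDist_zero hLne).2 h3) hxR hxN

/-! ## 3. points of the frontier in projective coordinates -/

/-- the point `[w0 : w1]` of the real projective line, seen on the unit circle: `Cayley (w0 / w1)`, `= 1` for `w1 = 0` -/
noncomputable def pvxhK (w0 w1 : ℝ) : ℂ := ((w0 : ℂ) - Complex.I * w1) / ((w0 : ℂ) + Complex.I * w1)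

theorem pvxh_eqns_cite : True := by
  have := @pvxhK.eq_1
  trivial

theorem pvxh_den_ne {w0 w1 : ℝ} (hw : w0 ≠ 0 ∨ w1 ≠ 0) : (w0 : ℂ) + Complex.I * w1 ≠ 0 := by
  intro h0
  have h1 := congrArg Complex.re h0
  have h2 := congrArg Complex.im h0
  simp at h1 h2
  rcases hw with hw | hw
  · exact hw h1
  · exact hw h2

theorem pvxh_K_norm_le (w0 w1 : ℝ) : ‖pvxhK w0 w1‖ ≤ 1 := by
  have h1 : (w0 : ℂ) - Complex.I * w1 = (starRingEnd ℂ) ((w0 : ℂ) + Complex.I * w1) := by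
    simp [sub_eq_add_neg]
  rw [pvxhK, norm_div, h1, Complex.norm_conj]
  exact div_self_le_one _

theorem pvxh_K_eq_C {w0 w1 : ℝ} (hw : w1 ≠ 0) : pvxhK w0 w1 = pvchC ((w0 / w1 : ℝ) : ℂ) := by
  have h1 : (w1 : ℂ) ≠ 0 := by exact_mod_cast hw
  have h2 : (w0 : ℂ) + Complex.I * w1 ≠ 0 := pvxh_den_ne (Or.inr hw)
  have h3 : ((w0 / w1 : ℝ) : ℂ) + Complex.I ≠ 0 := by
    push_cast
    intro h0
    apply h2
    field_simp at h0
    linear_combination h0
  rw [pvxhK, pvchC, div_eq_div_iff h2 h3]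
  push_cast
  field_simp

theorem pvxh_K_zero {w0 : ℝ} (hw : w0 ≠ 0) : pvxhK w0 0 = 1 := by
  have h1 : (w0 : ℂ) ≠ 0 := by exact_mod_cast hw
  simp [pvxhK, h1]

theorem pvxh_K_cont {X : Type*} [TopologicalSpace X] {f g : X → ℝ} (hf : Continuous f) (hg : Continuous g) (hfg : ∀ p, f p ≠ 0 ∨ g p ≠ 0) :
    Continuous fun p => pvxhK (f p) (g p) := by
  unfold pvxhK
  refine Continuous.div ?_ ?_ fun p => pvxh_den_ne (hfg p)
  · exact (Complex.continuous_ofReal.comp hf).sub (continuous_const.mul (Complex.continuous_ofReal.comp hg))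
  · exact (Complex.continuous_ofReal.comp hf).add (continuous_const.mul (Complex.continuous_ofReal.comp hg))

section chart

variable {D : Set ℂ} {d : ℂ} {ψ : ℂ → ℂ}

/-- the frontier point with `ψ = w0 / w1` -/
theorem pvxh_pt (h : PvChart D d ψ) {w0 w1 : ℝ} (hw : w1 ≠ 0) :
    h.dinv (pvxhK w0 w1) ∈ frontier D ∧ h.dinv (pvxhK w0 w1) ≠ d ∧ ψ (h.dinv (pvxhK w0 w1)) = ((w0 / w1 : ℝ) : ℂ) := by
  have him : (0 : ℝ) ≤ (((w0 / w1 : ℝ) : ℂ)).im := by simp
  have him0 : (((w0 / w1 : ℝ) : ℂ)).im = 0 := by simp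
  rw [pvxh_K_eq_C hw, h.dinv_of_ne (pvch_C_ne_one him), pvch_Ci_C him]
  exact ⟨(h.inv_mem_frontier him0).1, (h.inv_mem_frontier him0).2, h.psi_inv him⟩

theorem pvxh_pt_d (h : PvChart D d ψ) {w0 : ℝ} (hw : w0 ≠ 0) : h.dinv (pvxhK w0 0) = d := by
  rw [pvxh_K_zero hw, h.dinv_one]

/-- every frontier point `≠ d` is such a point -/
theorem pvxh_pt_of (h : PvChart D d ψ) {z : ℂ} (hz : z ∈ frontier D) (hzd : z ≠ d) : z = h.dinv (pvxhK (ψ z).re 1) := by
  have h1 : ψ z = (((ψ z).re / 1 : ℝ) : ℂ) := by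
    rw [div_one]; exact pvend_real h hz hzd
  have him : (0 : ℝ) ≤ ((((ψ z).re / 1 : ℝ) : ℂ)).im := by simp
  rw [pvxh_K_eq_C one_ne_zero, h.dinv_of_ne (pvch_C_ne_one him), pvch_Ci_C him, ← h1, h.inv_psi ⟨frontier_subset_closure hz, hzd⟩]

theorem pvxh_pt_cont (h : PvChart D d ψ) {X : Type*} [TopologicalSpace X] {f g : X → ℝ} (hf : Continuous f) (hg : Continuous g) (hfg : ∀ p, f p ≠ 0 ∨ g p ≠ 0) :
    Continuous fun p => h.dinv (pvxhK (f p) (g p)) := by
  have h1 := h.dinv_cont.comp_continuous (pvxh_K_cont hf hg hfg) (fun p => by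
    rw [mem_closedBall_zero_iff]; exact pvxh_K_norm_le _ _)
  exact h1

theorem pvxh_arcL_compact (h : PvChart D d ψ) (x : ℝ) : IsCompact (pvArcL D d ψ x) := by
  have : pvArcL D d ψ x = (fun s : ℝ => h.dinv (pvxhK s 1)) '' Icc 0 x := by
    ext z
    constructor
    · rintro ⟨hz, hzd, h0, h1⟩
      exact ⟨(ψ z).re, ⟨h0, h1⟩, (pvxh_pt_of h hz hzd).symm⟩
    · rintro ⟨s, ⟨h0, h1⟩, rfl⟩
      obtain ⟨a, b, c⟩ := pvxh_pt h (w0 := s) (w1 := 1) one_ne_zero
      refine ⟨a, b, ?_, ?_⟩ <;> rw [c] <;> simpa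
  rw [this]
  exact isCompact_Icc.image (pvxh_pt_cont h continuous_id continuous_const fun _ => Or.inr one_ne_zero)

theorem pvxh_arcR_compact (h : PvChart D d ψ) : IsCompact (pvArcR D d ψ) := by
  have : pvArcR D d ψ = (fun s : ℝ => h.dinv (pvxhK 1 s)) '' Icc 0 1 := by
    ext z
    constructor
    · rintro (rfl | ⟨hz, hzd, h1⟩)
      · exact ⟨0, ⟨le_rfl, zero_le_one⟩, pvxh_pt_d h one_ne_zero⟩
      · have hpos : 0 < (ψ z).re := by linarith
        refine ⟨1 / (ψ z).re, ⟨by positivity, by rw [div_le_one hpos]; exact h1⟩, ?_⟩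
        have e1 : pvxhK 1 (1 / (ψ z).re) = pvxhK (ψ z).re 1 := by
          rw [pvxh_K_eq_C (by positivity), pvxh_K_eq_C one_ne_zero]
          congr 2
          field_simp
        show h.dinv (pvxhK 1 (1 / (ψ z).re)) = z
        rw [e1]
        exact (pvxh_pt_of h hz hzd).symm
    · rintro ⟨s, ⟨h0, h1⟩, rfl⟩
      rcases h0.eq_or_lt with rfl | h0
      · exact Or.inl (pvxh_pt_d h one_ne_zero)
      · obtain ⟨a, b, c⟩ := pvxh_pt h (w0 := 1) (w1 := s) h0.ne'
        refine Or.inr ⟨a, b, ?_⟩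
        rw [c, Complex.ofReal_re, le_div_iff₀ h0]
        linarith
  rw [this]
  exact isCompact_Icc.image (pvxh_pt_cont h continuous_const continuous_id fun _ => Or.inl one_ne_zero)

end chart

/-! ## 4. a continuous map of the box `[0,1] × [-1,2]` into the closed disc, the four sides going INTO the four arcs -/

/-- three layers of convex combinations of points of the circle.      `s = p 0`, `t = p 1`;   `t⁻ = max (-t) 0`, `t⁰ = max 0 (min t 1)`, `t⁺ = max (t-1) 0`. -/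
noncomputable def pvxhTh (x : ℝ) (p : Fin 2 → ℝ) : ℂ :=
  ((1 - max (-(p 1)) 0 - max (p 1 - 1) 0 : ℝ) : ℂ) *
      (((1 - p 0 : ℝ) : ℂ) * pvxhK (-(max 0 (min (p 1) 1))) (1 - max 0 (min (p 1) 1)) + ((p 0 : ℝ) : ℂ) * pvxhK (x + max 0 (min (p 1) 1) * (1 - x)) 1)
    + ((max (-(p 1)) 0 : ℝ) : ℂ) * pvxhK (p 0 * x) 1 + ((max (p 1 - 1) 0 : ℝ) : ℂ) * pvxhK 1 (p 0)

theorem pvxh_eqns_cite2 : True := by
  have := @pvxhTh.eq_1
  trivial

theorem pvxh_Th_cont (x : ℝ) : Continuous (pvxhTh x) := by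
  unfold pvxhTh
  have c0 : Continuous fun p : Fin 2 → ℝ => p 0 := continuous_apply 0
  have c1 : Continuous fun p : Fin 2 → ℝ => p 1 := continuous_apply 1
  have cm : Continuous fun p : Fin 2 → ℝ => max 0 (min (p 1) 1) := continuous_const.max (c1.min continuous_const)
  have k1 : Continuous fun p : Fin 2 → ℝ => pvxhK (-(max 0 (min (p 1) 1))) (1 - max 0 (min (p 1) 1)) :=
    pvxh_K_cont cm.neg (continuous_const.sub cm) (fun p => by
      by_cases h0 : max 0 (min (p 1) 1) = 0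
      · right; rw [h0]; norm_num
      · left; exact neg_ne_zero.2 h0)
  have k2 : Continuous fun p : Fin 2 → ℝ => pvxhK (x + max 0 (min (p 1) 1) * (1 - x)) 1 :=
    pvxh_K_cont (continuous_const.add (cm.mul continuous_const)) continuous_const fun _ => Or.inr one_ne_zero
  have k3 : Continuous fun p : Fin 2 → ℝ => pvxhK (p 0 * x) 1 :=
    pvxh_K_cont (c0.mul continuous_const) continuous_const fun _ => Or.inr one_ne_zero
  have k4 : Continuous fun p : Fin 2 → ℝ => pvxhK 1 (p 0) :=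
    pvxh_K_cont continuous_const c0 fun _ => Or.inl one_ne_zero
  have r1 : Continuous fun p : Fin 2 → ℝ => ((1 - max (-(p 1)) 0 - max (p 1 - 1) 0 : ℝ) : ℂ) :=
    Complex.continuous_ofReal.comp ((continuous_const.sub (c1.neg.max continuous_const)).sub ((c1.sub continuous_const).max continuous_const))
  have r2 : Continuous fun p : Fin 2 → ℝ => ((1 - p 0 : ℝ) : ℂ) := Complex.continuous_ofReal.comp (continuous_const.sub c0)
  have r3 : Continuous fun p : Fin 2 → ℝ => ((p 0 : ℝ) : ℂ) := Complex.continuous_ofReal.comp c0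
  have r4 : Continuous fun p : Fin 2 → ℝ => ((max (-(p 1)) 0 : ℝ) : ℂ) := Complex.continuous_ofReal.comp (c1.neg.max continuous_const)
  have r5 : Continuous fun p : Fin 2 → ℝ => ((max (p 1 - 1) 0 : ℝ) : ℂ) := Complex.continuous_ofReal.comp ((c1.sub continuous_const).max continuous_const)
  exact ((r1.mul ((r2.mul k1).add (r3.mul k2))).add (r4.mul k3)).add (r5.mul k4)

theorem pvxh_Th_norm (x : ℝ) {p : Fin 2 → ℝ} (h0 : 0 ≤ p 0) (h1 : p 0 ≤ 1) (h2 : -1 ≤ p 1) (h3 : p 1 ≤ 2) : ‖pvxhTh x p‖ ≤ 1 := by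
  set u := max (-(p 1)) 0 with hu
  set v := max (p 1 - 1) 0 with hv
  have hu0 : 0 ≤ u := le_max_right _ _
  have hv0 : 0 ≤ v := le_max_right _ _
  have huv : 0 ≤ 1 - u - v := by
    rcases le_total (p 1) 0 with h | h
    · have e1 : u = -(p 1) := max_eq_left (by linarith)
      have e2 : v = 0 := max_eq_right (by linarith)
      rw [e1, e2]; linarith
    · have e1 : u = 0 := max_eq_right (by linarith)
      rcases le_total (p 1) 1 with h' | h'
      · have e2 : v = 0 := max_eq_right (by linarith)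
        rw [e1, e2]; norm_num
      · have e2 : v = p 1 - 1 := max_eq_left (by linarith)
        rw [e1, e2]; linarith
  have n1 : ∀ (c : ℝ) (w : ℂ), 0 ≤ c → ‖w‖ ≤ 1 → ‖((c : ℝ) : ℂ) * w‖ ≤ c := by
    intro c w hc hw
    rw [norm_mul, Complex.norm_real, Real.norm_of_nonneg hc]
    exact mul_le_of_le_one_right hc hw
  have m1 : ‖((1 - p 0 : ℝ) : ℂ) * pvxhK (-(max 0 (min (p 1) 1))) (1 - max 0 (min (p 1) 1)) + ((p 0 : ℝ) : ℂ) * pvxhK (x + max 0 (min (p 1) 1) * (1 - x)) 1‖ ≤ 1 := by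
    refine (norm_add_le _ _).trans ?_
    have a1 := n1 (1 - p 0) _ (by linarith) (pvxh_K_norm_le (-(max 0 (min (p 1) 1))) (1 - max 0 (min (p 1) 1)))
    have a2 := n1 (p 0) _ h0 (pvxh_K_norm_le (x + max 0 (min (p 1) 1) * (1 - x)) 1)
    linarith
  unfold pvxhTh
  refine (norm_add_le _ _).trans ?_
  have b1 := n1 (1 - u - v) _ huv m1
  have b2 := n1 u _ hu0 (pvxh_K_norm_le (p 0 * x) 1)
  have b3 := n1 v _ hv0 (pvxh_K_norm_le 1 (p 0))
  have b4 := norm_add_le (((1 - u - v : ℝ) : ℂ) *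
      (((1 - p 0 : ℝ) : ℂ) * pvxhK (-(max 0 (min (p 1) 1))) (1 - max 0 (min (p 1) 1)) + ((p 0 : ℝ) : ℂ) * pvxhK (x + max 0 (min (p 1) 1) * (1 - x)) 1)) (((u : ℝ) : ℂ) * pvxhK (p 0 * x) 1)
  linarith

/-- bottom side -/
theorem pvxh_Th_bot (x : ℝ) {p : Fin 2 → ℝ} (h : p 1 = -1) : pvxhTh x p = pvxhK (p 0 * x) 1 := by
  unfold pvxhTh
  rw [h]
  norm_num

/-- top side -/
theorem pvxh_Th_top (x : ℝ) {p : Fin 2 → ℝ} (h : p 1 = 2) : pvxhTh x p = pvxhK 1 (p 0) := by
  unfold pvxhTh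
  rw [h]
  norm_num

/-- left side -/
theorem pvxh_Th_left (x : ℝ) {p : Fin 2 → ℝ} (h : p 0 = 0) : pvxhTh x p = pvxhK (-(max 0 (min (p 1) 1))) (1 - max 0 (min (p 1) 1)) := by
  unfold pvxhTh
  rw [h]
  rcases le_total (p 1) 0 with h0 | h0
  · have e1 : max 0 (min (p 1) 1) = 0 := max_eq_left ((min_le_left _ _).trans h0)
    have e2 : max (p 1 - 1) 0 = 0 := max_eq_right (by linarith)
    rw [e1, e2]
    simp
    ring
  · have e0 : max (-(p 1)) 0 = 0 := max_eq_right (by linarith)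
    rcases le_total (p 1) 1 with h1 | h1
    · have e2 : max (p 1 - 1) 0 = 0 := max_eq_right (by linarith)
      rw [e0, e2]
      simp
    · have e1 : max 0 (min (p 1) 1) = 1 := by rw [min_eq_right h1]; norm_num
      rw [e0, e1]
      have k1 : pvxhK (-1) (1 - 1) = 1 := by rw [sub_self]; exact pvxh_K_zero (by norm_num)
      have k2 : pvxhK 1 0 = 1 := pvxh_K_zero one_ne_zero
      rw [k1, k2]
      simp

/-- right side -/
theorem pvxh_Th_right (x : ℝ) {p : Fin 2 → ℝ} (h : p 0 = 1) : pvxhTh x p = pvxhK (x + max 0 (min (p 1) 1) * (1 - x)) 1 := by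
  unfold pvxhTh
  rw [h]
  rcases le_total (p 1) 0 with h0 | h0
  · have e1 : max 0 (min (p 1) 1) = 0 := max_eq_left ((min_le_left _ _).trans h0)
    have e2 : max (p 1 - 1) 0 = 0 := max_eq_right (by linarith)
    rw [e1, e2]
    simp
    ring
  · have e0 : max (-(p 1)) 0 = 0 := max_eq_right (by linarith)
    rcases le_total (p 1) 1 with h1 | h1
    · have e2 : max (p 1 - 1) 0 = 0 := max_eq_right (by linarith)
      rw [e0, e2]
      simp
    · have e1 : max 0 (min (p 1) 1) = 1 := by rw [min_eq_right h1]; norm_num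
      rw [e0, e1]
      have k1 : x + 1 * (1 - x) = 1 := by ring
      rw [k1]
      simp
      ring

/-! ## 5. HEX on the quad `(D, ψ, x)` for closed covers -/

section hex

variable {D : Set ℂ} {d : ℂ} {ψ : ℂ → ℂ}

/-- **continuum HEX**, strong form (`0 ≤ x ≤ 1`; the second set is compact) -/
theorem pvxh_hex' (h : PvChart D d ψ) {x : ℝ} (hx0 : 0 ≤ x) (hx1 : x ≤ 1) {B W : Set ℂ} (hB : IsClosed B) (hcov : closure D ⊆ B ∪ W) :
    (∃ S ⊆ B ∩ closure D, IsPreconnected S ∧ (∃ z ∈ S, z ∈ pvArcL D d ψ x) ∧ ∃ z ∈ S, z ∈ pvArcR D d ψ) ∨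
      ∃ S ⊆ W ∩ closure D, IsCompact S ∧ IsConnected S ∧ (∃ z ∈ S, z ∈ frontier D ∧ z ≠ d ∧ x ≤ (ψ z).re ∧ (ψ z).re ≤ 1) ∧
        ∃ z ∈ S, z = d ∨ (z ∈ frontier D ∧ z ≠ d ∧ (ψ z).re ≤ 0) := by
  by_cases hcon : ∃ S ⊆ B ∩ closure D, IsPreconnected S ∧ (∃ z ∈ S, z ∈ pvArcL D d ψ x) ∧ ∃ z ∈ S, z ∈ pvArcR D d ψ
  · exact Or.inl hcon
  right
  have hKc : IsCompact (closure D) := h.bdd.isCompact_closure
  have hNc : IsCompact (B ∩ closure D) := hKc.inter_left hB
  have hLc : IsClosed (pvArcL D d ψ x) := (pvxh_arcL_compact h x).isClosed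
  have hRc : IsClosed (pvArcR D d ψ) := (pvxh_arcR_compact h).isClosed
  obtain ⟨B1, B2, hB1, hB2, hdis, hBu, hBL, hBR⟩ := pvxh_split hNc hLc hRc (by
    intro S hS hSc ⟨z, hz, hzL⟩ ⟨w, hw, hwR⟩
    exact hcon ⟨S, hS, hSc, ⟨z, hz, hzL⟩, ⟨w, hw, hwR⟩⟩)
  set P : Set ℂ := pvArcL D d ψ x ∪ B1 with hP
  set Q : Set ℂ := pvArcR D d ψ ∪ B2 with hQ
  have hPc : IsClosed P := hLc.union hB1
  have hQc : IsClosed Q := hRc.union hB2
  have hQne : Q.Nonempty := ⟨d, Or.inl (Or.inl rfl)⟩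
  have hPne : P.Nonempty := by
    obtain ⟨a, b, c⟩ := pvxh_pt h (w0 := 0) (w1 := 1) one_ne_zero
    refine ⟨_, Or.inl ⟨a, b, ?_, ?_⟩⟩ <;> rw [c] <;> simp [hx0]
  set g : ℂ → ℝ := fun z => infDist z P - infDist z Q with hg
  have hgc : Continuous g := (continuous_infDist_pt P).sub (continuous_infDist_pt Q)
  have hPQ : ∀ z, z ∈ B ∩ closure D → z ∈ P → z ∈ Q → False := by
    intro z hzN hzP hzQ
    rcases hzP with hzP | hzP
    · have h1 : z ∈ B1 := hBL ⟨hzN, hzP⟩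
      rcases hzQ with hzQ | hzQ
      · exact Set.disjoint_left.1 hdis h1 (hBR ⟨hzN, hzQ⟩)
      · exact Set.disjoint_left.1 hdis h1 hzQ
    · rcases hzQ with hzQ | hzQ
      · exact Set.disjoint_left.1 hdis hzP (hBR ⟨hzN, hzQ⟩)
      · exact Set.disjoint_left.1 hdis hzP hzQ
  have key : ∀ z ∈ closure D, g z = 0 → z ∈ W := by
    intro z hz hgz
    rcases hcov hz with hzB | hzW
    · exfalso
      have hzN : z ∈ B ∩ closure D := ⟨hzB, hz⟩
      have hz12 : z ∈ B1 ∪ B2 := hBu ▸ hzN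
      rcases hz12 with h1 | h2
      · have hzP : z ∈ P := Or.inr h1
        have e0 : infDist z P = 0 := infDist_zero_of_mem hzP
        have e1 : infDist z Q = 0 := by simp only [hg] at hgz; linarith
        exact hPQ z hzN hzP ((hQc.mem_iff_infDist_zero hQne).2 e1)
      · have hzQ : z ∈ Q := Or.inr h2
        have e0 : infDist z Q = 0 := infDist_zero_of_mem hzQ
        have e1 : infDist z P = 0 := by simp only [hg] at hgz; linarith
        exact hPQ z hzN ((hPc.mem_iff_infDist_zero hPne).2 e1) hzQ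
    · exact hzW
  set a : Fin 2 → ℝ := ![0, -1] with ha
  set b : Fin 2 → ℝ := ![1, 2] with hb
  have hbox : ∀ p ∈ Icc a b, 0 ≤ p 0 ∧ p 0 ≤ 1 ∧ -1 ≤ p 1 ∧ p 1 ≤ 2 := fun p hp => ⟨hp.1 0, hp.2 0, hp.1 1, hp.2 1⟩
  set Θ : (Fin 2 → ℝ) → ℂ := fun p => h.dinv (pvxhTh x p) with hΘ
  have hΘc : ContinuousOn Θ (Icc a b) := by
    refine h.dinv_cont.comp (pvxh_Th_cont x).continuousOn fun p hp => ?_
    obtain ⟨h0, h1, h2, h3⟩ := hbox p hp
    rw [mem_closedBall_zero_iff]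
    exact pvxh_Th_norm x h0 h1 h2 h3
  have hΘK : ∀ p ∈ Icc a b, Θ p ∈ closure D := by
    intro p hp
    obtain ⟨h0, h1, h2, h3⟩ := hbox p hp
    exact h.dinv_mem (pvxh_Th_norm x h0 h1 h2 h3)
  have hGc : ContinuousOn (fun p => g (Θ p)) (Icc a b) := hgc.comp_continuousOn hΘc
  obtain ⟨S', hS'sub, hS'c, hS'0, ⟨pl, hpl, epl⟩, ⟨pr, hpr, epr⟩⟩ := pvxh_H a b
    (by intro i; fin_cases i <;> norm_num [ha, hb]) (fun p => g (Θ p)) hGc
    (by
      intro p hp hp1
      obtain ⟨h0, h1, -, -⟩ := hbox p hp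
      have e : Θ p = h.dinv (pvxhK (p 0 * x) 1) := by
        simp only [hΘ]; rw [pvxh_Th_bot x (by simpa [ha] using hp1)]
      obtain ⟨c1, c2, c3⟩ := pvxh_pt h (w0 := p 0 * x) (w1 := 1) one_ne_zero
      have hmem : Θ p ∈ P := by
        rw [e]
        refine Or.inl ⟨c1, c2, ?_, ?_⟩ <;> rw [c3, Complex.ofReal_re, div_one]
        · positivity
        · exact mul_le_of_le_one_left hx0 h1
      show infDist (Θ p) P - infDist (Θ p) Q ≤ 0
      rw [infDist_zero_of_mem hmem]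
      linarith [infDist_nonneg (x := Θ p) (s := Q)])
    (by
      intro p hp hp1
      obtain ⟨h0, h1, -, -⟩ := hbox p hp
      have e : Θ p = h.dinv (pvxhK 1 (p 0)) := by
        simp only [hΘ]; rw [pvxh_Th_top x (by simpa [hb] using hp1)]
      have hmem : Θ p ∈ Q := by
        rw [e]
        rcases h0.eq_or_lt with h0 | h0
        · rw [← h0]; exact Or.inl (Or.inl (pvxh_pt_d h one_ne_zero))
        · obtain ⟨c1, c2, c3⟩ := pvxh_pt h (w0 := 1) (w1 := p 0) h0.ne'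
          refine Or.inl (Or.inr ⟨c1, c2, ?_⟩)
          rw [c3, Complex.ofReal_re, le_div_iff₀ h0]
          linarith
      show 0 ≤ infDist (Θ p) P - infDist (Θ p) Q
      rw [infDist_zero_of_mem hmem]
      linarith [infDist_nonneg (x := Θ p) (s := P)])
  -- the closure of `S'`
  have hZcl : IsClosed (Icc a b ∩ (fun p => g (Θ p)) ⁻¹' {0}) := hGc.preimage_isClosed_of_isClosed isClosed_Icc isClosed_singleton
  have hcl : closure S' ⊆ Icc a b ∩ (fun p => g (Θ p)) ⁻¹' {0} := closure_minimal (fun p hp => ⟨hS'sub hp, hS'0 p hp⟩) hZcl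
  have hclc : IsCompact (closure S') := isCompact_Icc.of_isClosed_subset isClosed_closure fun p hp => (hcl hp).1
  have hΘc' : ContinuousOn Θ (closure S') := hΘc.mono fun p hp => (hcl hp).1
  refine ⟨Θ '' closure S', ?_, hclc.image_of_continuousOn hΘc', ⟨⟨Θ pl, pl, subset_closure hpl, rfl⟩, hS'c.closure.image Θ hΘc'⟩, ?_, ?_⟩
  · rintro _ ⟨p, hp, rfl⟩
    exact ⟨key _ (hΘK p (hcl hp).1) (hcl hp).2, hΘK p (hcl hp).1⟩
  · refine ⟨Θ pr, ⟨pr, subset_closure hpr, rfl⟩, ?_⟩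
    have e : Θ pr = h.dinv (pvxhK (x + max 0 (min (pr 1) 1) * (1 - x)) 1) := by
      simp only [hΘ]; rw [pvxh_Th_right x (by simpa [hb] using epr)]
    obtain ⟨c1, c2, c3⟩ := pvxh_pt h (w0 := x + max 0 (min (pr 1) 1) * (1 - x)) (w1 := 1) one_ne_zero
    have m0 : 0 ≤ max 0 (min (pr 1) 1) := le_max_left _ _
    have m1 : max 0 (min (pr 1) 1) ≤ 1 := max_le zero_le_one (min_le_right _ _)
    rw [e]
    refine ⟨c1, c2, ?_, ?_⟩ <;> rw [c3, Complex.ofReal_re, div_one]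
    · nlinarith
    · nlinarith
  · refine ⟨Θ pl, ⟨pl, subset_closure hpl, rfl⟩, ?_⟩
    have e : Θ pl = h.dinv (pvxhK (-(max 0 (min (pl 1) 1))) (1 - max 0 (min (pl 1) 1))) := by
      simp only [hΘ]; rw [pvxh_Th_left x (by simpa [ha] using epl)]
    have m0 : 0 ≤ max 0 (min (pl 1) 1) := le_max_left _ _
    have m1 : max 0 (min (pl 1) 1) ≤ 1 := max_le zero_le_one (min_le_right _ _)
    rw [e]
    rcases m1.eq_or_lt with m1 | m1
    · left
      rw [m1, sub_self]
      exact pvxh_pt_d h (by norm_num)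
    · right
      obtain ⟨c1, c2, c3⟩ := pvxh_pt h (w0 := -(max 0 (min (pl 1) 1))) (w1 := 1 - max 0 (min (pl 1) 1)) (by linarith)
      refine ⟨c1, c2, ?_⟩
      rw [c3, Complex.ofReal_re]
      exact div_nonpos_of_nonpos_of_nonneg (by linarith) (by linarith)

/-- **continuum HEX on the quad `(D, ψ, x)`** (contract of helper74): `closure D` covered by two closed sets `B`, `W`: a connected subset of `B ∩ closure D` joins `ψ⁻¹[0,x]` to `{d} ∪ ψ⁻¹[1,∞)`,
or a compact connected subset of `W ∩ closure D` joins `ψ⁻¹[x,1]` to `{d} ∪ ψ⁻¹(-∞,0]` -/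
theorem pvxh_hex (h : PvChart D d ψ) {x : ℝ} (hx0 : 0 < x) (hx1 : x < 1) {B W : Set ℂ} (hB : IsClosed B) (_hW : IsClosed W) (hcov : closure D ⊆ B ∪ W) :
    (∃ S ⊆ B ∩ closure D, IsConnected S ∧ (∃ z ∈ S, z ∈ pvArcL D d ψ x) ∧ ∃ z ∈ S, z ∈ pvArcR D d ψ) ∨
      ∃ S ⊆ W ∩ closure D, IsCompact S ∧ IsConnected S ∧ (∃ z ∈ S, z ∈ frontier D ∧ z ≠ d ∧ x ≤ (ψ z).re ∧ (ψ z).re ≤ 1) ∧
        ∃ z ∈ S, z = d ∨ (z ∈ frontier D ∧ z ≠ d ∧ (ψ z).re ≤ 0) := by
  rcases pvxh_hex' h hx0.le hx1.le hB hcov with ⟨S, hS, hSc, ⟨z, hz, hzL⟩, hR⟩ | h2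
  · exact Or.inl ⟨S, hS, ⟨⟨z, hz⟩, hSc⟩, ⟨z, hz, hzL⟩, hR⟩
  · exact Or.inr h2

end hex

end Claimed.Agent.R289
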