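import Claimed.Agent.R289.Ext.Cells
import Claimed.Agent.R289.Ext.Hex

/-!
# Row 289 (S0537), unit EXT, piece DET-MAIN, file Ext/DetTop : THE MODEL FREE TOPOLOGY OF `MAIN`      (helper4, second architect of DET-MAIN; head helper74; prefix `pvxm_`, defs `pvxm…`)

Design of 74 (msg 09:10Z).      NO sites, NO colours, NO mesh here: a chart `h : PvChart D d ψ`, a finite family of closed sets `Cw i` (the THICK WHITE CELLS), a set `E` of EXPLORED indices.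
* `pvxmTop D d ψ x`, `pvxmBot D d ψ`   the two other arcs `ψ⁻¹[x,1]`, `{d} ∪ ψ⁻¹(-∞,0]`
* `pvxm_bump`   BOUNDARY BUMPING: `S` compact connected, `A ⊆ S` closed, `A ≠ S`, `p ∈ A`: the component of `p` in `A` meets `closure (S \ A)`
* `pvxm_topg`   TOP, rotated: a path in `closure D` from `pvArcL` to `pvArcR` meets every preconnected subset of `closure D` which joins the top arc to the bottom arc
* **`pvxm_main`**   `S` compact connected in `closure D ∩ ⋃ Cw`, from the bottom arc to `p` on the top arc, `p` in no explored cell;   `σ` a path from `pvArcL` to `pvArcR` each point of which lies in `G0`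
                (the two ENDS: slit + the cell of unknown colour) or misses all the `Cw i` (the strict polygon of the bank);   each explored cell is tied to the bottom arc by a preconnected `T i` off `σ`
                (explored white cells + one `NB` cell + the zone `ZB`).      THEN the component `C` of `p` in `S ∩ ⋃_{i ∉ E} Cw i` meets `G0`.
* **`pvxm_chain`**  the same as a chain of UNEXPLORED indices from `G0` to `p`, consecutive cells meeting inside `S`.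
* **`pvxm_det`**    DET-MAIN IN SITE-SET FORM (HEX of 285 + thick cells of 255 + the above; NO thick cell is left in the statement).      `Y = Wh ∪ Bk` locally finite;  no preconnected subset of `closure D ∩ Bk_t`, `t > 0`, joins the two arcs
                (= the sample is not in the target `T` of TGT);  `W ⊆ Wh` the explored white sites, their CELLS lie in `D` and in a preconnected `T0 ⊆ closure D` which touches the bottom arc and misses `σ`;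
                `σ` = path from `pvArcL` to `pvArcR` in `closure D`, covered by two compact sets `G0` (the ends) and `G1` (misses every white CELL).
                THEN there is a chain of UNEXPLORED white sites, consecutive CELLS meeting in `closure D`, from a cell which meets `G0 ∩ closure D` to a cell which meets the top arc.
-/

set_option autoImplicit false

namespace Claimed.Agent.R289

open Set Filter Topology
open Claims.C0465

/-- the top arc `ψ⁻¹[x,1]` -/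
def pvxmTop (D : Set ℂ) (d : ℂ) (ψ : ℂ → ℂ) (x : ℝ) : Set ℂ := {z | z ∈ frontier D ∧ z ≠ d ∧ x ≤ (ψ z).re ∧ (ψ z).re ≤ 1}

/-- the bottom arc `{d} ∪ ψ⁻¹(-∞,0]` -/
def pvxmBot (D : Set ℂ) (d : ℂ) (ψ : ℂ → ℂ) : Set ℂ := {z | z = d ∨ (z ∈ frontier D ∧ z ≠ d ∧ (ψ z).re ≤ 0)}

theorem pvxm_eqns_cite : True := by
  have := @pvxmTop.eq_1; have := @pvxmBot.eq_1
  trivial

/-! ## 1. boundary bumping -/

/-- **BUMP** -/
theorem pvxm_bump {S A : Set ℂ} (hS : IsCompact S) (hSc : IsPreconnected S) (hA : IsClosed A) (hAS : A ⊆ S) {p : ℂ} (hp : p ∈ A)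
    (hne : A ≠ S) : (connectedComponentIn A p ∩ closure (S \ A)).Nonempty := by
  classical
  by_contra hcon
  rw [not_nonempty_iff_eq_empty] at hcon
  have hAc : IsCompact A := hS.of_isClosed_subset hA hAS
  have : CompactSpace A := isCompact_iff_compactSpace.1 hAc
  set B : Set ℂ := closure (S \ A) with hB
  set B' : Set A := Subtype.val ⁻¹' B with hB'
  have hB'c : IsClosed B' := isClosed_closure.preimage continuous_subtype_val
  set p' : A := ⟨p, hp⟩ with hp'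
  have hcc : connectedComponentIn A p = Subtype.val '' connectedComponent p' := connectedComponentIn_eq_image hp
  have hdis : B' ∩ ⋂ s : {s : Set A // IsClopen s ∧ p' ∈ s}, (s : Set A) = ∅ := by
    rw [← connectedComponent_eq_iInter_isClopen]
    rw [eq_empty_iff_forall_notMem]
    rintro z ⟨hz, hz2⟩
    have h1 : (z : ℂ) ∈ connectedComponentIn A p ∩ B := ⟨by rw [hcc]; exact ⟨z, hz2, rfl⟩, hz⟩
    rw [hcon] at h1
    exact h1
  obtain ⟨u, hu⟩ : ∃ u : Finset {s : Set A // IsClopen s ∧ p' ∈ s}, B' ∩ ⋂ i ∈ u, (i : Set A) = ∅ := by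
    by_contra hno
    push Not at hno
    have h1 := hB'c.isCompact.inter_iInter_nonempty (fun s : {s : Set A // IsClopen s ∧ p' ∈ s} => (s : Set A))
      (fun s => s.2.1.isClosed) (fun u => hno u)
    rw [hdis] at h1
    exact not_nonempty_empty h1
  set Kc : Set A := ⋂ i ∈ u, (i : Set A) with hKc
  have hKclopen : IsClopen Kc := isClopen_biInter_finset fun i _ => i.2.1
  have hpK : p' ∈ Kc := mem_iInter₂.2 fun i _ => i.2.2
  have hemb := hA.isClosedEmbedding_subtypeVal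
  set K : Set ℂ := Subtype.val '' Kc with hK
  set L1 : Set ℂ := Subtype.val '' Kcᶜ with hL1
  have hKcl : IsClosed K := hemb.isClosedMap _ hKclopen.isClosed
  have hL1cl : IsClosed L1 := hemb.isClosedMap _ hKclopen.compl.isClosed
  have hLcl : IsClosed (B ∪ L1) := isClosed_closure.union hL1cl
  have hcov : S ⊆ K ∪ (B ∪ L1) := by
    intro z hz
    by_cases hzA : z ∈ A
    · by_cases hzK : (⟨z, hzA⟩ : A) ∈ Kc
      · exact Or.inl ⟨⟨z, hzA⟩, hzK, rfl⟩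
      · exact Or.inr (Or.inr ⟨⟨z, hzA⟩, hzK, rfl⟩)
    · exact Or.inr (Or.inl (subset_closure ⟨hz, hzA⟩))
  have hn1 : (S ∩ K).Nonempty := ⟨p, hAS hp, ⟨p', hpK, rfl⟩⟩
  have hn2 : (S ∩ (B ∪ L1)).Nonempty := by
    have : ¬ S ⊆ A := fun hh => hne (Subset.antisymm hAS hh)
    obtain ⟨z, hz, hzA⟩ := not_subset.1 this
    exact ⟨z, hz, Or.inl (subset_closure ⟨hz, hzA⟩)⟩
  obtain ⟨z, -, ⟨z1, hz1, rfl⟩, hz2⟩ := (isPreconnected_closed_iff.1 hSc) K (B ∪ L1) hKcl hLcl hcov hn1 hn2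
  rcases hz2 with hz2 | ⟨z2, hz2, e⟩
  · have : z1 ∈ B' ∩ ⋂ i ∈ u, (i : Set A) := ⟨hz2, hz1⟩
    rw [hu] at this
    exact this
  · exact hz2 (Subtype.ext e ▸ hz1)

/-! ## 2. TOP, rotated -/

section top

variable {D : Set ℂ} {d : ℂ} {ψ : ℂ → ℂ}

/-- **TOPG**: a path in `closure D` from `pvArcL` to `pvArcR` meets every preconnected subset of `closure D` which joins the top arc to the bottom arc -/
theorem pvxm_topg (h : PvChart D d ψ) {x : ℝ} (hx0 : 0 < x) (hx1 : x < 1)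
    {σ : ℝ → ℂ} (hσ : ContinuousOn σ (Icc 0 1)) (hσD : ∀ t ∈ Icc (0 : ℝ) 1, σ t ∈ closure D)
    (h0 : σ 0 ∈ pvArcL D d ψ x) (h1 : σ 1 ∈ pvArcR D d ψ)
    {S : Set ℂ} (hS : IsPreconnected S) (hSD : S ⊆ closure D) (hT : ∃ z ∈ S, z ∈ pvxmTop D d ψ x) (hB : ∃ z ∈ S, z ∈ pvxmBot D d ψ) :
    ∃ t ∈ Icc (0 : ℝ) 1, σ t ∈ S := by
  -- the point `a = ψ⁻¹ 0`
  obtain ⟨a, ⟨ha, had⟩, hψa⟩ : (0 : ℂ) ∈ ψ '' (frontier D \ {d}) := by rw [h.imgB]; simp
  have had : a ≠ d := had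
  have h' := pvend_rot h ha had hψa hx0
  have hval : ∀ z, z ∈ frontier D → z ≠ d → (pvendRot d ψ x z).re = 1 - x / (ψ z).re := by
    intro z hz hzd
    unfold pvendRot
    rw [if_neg hzd, pvend_real h hz hzd]
    have := pvend_inv_re (ψ z).re 0
    rw [Complex.ofReal_zero] at this
    simp only [Complex.add_re, Complex.re_ofReal_mul, Complex.ofReal_re, this]
    rw [zero_sub, one_div, inv_neg]
    ring
  have hvd : (pvendRot d ψ x d).re = 1 := by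
    unfold pvendRot
    rw [if_pos rfl]; simp
  have hza : ∀ z, z ∈ frontier D → z ≠ d → (ψ z).re = 0 → z = a := by
    intro z hz hzd h0
    refine h.inj ⟨frontier_subset_closure hz, hzd⟩ ⟨frontier_subset_closure ha, had⟩ ?_
    rw [hψa, pvend_real h hz hzd, h0]; simp
  have hare : (ψ a).re = 0 := by rw [hψa]; simp
  obtain ⟨zT, hzTS, hzT1, hzT2, hzT3, hzT4⟩ := hT
  obtain ⟨zB, hzBS, hzB⟩ := hB
  have hL' : ∃ z ∈ S, z ∈ pvArcL D a (pvendRot d ψ x) (1 - x) := by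
    have hpos : 0 < (ψ zT).re := lt_of_lt_of_le hx0 hzT3
    refine ⟨zT, hzTS, hzT1, fun e => ?_, ?_, ?_⟩
    · rw [e, hare] at hpos; exact lt_irrefl _ hpos
    · rw [hval _ hzT1 hzT2]
      have : x / (ψ zT).re ≤ 1 := (div_le_one hpos).2 hzT3
      linarith
    · rw [hval _ hzT1 hzT2]
      have : x ≤ x / (ψ zT).re := by
        rw [le_div_iff₀ hpos]
        nlinarith
      linarith
  have hR' : ∃ z ∈ S, z ∈ pvArcR D a (pvendRot d ψ x) := by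
    refine ⟨zB, hzBS, ?_⟩
    rcases hzB with e | ⟨b1, b2, b3⟩
    · exact Or.inr ⟨e ▸ h.hd, e ▸ had.symm, by rw [e, hvd]⟩
    · by_cases c : zB = a
      · exact Or.inl c
      · refine Or.inr ⟨b1, c, ?_⟩
        rw [hval _ b1 b2]
        have : x / (ψ zB).re ≤ 0 := div_nonpos_of_nonneg_of_nonpos hx0.le b3
        linarith
  have hrev : ContinuousOn (fun t : ℝ => σ (1 - t)) (Icc 0 1) :=
    hσ.comp (by fun_prop) fun t ht => ⟨by linarith [ht.2], by linarith [ht.1]⟩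
  obtain ⟨t, ht, htS⟩ := pvend_top h' (x := 1 - x) (by linarith) (by linarith) hS hSD hL' hR' hrev
    (fun t ht => hσD _ ⟨by linarith [ht.2], by linarith [ht.1]⟩) (by
      simp only [sub_zero]
      rcases h1 with e | ⟨b1, b2, b3⟩
      · rw [e]
        exact ⟨h.hd, had.symm, by rw [hvd]; linarith, by rw [hvd]⟩
      · have hpos : 0 < (ψ (σ 1)).re := by linarith
        refine ⟨b1, fun e => ?_, ?_, ?_⟩
        · rw [e, hare] at hpos; exact lt_irrefl _ hpos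
        · rw [hval _ b1 b2]
          have : x / (ψ (σ 1)).re ≤ x := by
            rw [div_le_iff₀ hpos]
            nlinarith
          linarith
        · rw [hval _ b1 b2]
          have : 0 ≤ x / (ψ (σ 1)).re := div_nonneg hx0.le hpos.le
          linarith) (by
      simp only [sub_self]
      obtain ⟨b1, b2, b3, b4⟩ := h0
      by_cases c : σ 0 = a
      · exact Or.inl c
      · have hpos : 0 < (ψ (σ 0)).re := lt_of_le_of_ne b3 fun e => c (hza _ b1 b2 e.symm)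
        refine Or.inr ⟨b1, c, ?_⟩
        rw [hval _ b1 b2]
        have : 1 ≤ x / (ψ (σ 0)).re := (one_le_div hpos).2 b4
        linarith)
  exact ⟨1 - t, ⟨by linarith [ht.2], by linarith [ht.1]⟩, htS⟩

/-! ## 3. the abstract MAIN -/

/-- **MAIN, abstract form** -/
theorem pvxm_main (h : PvChart D d ψ) {x : ℝ} (hx0 : 0 < x) (hx1 : x < 1) {ι : Type*} [Finite ι] {Cw : ι → Set ℂ} (hCw : ∀ i, IsClosed (Cw i))
    (E : Set ι) {S : Set ℂ} (hSc : IsCompact S) (hSp : IsPreconnected S) (hSD : S ⊆ closure D) (hSW : S ⊆ ⋃ i, Cw i)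
    {p : ℂ} (hpS : p ∈ S) (hpT : p ∈ pvxmTop D d ψ x) (hpE : ∀ i ∈ E, p ∉ Cw i) (hSB : ∃ z ∈ S, z ∈ pvxmBot D d ψ)
    {σ : ℝ → ℂ} (hσ : ContinuousOn σ (Icc 0 1)) (hσD : ∀ t ∈ Icc (0 : ℝ) 1, σ t ∈ closure D)
    (h0 : σ 0 ∈ pvArcL D d ψ x) (h1 : σ 1 ∈ pvArcR D d ψ)
    {G0 : Set ℂ} (hG : ∀ t ∈ Icc (0 : ℝ) 1, σ t ∈ G0 ∨ ∀ i, σ t ∉ Cw i)
    (T : ι → Set ℂ) (hT : ∀ i ∈ E, IsPreconnected (T i) ∧ T i ⊆ closure D ∧ Cw i ∩ S ⊆ T i ∧ (∃ z ∈ T i, z ∈ pvxmBot D d ψ) ∧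
      ∀ t ∈ Icc (0 : ℝ) 1, σ t ∉ T i) :
    ∃ C : Set ℂ, IsPreconnected C ∧ p ∈ C ∧ C ⊆ S ∩ ⋃ i ∈ Eᶜ, Cw i ∧ (C ∩ G0).Nonempty := by
  classical
  set A : Set ℂ := S ∩ ⋃ i ∈ Eᶜ, Cw i with hA
  have hU1 : IsClosed (⋃ i ∈ Eᶜ, Cw i) := (Set.toFinite Eᶜ).isClosed_biUnion fun i _ => hCw i
  have hU2 : IsClosed (⋃ i ∈ E, Cw i) := (Set.toFinite E).isClosed_biUnion fun i _ => hCw i
  have hAcl : IsClosed A := hSc.isClosed.inter hU1
  have hpA : p ∈ A := by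
    obtain ⟨i, hi⟩ := mem_iUnion.1 (hSW hpS)
    exact ⟨hpS, mem_biUnion (show i ∈ Eᶜ from fun hE => hpE i hE hi) hi⟩
  set C : Set ℂ := connectedComponentIn A p with hC
  have hCp : IsPreconnected C := isPreconnected_connectedComponentIn
  have hpC : p ∈ C := mem_connectedComponentIn hpA
  have hCA : C ⊆ A := connectedComponentIn_subset A p
  have hfin : ∀ t ∈ Icc (0 : ℝ) 1, σ t ∈ C → (C ∩ G0).Nonempty := by
    intro t ht htC
    rcases hG t ht with h2 | h2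
    · exact ⟨σ t, htC, h2⟩
    · obtain ⟨i, hi⟩ := mem_iUnion.1 (hSW (hCA htC).1)
      exact absurd hi (h2 i)
  refine ⟨C, hCp, hpC, hCA, ?_⟩
  by_cases hAS : A = S
  · have hSC : S ⊆ C := by
      rw [hC, hAS]
      exact hSp.subset_connectedComponentIn hpS Subset.rfl
    obtain ⟨zB, hzB, hzB'⟩ := hSB
    obtain ⟨t, ht, htC⟩ := pvxm_topg h hx0 hx1 hσ hσD h0 h1 hCp (hCA.trans (inter_subset_left.trans hSD)) ⟨p, hpC, hpT⟩ ⟨zB, hSC hzB, hzB'⟩
    exact hfin t ht htC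
  · obtain ⟨q, hqC, hqB⟩ := pvxm_bump hSc hSp hAcl inter_subset_left hpA hAS
    have hsub : closure (S \ A) ⊆ S ∩ ⋃ i ∈ E, Cw i := by
      refine closure_minimal ?_ (hSc.isClosed.inter hU2)
      rintro z ⟨hz, hzA⟩
      obtain ⟨i, hi⟩ := mem_iUnion.1 (hSW hz)
      refine ⟨hz, ?_⟩
      by_cases hE : i ∈ E
      · exact mem_biUnion hE hi
      · exact absurd ⟨hz, mem_biUnion (show i ∈ Eᶜ from hE) hi⟩ hzA
    obtain ⟨hqS, hqU⟩ := hsub hqB
    obtain ⟨i0, hi0E, hqi0⟩ := mem_iUnion₂.1 hqU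
    obtain ⟨t1, t2, t3, ⟨zB, hzB, hzB'⟩, t5⟩ := hT i0 hi0E
    have hqT : q ∈ T i0 := t3 ⟨hqi0, hqS⟩
    have hun : IsPreconnected (C ∪ T i0) := hCp.union q hqC hqT t1
    obtain ⟨t, ht, htC⟩ := pvxm_topg h hx0 hx1 hσ hσD h0 h1 hun
      (union_subset (hCA.trans (inter_subset_left.trans hSD)) t2) ⟨p, Or.inl hpC, hpT⟩ ⟨zB, Or.inr hzB, hzB'⟩
    rcases htC with htC | htC
    · exact hfin t ht htC
    · exact absurd htC (t5 t ht)

/-- **MAIN, chain form**: a chain of UNEXPLORED indices from `G0` to `p`, consecutive cells meeting inside `S` -/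
theorem pvxm_chain (h : PvChart D d ψ) {x : ℝ} (hx0 : 0 < x) (hx1 : x < 1) {ι : Type*} [Finite ι] {Cw : ι → Set ℂ} (hCw : ∀ i, IsClosed (Cw i))
    (E : Set ι) {S : Set ℂ} (hSc : IsCompact S) (hSp : IsPreconnected S) (hSD : S ⊆ closure D) (hSW : S ⊆ ⋃ i, Cw i)
    {p : ℂ} (hpS : p ∈ S) (hpT : p ∈ pvxmTop D d ψ x) (hpE : ∀ i ∈ E, p ∉ Cw i) (hSB : ∃ z ∈ S, z ∈ pvxmBot D d ψ)
    {σ : ℝ → ℂ} (hσ : ContinuousOn σ (Icc 0 1)) (hσD : ∀ t ∈ Icc (0 : ℝ) 1, σ t ∈ closure D)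
    (h0 : σ 0 ∈ pvArcL D d ψ x) (h1 : σ 1 ∈ pvArcR D d ψ)
    {G0 : Set ℂ} (hG : ∀ t ∈ Icc (0 : ℝ) 1, σ t ∈ G0 ∨ ∀ i, σ t ∉ Cw i)
    (T : ι → Set ℂ) (hT : ∀ i ∈ E, IsPreconnected (T i) ∧ T i ⊆ closure D ∧ Cw i ∩ S ⊆ T i ∧ (∃ z ∈ T i, z ∈ pvxmBot D d ψ) ∧
      ∀ t ∈ Icc (0 : ℝ) 1, σ t ∉ T i) :
    ∃ i j : ι, i ∉ E ∧ (Cw i ∩ G0 ∩ S).Nonempty ∧ p ∈ Cw j ∧ Relation.ReflTransGen (fun a b => b ∉ E ∧ (Cw a ∩ Cw b ∩ S).Nonempty) i j := by
  obtain ⟨C, hCp, hpC, hCs, ⟨y, hyC, hyG⟩⟩ := pvxm_main h hx0 hx1 hCw E hSc hSp hSD hSW hpS hpT hpE hSB hσ hσD h0 h1 hG T hT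
  have hZs : C ⊆ (⋃ i : {i // i ∉ E}, Cw i.1) ∩ S := by
    intro z hz
    obtain ⟨hzS, hzU⟩ := hCs hz
    obtain ⟨i, hi, hzi⟩ := mem_iUnion₂.1 hzU
    exact ⟨mem_iUnion.2 ⟨⟨i, hi⟩, hzi⟩, hzS⟩
  obtain ⟨i, j, hi, hj, hR⟩ := rsw_chain_of_connected (C := fun i : {i // i ∉ E} => Cw i.1) (fun i => hCw i.1) hCp hZs hyC hpC
  refine ⟨i.1, j.1, i.2, ⟨y, ⟨hi.1, hyG⟩, hi.2⟩, hj.1, ?_⟩
  exact hR.lift (fun i : {i // i ∉ E} => i.1) (fun a b hab => ⟨b.2, hab⟩)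

/-! ## 4. DET-MAIN in site-set form -/

theorem pvxm_top_compact (h : PvChart D d ψ) (x : ℝ) : IsCompact (pvxmTop D d ψ x) := by
  have : pvxmTop D d ψ x = (fun s : ℝ => h.dinv (pvxhK s 1)) '' Icc x 1 := by
    ext z
    constructor
    · rintro ⟨hz, hzd, h0, h1⟩
      exact ⟨(ψ z).re, ⟨h0, h1⟩, (pvxh_pt_of h hz hzd).symm⟩
    · rintro ⟨s, ⟨h0, h1⟩, rfl⟩
      obtain ⟨a, b, c⟩ := pvxh_pt h (w0 := s) (w1 := 1) one_ne_zero
      refine ⟨a, b, ?_, ?_⟩ <;> rw [c] <;> simpa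
  rw [this]
  exact isCompact_Icc.image (pvxh_pt_cont h continuous_id continuous_const fun _ => Or.inr one_ne_zero)

/-- **DET-MAIN, site-set form** -/
theorem pvxm_det (h : PvChart D d ψ) {x : ℝ} (hx0 : 0 < x) (hx1 : x < 1) {Y Bk Wh W : Set ℂ} (hY : Y = Wh ∪ Bk) (lf : VorLF Y) (hne : Y.Nonempty) (hW : W ⊆ Wh)
    (hno : ∀ t : ℝ, 0 < t → ∀ S : Set ℂ, IsPreconnected S → S ⊆ closure D ∩ pvxkFat Bk Wh (-t) → (S ∩ pvArcL D d ψ x).Nonempty →
      (S ∩ pvArcR D d ψ).Nonempty → False)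
    {σ : ℝ → ℂ} (hσ : ContinuousOn σ (Icc 0 1)) (hσD : ∀ t ∈ Icc (0 : ℝ) 1, σ t ∈ closure D)
    (h0 : σ 0 ∈ pvArcL D d ψ x) (h1 : σ 1 ∈ pvArcR D d ψ)
    {G0 G1 : Set ℂ} (hG0 : IsCompact G0) (hG1 : IsCompact G1) (hG : ∀ t ∈ Icc (0 : ℝ) 1, σ t ∈ G0 ∨ σ t ∈ G1)
    (hG1W : ∀ w ∈ Wh, Disjoint G1 (vorCell Y w))
    {T0 : Set ℂ} (hT0 : IsPreconnected T0) (hT0D : T0 ⊆ closure D) (hT0W : ∀ w ∈ W, vorCell Y w ⊆ T0 ∩ D)
    (hT0B : ∃ z ∈ T0, z ∈ pvxmBot D d ψ) (hT0σ : ∀ t ∈ Icc (0 : ℝ) 1, σ t ∉ T0) :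
    ∃ a ∈ Wh \ W, ∃ b ∈ Wh \ W, (vorCell Y a ∩ (G0 ∩ closure D)).Nonempty ∧ (vorCell Y b ∩ pvxmTop D d ψ x).Nonempty ∧
      Relation.ReflTransGen (fun u v => v ∈ Wh \ W ∧ (vorCell Y u ∩ vorCell Y v ∩ closure D).Nonempty) a b := by
  classical
  have hWhY : Wh ⊆ Y := hY ▸ subset_union_left
  have hBkY : Bk ⊆ Y := hY ▸ subset_union_right
  have lfWh : VorLF Wh := lf.mono hWhY
  have lfBk : VorLF Bk := lf.mono hBkY
  have hKc : IsCompact (closure D) := h.bdd.isCompact_closure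
  have hSgc : IsCompact (σ '' Icc 0 1) := isCompact_Icc.image_of_continuousOn hσ
  have hFc : IsCompact (frontier D) := hKc.of_isClosed_subset isClosed_frontier frontier_subset_closure
  obtain ⟨t1, ht1, N1⟩ := pvxk_nerve lf hKc
  obtain ⟨t2, ht2, N2⟩ := pvxk_nerve_one lf (hG0.inter hKc)
  obtain ⟨t3, ht3, N3⟩ := pvxk_nerve_one lf hG1
  obtain ⟨t4, ht4, N4⟩ := pvxk_nerve_one lf (pvxm_top_compact h x)
  obtain ⟨t5, ht5, N5⟩ := pvxk_nerve_one lf hSgc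
  obtain ⟨t6, ht6, N6⟩ := pvxk_nerve_one lf hFc
  obtain ⟨t, ht, l1, l2, l3, l4, l5, l6⟩ : ∃ t : ℝ, 0 < t ∧ t ≤ t1 ∧ t ≤ t2 ∧ t ≤ t3 ∧ t ≤ t4 ∧ t ≤ t5 ∧ t ≤ t6 :=
    ⟨min t1 (min t2 (min t3 (min t4 (min t5 t6)))), by simp [ht1, ht2, ht3, ht4, ht5, ht6], by simp, by simp, by simp, by simp, by simp, by simp⟩
  have hcov : closure D ⊆ pvxkFat Bk Wh (-t) ∪ pvxkFat Wh Bk t := by
    rw [pvxk_cover lfBk (by rw [union_comm, ← hY]; exact hne) t]
    exact subset_univ _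
  rcases pvxh_hex h hx0 hx1 (pvxk_fat_closed lfBk Wh (-t)) (pvxk_fat_closed lfWh Bk t) hcov with
    ⟨S, hS, hSc, ⟨z, hz, hzL⟩, ⟨z', hz', hzR⟩⟩ | ⟨S, hS, hSc, hScon, ⟨p, hpS, hpT⟩, hB⟩
  · exact (hno t ht S hSc.isPreconnected (fun y hy => ⟨(hS hy).2, (hS hy).1⟩) ⟨z, hz, hzL⟩ ⟨z', hz', hzR⟩).elim
  have hWt : pvxkFat Wh Bk t = vorThickUn Y t Wh := by rw [hY]; exact pvxk_fat_eq_un lfWh ht.le
  set I : Set ℂ := {w | w ∈ Wh ∧ (vorThick Y t w ∩ closure D).Nonempty} with hI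
  have hfin : I.Finite := (pvxk_finite_meet (K := closure D) lf hKc.isBounded t).subset fun w hw => ⟨hWhY hw.1, hw.2⟩
  have : Finite I := hfin
  -- the thick cells of the explored sites lie in `D`
  have hself : ∀ w, w ∈ vorCell Y w := fun w u _ => by rw [sub_self, norm_zero]; exact norm_nonneg _
  have hthD : ∀ w ∈ W, vorThick Y t w ⊆ D := by
    intro w hw
    by_contra hcon
    obtain ⟨y, hy, hyD⟩ := not_subset.1 hcon
    have h2 : ¬ (vorThick Y t w ∩ frontier D).Nonempty := by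
      intro h2
      obtain ⟨y', hy', hy'F⟩ := N6 t l6 w (hWhY (hW hw)) h2
      rw [h.isOpen.frontier_eq] at hy'F
      exact hy'F.2 (hT0W w hw hy').2
    have h3 : vorThick Y t w ⊆ D ∪ (closure D)ᶜ := by
      intro z hz
      by_cases hzD : z ∈ D
      · exact Or.inl hzD
      · refine Or.inr fun hzc => h2 ⟨z, hz, ?_⟩
        rw [h.isOpen.frontier_eq]
        exact ⟨hzc, hzD⟩
    have hyc : y ∈ (closure D)ᶜ := (h3 hy).resolve_left hyD
    obtain ⟨z, -, hz1, hz2⟩ := pvxk_thick_preconnected Y t w D (closure D)ᶜ h.isOpen isClosed_closure.isOpen_compl h3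
      ⟨w, pvxk_self_mem_thick Y w ht.le, (hT0W w hw (hself w)).2⟩ ⟨y, hy, hyc⟩
    exact hz2 (subset_closure hz1)
  set TT : Set ℂ := T0 ∪ ⋃ w ∈ W, vorThick Y t w with hTT
  obtain ⟨zB, hzB, hzB'⟩ := hT0B
  have hTTp : IsPreconnected TT := by
    have e : TT = ⋃₀ (insert T0 ((fun w => T0 ∪ vorThick Y t w) '' W)) := by
      ext y
      simp only [hTT, mem_union, mem_iUnion, mem_sUnion, mem_insert_iff, mem_image, exists_prop]
      constructor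
      · rintro (hy | ⟨w, hw, hy⟩)
        · exact ⟨T0, Or.inl rfl, hy⟩
        · exact ⟨_, Or.inr ⟨w, hw, rfl⟩, Or.inr hy⟩
      · rintro ⟨s, rfl | ⟨w, hw, rfl⟩, hy⟩
        · exact Or.inl hy
        · rcases hy with hy | hy
          · exact Or.inl hy
          · exact Or.inr ⟨w, hw, hy⟩
    rw [e]
    refine isPreconnected_sUnion zB _ ?_ ?_
    · rintro s (rfl | ⟨w, hw, rfl⟩)
      · exact hzB
      · exact Or.inl hzB
    · rintro s (rfl | ⟨w, hw, rfl⟩)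
      · exact hT0
      · exact hT0.union w (hT0W w hw (hself w)).1 (pvxk_self_mem_thick Y w ht.le) (pvxk_thick_preconnected Y t w)
  have hTTD : TT ⊆ closure D := by
    rintro y (hy | hy)
    · exact hT0D hy
    · obtain ⟨w, hw, hy⟩ := mem_iUnion₂.1 hy
      exact subset_closure (hthD w hw hy)
  have hTTσ : ∀ s ∈ Icc (0 : ℝ) 1, σ s ∉ TT := by
    rintro s hs (hy | hy)
    · exact hT0σ s hs hy
    · obtain ⟨w, hw, hy⟩ := mem_iUnion₂.1 hy
      obtain ⟨y', hy', ⟨s', hs', rfl⟩⟩ := N5 t l5 w (hWhY (hW hw)) ⟨σ s, hy, mem_image_of_mem σ hs⟩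
      exact hT0σ s' hs' (hT0W w hw hy').1
  have hpD : p ∉ D := by
    have := hpT.1
    rw [h.isOpen.frontier_eq] at this
    exact this.2
  obtain ⟨i, j, hiE, ⟨y, ⟨hyi, hyG⟩, hyS⟩, hpj, hch⟩ := pvxm_chain h hx0 hx1 (ι := I) (Cw := fun i => vorThick Y t i) (fun i => pvxk_thick_closed Y t i)
    {i : I | (i : ℂ) ∈ W} hSc hScon.isPreconnected (fun y hy => (hS hy).2) (fun y hy => by
      have h2 : y ∈ vorThickUn Y t Wh := hWt ▸ (hS hy).1
      obtain ⟨w, hw, hyw⟩ := h2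
      exact mem_iUnion.2 ⟨⟨w, hw, y, hyw, (hS hy).2⟩, hyw⟩) hpS hpT (fun i hi hp => hpD (hthD i hi hp)) hB hσ hσD h0 h1 (G0 := G0) (fun s hs => by
      rcases hG s hs with h2 | h2
      · exact Or.inl h2
      · refine Or.inr fun i hi => ?_
        obtain ⟨y', hy', hy'G⟩ := N3 t l3 i (hWhY i.2.1) ⟨σ s, hi, h2⟩
        exact (disjoint_left.1 (hG1W i i.2.1)) hy'G hy') (fun _ => TT)
      (fun i hi => ⟨hTTp, hTTD, fun y hy => Or.inr (mem_biUnion hi hy.1), ⟨zB, Or.inl hzB, hzB'⟩, hTTσ⟩)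
  have hjE : (j : ℂ) ∉ W := fun hj => hpD (hthD j hj hpj)
  refine ⟨i, ⟨i.2.1, hiE⟩, j, ⟨j.2.1, hjE⟩, N2 t l2 i (hWhY i.2.1) ⟨y, hyi, hyG, (hS hyS).2⟩, N4 t l4 j (hWhY j.2.1) ⟨p, hpj, hpT⟩, ?_⟩
  refine hch.lift (fun i : I => (i : ℂ)) fun a b hab => ⟨⟨b.2.1, hab.1⟩, ?_⟩
  obtain ⟨y', hy', hy'S⟩ := hab.2
  exact N1 t l1 a (hWhY a.2.1) b (hWhY b.2.1) ⟨y', hy', (hS hy'S).2⟩

end top

end Claimed.Agent.R289
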