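-- KEEP CAPOK
import Claimed.Agent.R289.Defs.Top
import Claimed.Agent.R289.PppQ
import Claimed.Agent.R289.Del.Strict
import Claimed.Agent.R289.Ext.Cells
import Claimed.Agent.R289.Ext.DetTop

/-!
# Row 289 (S0537), unit EXT, file Ext/Defs : VOCABULARY OF THE CUT OF `exit_pv_ext`      (owner helper74, head of EXT; prefix `pvx`, `Pvx`)

Blueprint: `origin/helper74:notes/R289/EXT_74.md`.      NO circuits, NO winding, NO lowest PATH, NO discrete disc.      Tools: continuum HEX on a chart, TOP (`pvend_top`), boundary bumping, a finite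
white-cluster exploration in SET form, monotone PAINTING of the explored set.

* the two other boundary arcs: `pvxmTop D d ψ x = ψ⁻¹[x,1]`, `pvxmBot D d ψ = {d} ∪ ψ⁻¹(-∞,0]` (helper4, `Ext/DetTop`);      the exploration starts from the BOTTOM `pvxmBot`
* `pvxK Y σ`, `pvxH Y σ`      black / white sites of the colouring `σ : ℂ → Bool` of the site set `Y`;      `pvxAdj Y a b` : the closed cells touch
* thick cells `vorThick Y t w`, `vorThickUn Y t A`, regions `pvxkFat A B t` : helper255, `Ext/Cells`      (`Wh_t = pvxkFat Wh Bk t`, `Bk_t = pvxkFat Bk Wh (-t)`)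
* `pvxW V adj seed σ`         EXPLORED WHITE: white sites of `V` joined to a white seed of `V` by white sites of `V`
* `pvxB V adj seed σ`         EXPLORED BLACK: black sites of `V` which are seeds or adjacent to `pvxW`;      `pvxW ∪ pvxB` is a STOPPING SET
* `pvxPaint V adj seed σ`     the colouring `σ` with the explored set painted black
* `PvxFr`                     FRAME: an inner domain `D2` and four closed zones `ZL ZR ZB ZT` covering `closure D \ D2`;      `F.free Y` free sites (cell inside `D2`, off `ZL ∪ ZR`), `F.nb Y` bottom sites, `F.seed Y`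
* `PvxBank F Y Bs eL eR`      a chain inside `Bs` from a neighbour `eL` of a cell meeting `ZL` to a neighbour `eR` of a cell meeting `ZR`
* `PvxArm Y Wh e r R`         a chain of sites of `Wh`, consecutive cells touching, from `closedBall e r` to the outside of `ball e R`
* `PvxOk Y K μ`               good site set (locally finite, general position, cells meeting `K` of radius `≤ μ`)
* `PvxGeo ...`                everything the deterministic core uses of the geometry of the frame (produced by GEO from `Chart.lean` + `Ext/Sub.lean`)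
-/

set_option autoImplicit false

namespace Claimed.Agent.R289

open Set Metric Filter Topology MeasureTheory
open Claims.C0465

/-! ## 1. colourings of a site set -/

/-- black sites -/
def pvxK (Y : Set ℂ) (σ : ℂ → Bool) : Set ℂ := {v | v ∈ Y ∧ σ v = true}

/-- white sites -/
def pvxH (Y : Set ℂ) (σ : ℂ → Bool) : Set ℂ := {v | v ∈ Y ∧ σ v = false}

/-- the closed cells touch -/
def pvxAdj (Y : Set ℂ) (a b : ℂ) : Prop := (vorCell Y a ∩ vorCell Y b).Nonempty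

/-! ## 2. the exploration in set form -/

/-- EXPLORED WHITE -/
def pvxW (V : Set ℂ) (adj : ℂ → ℂ → Prop) (seed : Set ℂ) (σ : ℂ → Bool) : Set ℂ :=
  {w | ∃ s, s ∈ V ∧ s ∈ seed ∧ σ s = false ∧ Relation.ReflTransGen (fun a b => b ∈ V ∧ σ b = false ∧ adj a b) s w}

/-- EXPLORED BLACK -/
def pvxB (V : Set ℂ) (adj : ℂ → ℂ → Prop) (seed : Set ℂ) (σ : ℂ → Bool) : Set ℂ :=
  {b | b ∈ V ∧ σ b = true ∧ (b ∈ seed ∨ ∃ w ∈ pvxW V adj seed σ, adj w b)}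

open Classical in
/-- the explored set painted black -/
noncomputable def pvxPaint (V : Set ℂ) (adj : ℂ → ℂ → Prop) (seed : Set ℂ) (σ : ℂ → Bool) : ℂ → Bool :=
  fun z => if z ∈ pvxW V adj seed σ ∪ pvxB V adj seed σ then true else σ z

/-! ## 3. frames -/

/-- FRAME -/
structure PvxFr where
  D2 : Set ℂ
  ZL : Set ℂ
  ZR : Set ℂ
  ZB : Set ℂ
  ZT : Set ℂ

/-- free sites -/
def PvxFr.free (F : PvxFr) (Y : Set ℂ) : Set ℂ := {v | v ∈ Y ∧ vorCell Y v ⊆ F.D2 ∧ Disjoint (vorCell Y v) (F.ZL ∪ F.ZR)}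

/-- bottom sites -/
def PvxFr.nb (F : PvxFr) (Y : Set ℂ) : Set ℂ := {u | u ∈ Y ∧ Disjoint (vorCell Y u) (F.ZL ∪ F.ZR) ∧ (vorCell Y u ∩ F.ZB).Nonempty}

/-- top sites -/
def PvxFr.nt (F : PvxFr) (Y : Set ℂ) : Set ℂ := {u | u ∈ Y ∧ Disjoint (vorCell Y u) (F.ZL ∪ F.ZR) ∧ (vorCell Y u ∩ F.ZT).Nonempty}

/-- seeds -/
def PvxFr.seed (F : PvxFr) (Y : Set ℂ) : Set ℂ := {s | ∃ u ∈ F.nb Y, pvxAdj Y u s}

/-- explored white of the frame -/
def PvxFr.W (F : PvxFr) (Y : Set ℂ) (σ : ℂ → Bool) : Set ℂ := pvxW (F.free Y) (pvxAdj Y) (F.seed Y) σ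

/-- explored black of the frame -/
def PvxFr.B (F : PvxFr) (Y : Set ℂ) (σ : ℂ → Bool) : Set ℂ := pvxB (F.free Y) (pvxAdj Y) (F.seed Y) σ

/-- painted colouring of the frame -/
noncomputable def PvxFr.paint (F : PvxFr) (Y : Set ℂ) (σ : ℂ → Bool) : ℂ → Bool := pvxPaint (F.free Y) (pvxAdj Y) (F.seed Y) σ

/-- BANK -/
def PvxBank (F : PvxFr) (Y Bs : Set ℂ) (eL eR : ℂ) : Prop :=
  eL ∈ Bs ∧ (∃ u ∈ Y, (vorCell Y u ∩ F.ZL).Nonempty ∧ pvxAdj Y u eL) ∧ (∃ u ∈ Y, (vorCell Y u ∩ F.ZR).Nonempty ∧ pvxAdj Y u eR) ∧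
    Relation.ReflTransGen (fun a b => b ∈ Bs ∧ pvxAdj Y a b) eL eR

/-- ARM of sites of `Wh` -/
def PvxArm (Y Wh : Set ℂ) (e : ℂ) (r R : ℝ) : Prop :=
  ∃ a b, a ∈ Wh ∧ ‖a - e‖ ≤ r ∧ R ≤ ‖b - e‖ ∧ Relation.ReflTransGen (fun u v => v ∈ Wh ∧ pvxAdj Y u v) a b

/-- chain of sites of `S` from `A` to `B` (set form of `PvVC`) -/
def PvxVC (Y S A B : Set ℂ) : Prop :=
  ∃ u v, u ∈ A ∧ v ∈ B ∧ u ∈ S ∧ Relation.ReflTransGen (fun a b => b ∈ S ∧ pvxAdj Y a b) u v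

/-- good site set -/
structure PvxOk (Y K : Set ℂ) (μ : ℝ) : Prop where
  lf : VorLF Y
  gp : VorGP Y
  cov : ∀ z : ℂ, ∃ v ∈ Y, z ∈ vorCell Y v
  mesh : ∀ v ∈ Y, (vorCell Y v ∩ K).Nonempty → vorCell Y v ⊆ closedBall v μ
  dense : VorDense Y (cthickening 1 K) μ

/-- **GEO**: what the deterministic core uses of the frame.      `W' AL' AR'` = the `ρ`-thickenings of the analytic subdomain and of its two arcs;      `z1 z2` = the two bottom corners;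
`τ` = size of the slits, `ρ0` = macroscopic distance, `μ` = mesh. -/
structure PvxGeo (D : Set ℂ) (d : ℂ) (ψ : ℂ → ℂ) (x : ℝ) (F : PvxFr) (W' AL' AR' : Set ℂ) (z1 z2 : ℂ) (τ ρ0 μ : ℝ) : Prop where
  mu_pos : 0 < μ
  tau_pos : 0 < τ
  mu_small : 8 * μ < ρ0
  mu_lt : μ < 1 / 8
  D2_open : IsOpen F.D2
  D2_in : ∀ z ∈ F.D2, closedBall z (4 * μ) ⊆ D
  ZL_closed : IsClosed F.ZL
  ZR_closed : IsClosed F.ZR
  ZB_closed : IsClosed F.ZB
  ZT_closed : IsClosed F.ZT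
  ZL_sub : F.ZL ⊆ closure D
  ZR_sub : F.ZR ⊆ closure D
  ZB_sub : F.ZB ⊆ closure D
  ZT_sub : F.ZT ⊆ closure D
  cover : closure D \ F.D2 ⊆ F.ZL ∪ F.ZR ∪ F.ZB ∪ F.ZT
  ZB_conn : IsPreconnected F.ZB
  ZT_conn : IsPreconnected F.ZT
  ZB_D2 : Disjoint F.ZB F.D2
  ZT_D2 : Disjoint F.ZT F.D2
  ZB_arc : (F.ZB ∩ pvxmBot D d ψ).Nonempty
  ZT_arc : (F.ZT ∩ pvxmTop D d ψ x).Nonempty
  bot_ZT : Disjoint (pvxmBot D d ψ) F.ZT
  top_ZB : Disjoint (pvxmTop D d ψ x) F.ZB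
  arcL_ZR : Disjoint (pvArcL D d ψ x) F.ZR
  arcR_ZL : Disjoint (pvArcR D d ψ) F.ZL
  far_LR : ∀ y ∈ F.ZL, ∀ z ∈ F.ZR, ρ0 ≤ dist y z
  far_arcL : ∀ y ∈ F.ZR, ∀ z ∈ pvArcL D d ψ x, ρ0 ≤ dist y z
  far_arcR : ∀ y ∈ F.ZL, ∀ z ∈ pvArcR D d ψ, ρ0 ≤ dist y z
  far_BT : ∀ y ∈ F.ZB, ∀ z ∈ F.ZT, 8 * μ < dist y z
  far_T : ∀ y ∈ F.ZL ∪ F.ZR, ∀ z ∈ pvxmTop D d ψ x, ρ0 ≤ dist y z
  slitL : ∀ y ∈ F.ZL, ∃ p ∈ pvArcL D d ψ x, JoinedIn (F.ZL ∩ closedBall y τ) y p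
  slitR : ∀ y ∈ F.ZR, ∃ p ∈ pvArcR D d ψ, JoinedIn (F.ZR ∩ closedBall y τ) y p
  W_in : ∀ z ∈ W', closedBall z μ ⊆ F.D2
  AL_sub : AL' ⊆ F.ZL
  AR_sub : AR' ⊆ F.ZR
  deep : ∀ y ∈ AL' ∪ AR', Disjoint (closedBall y τ) (F.ZB ∪ F.ZT)
  z1_mem : z1 ∈ F.ZL
  z2_mem : z2 ∈ F.ZR
  cornerL : ∀ y ∈ F.ZL, ∀ z ∈ F.ZB, dist y z ≤ 2 * μ → dist y z1 ≤ 2 * τ
  cornerR : ∀ y ∈ F.ZR, ∀ z ∈ F.ZB, dist y z ≤ 2 * μ → dist y z2 ≤ 2 * τ

theorem pvx_eqns_cite : True := by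
  have := @pvxK.eq_1; have := @pvxH.eq_1; have := @pvxAdj.eq_1; have := @pvxW.eq_1; have := @pvxB.eq_1; have := @pvxPaint.eq_1
  have := @PvxFr.free.eq_1; have := @PvxFr.nb.eq_1; have := @PvxFr.nt.eq_1; have := @PvxFr.seed.eq_1; have := @PvxFr.W.eq_1; have := @PvxFr.B.eq_1
  have := @PvxFr.paint.eq_1; have := @PvxBank.eq_1; have := @PvxArm.eq_1; have := @PvxVC.eq_1
  trivial

/-! ## 4. API of the exploration      (helper255) -/

section expl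

variable {V seed : Set ℂ} {adj : ℂ → ℂ → Prop} {σ σ' : ℂ → Bool} {w b s : ℂ}

theorem pvx_W_sub (hw : w ∈ pvxW V adj seed σ) : w ∈ V ∧ σ w = false := by
  obtain ⟨s, hsV, -, hsσ, hch⟩ := hw
  cases hch with
  | refl => exact ⟨hsV, hsσ⟩
  | tail _ h => exact ⟨h.1, h.2.1⟩

theorem pvx_B_sub (hb : b ∈ pvxB V adj seed σ) : b ∈ V ∧ σ b = true := ⟨hb.1, hb.2.1⟩

theorem pvx_W_disj_B : Disjoint (pvxW V adj seed σ) (pvxB V adj seed σ) :=
  Set.disjoint_left.2 fun z h1 h2 => by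
    have := (pvx_W_sub h1).2
    rw [(pvx_B_sub h2).2] at this
    exact Bool.noConfusion this

/-- a white seed is explored white -/
theorem pvx_W_seed (hV : s ∈ V) (hs : s ∈ seed) (hσ : σ s = false) : s ∈ pvxW V adj seed σ := ⟨s, hV, hs, hσ, Relation.ReflTransGen.refl⟩

/-- a white neighbour in `V` of an explored white site is explored white -/
theorem pvx_W_step (hw : w ∈ pvxW V adj seed σ) (hV : b ∈ V) (hσ : σ b = false) (hadj : adj w b) : b ∈ pvxW V adj seed σ := by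
  obtain ⟨s, hsV, hsS, hsσ, hch⟩ := hw
  exact ⟨s, hsV, hsS, hsσ, Relation.ReflTransGen.tail hch ⟨hV, hσ, hadj⟩⟩

/-- every seed of `V` is explored -/
theorem pvx_seed_mem (hV : s ∈ V) (hs : s ∈ seed) : s ∈ pvxW V adj seed σ ∪ pvxB V adj seed σ := by
  cases hσ : σ s with
  | false => exact Or.inl (pvx_W_seed hV hs hσ)
  | true => exact Or.inr ⟨hV, hσ, Or.inl hs⟩

/-- every neighbour in `V` of an explored white site is explored -/
theorem pvx_nbr_mem (hw : w ∈ pvxW V adj seed σ) (hV : b ∈ V) (hadj : adj w b) : b ∈ pvxW V adj seed σ ∪ pvxB V adj seed σ := by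
  cases hσ : σ b with
  | false => exact Or.inl (pvx_W_step hw hV hσ hadj)
  | true => exact Or.inr ⟨hV, hσ, Or.inr ⟨w, hw, hadj⟩⟩

/-- half of STOP -/
theorem pvx_W_congr_sub (h : ∀ z ∈ pvxW V adj seed σ ∪ pvxB V adj seed σ, σ' z = σ z) : pvxW V adj seed σ' ⊆ pvxW V adj seed σ := by
  rintro w ⟨s, hsV, hsS, hsσ, hch⟩
  have hwhite : ∀ z, z ∈ pvxW V adj seed σ ∪ pvxB V adj seed σ → σ' z = false → z ∈ pvxW V adj seed σ := by
    rintro z (hz | hz) hz'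
    · exact hz
    · rw [h z (Or.inr hz), (pvx_B_sub hz).2] at hz'
      exact Bool.noConfusion hz'
  induction hch with
  | refl => exact hwhite s (pvx_seed_mem hsV hsS) hsσ
  | tail _ hstep ih => exact hwhite _ (pvx_nbr_mem ih hstep.1 hstep.2.2) hstep.2.1

/-- **STOP, white part**: the explored white set is determined by the colours of the explored set -/
theorem pvx_W_congr (h : ∀ z ∈ pvxW V adj seed σ ∪ pvxB V adj seed σ, σ' z = σ z) : pvxW V adj seed σ' = pvxW V adj seed σ := by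
  refine Subset.antisymm (pvx_W_congr_sub h) ?_
  rintro w ⟨s, hsV, hsS, hsσ, hch⟩
  have hs' : s ∈ pvxW V adj seed σ' := pvx_W_seed hsV hsS (by rw [h s (Or.inl (pvx_W_seed hsV hsS hsσ)), hsσ])
  have key : w ∈ pvxW V adj seed σ ∧ w ∈ pvxW V adj seed σ' := by
    induction hch with
    | refl => exact ⟨pvx_W_seed hsV hsS hsσ, hs'⟩
    | tail _ hstep ih =>
      have h1 := pvx_W_step ih.1 hstep.1 hstep.2.1 hstep.2.2
      exact ⟨h1, pvx_W_step ih.2 hstep.1 (by rw [h _ (Or.inl h1), hstep.2.1]) hstep.2.2⟩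
  exact key.2

/-- **STOP, black part** -/
theorem pvx_B_congr (h : ∀ z ∈ pvxW V adj seed σ ∪ pvxB V adj seed σ, σ' z = σ z) : pvxB V adj seed σ' = pvxB V adj seed σ := by
  have hW := pvx_W_congr h
  ext b
  constructor
  · rintro ⟨hV, hσ', hb⟩
    rw [hW] at hb
    have hmem : b ∈ pvxW V adj seed σ ∪ pvxB V adj seed σ := by
      rcases hb with hb | ⟨w, hw, hadj⟩
      · exact pvx_seed_mem hV hb
      · exact pvx_nbr_mem hw hV hadj
    exact ⟨hV, by rw [← h b hmem, hσ'], hb⟩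
  · rintro hb
    refine ⟨hb.1, by rw [h b (Or.inr hb), hb.2.1], ?_⟩
    rw [hW]
    exact hb.2.2

theorem pvx_paint_of_mem {z : ℂ} (hz : z ∈ pvxW V adj seed σ ∪ pvxB V adj seed σ) : pvxPaint V adj seed σ z = true := by
  unfold pvxPaint
  exact if_pos hz

theorem pvx_paint_of_notMem {z : ℂ} (hz : z ∉ pvxW V adj seed σ ∪ pvxB V adj seed σ) : pvxPaint V adj seed σ z = σ z := by
  unfold pvxPaint
  exact if_neg hz

/-- painting only blackens -/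
theorem pvx_paint_white {z : ℂ} (hz : pvxPaint V adj seed σ z = false) : σ z = false ∧ z ∉ pvxW V adj seed σ ∪ pvxB V adj seed σ := by
  by_cases h : z ∈ pvxW V adj seed σ ∪ pvxB V adj seed σ
  · rw [pvx_paint_of_mem h] at hz
    exact Bool.noConfusion hz
  · rw [pvx_paint_of_notMem h] at hz
    exact ⟨hz, h⟩

end expl

/-! ## 5. (C2) TIE      (helper255) -/

/-- the cell of a free site lies in `D` -/
theorem pvx_tie_free {D : Set ℂ} {d : ℂ} {ψ : ℂ → ℂ} {x : ℝ} {F : PvxFr} {W' AL' AR' : Set ℂ} {z1 z2 : ℂ} {τ ρ0 μ : ℝ}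
    (G : PvxGeo D d ψ x F W' AL' AR' z1 z2 τ ρ0 μ) {Y : Set ℂ} {v : ℂ} (hv : v ∈ F.free Y) : vorCell Y v ⊆ D := fun z hz =>
  G.D2_in z (hv.2.1 hz) (mem_closedBall_self (by linarith [G.mu_pos]))

/-- the cell of a site adjacent to a free site lies in `D` -/
theorem pvx_tie_nbr {D : Set ℂ} {d : ℂ} {ψ : ℂ → ℂ} {x : ℝ} {F : PvxFr} {W' AL' AR' : Set ℂ} {z1 z2 : ℂ} {τ ρ0 μ : ℝ}
    (G : PvxGeo D d ψ x F W' AL' AR' z1 z2 τ ρ0 μ) {Y : Set ℂ} (hY : PvxOk Y (closure D) μ) {u v : ℂ} (hu : u ∈ Y) (hv : v ∈ F.free Y) (huv : pvxAdj Y u v) :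
    vorCell Y u ⊆ D := by
  obtain ⟨p, hpu, hpv⟩ := huv
  have hpD2 : p ∈ F.D2 := hv.2.1 hpv
  have hpD : p ∈ D := pvx_tie_free G hv hpv
  have hball := hY.mesh u hu ⟨p, hpu, subset_closure hpD⟩
  intro z hz
  refine G.D2_in p hpD2 ?_
  have h1 := hball hz
  have h2 := hball hpu
  rw [mem_closedBall] at h1 h2 ⊢
  have := dist_triangle_right z p u
  linarith [G.mu_pos]

/-- **(C2) TIE**: the cell of an explored white site is tied to the bottom arc by a preconnected subset of `closure D` made of `ZB`, explored white cells and the cell of one bottom site adjacent to a free site -/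
theorem pvx_tie {D : Set ℂ} {d : ℂ} {ψ : ℂ → ℂ} {x : ℝ} {F : PvxFr} {W' AL' AR' : Set ℂ} {z1 z2 : ℂ} {τ ρ0 μ : ℝ}
    (G : PvxGeo D d ψ x F W' AL' AR' z1 z2 τ ρ0 μ) {Y : Set ℂ} (hY : PvxOk Y (closure D) μ) (σ : ℂ → Bool) {w : ℂ} (hw : w ∈ F.W Y σ) :
    ∃ X : Set ℂ, IsPreconnected X ∧ X ⊆ closure D ∧ vorCell Y w ⊆ X ∧ (X ∩ pvxmBot D d ψ).Nonempty ∧
      X ⊆ F.ZB ∪ vorUn Y (F.W Y σ) ∪ vorUn Y {u | u ∈ F.nb Y ∧ ∃ v ∈ F.free Y, pvxAdj Y u v} := by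
  obtain ⟨s, hsV, hsS, hsσ, hch⟩ := hw
  obtain ⟨u, hu, hus⟩ := hsS
  set R : Set ℂ := F.ZB ∪ vorUn Y (F.W Y σ) ∪ vorUn Y {u | u ∈ F.nb Y ∧ ∃ v ∈ F.free Y, pvxAdj Y u v} with hR
  have key : ∀ w, Relation.ReflTransGen (fun a b => b ∈ F.free Y ∧ σ b = false ∧ pvxAdj Y a b) s w →
      ∃ X : Set ℂ, IsPreconnected X ∧ X ⊆ closure D ∧ vorCell Y w ⊆ X ∧ F.ZB ⊆ X ∧ X ⊆ R := by
    intro w hw
    induction hw with
    | refl =>
      refine ⟨F.ZB ∪ vorCell Y u ∪ vorCell Y s, ?_, ?_, subset_union_right, fun z hz => Or.inl (Or.inl hz), ?_⟩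
      · obtain ⟨p, hp1, hp2⟩ := hu.2.2
        obtain ⟨p', hp1', hp2'⟩ := hus
        have h1 : IsPreconnected (F.ZB ∪ vorCell Y u) := IsPreconnected.union p hp2 hp1 G.ZB_conn (vor_convex_cell Y u).isPreconnected
        exact IsPreconnected.union p' (Or.inr hp1') hp2' h1 (vor_convex_cell Y s).isPreconnected
      · rintro z ((hz | hz) | hz)
        · exact G.ZB_sub hz
        · exact subset_closure (pvx_tie_nbr G hY hu.1 hsV hus hz)
        · exact subset_closure (pvx_tie_free G hsV hz)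
      · rintro z ((hz | hz) | hz)
        · exact Or.inl (Or.inl hz)
        · exact Or.inr ⟨u, ⟨hu, s, hsV, hus⟩, hz⟩
        · exact Or.inl (Or.inr ⟨s, ⟨s, hsV, ⟨u, hu, hus⟩, hsσ, Relation.ReflTransGen.refl⟩, hz⟩)
    | @tail a b hab hstep ih =>
      obtain ⟨X, hX1, hX2, hX3, hX4, hX5⟩ := ih
      obtain ⟨p, hpa, hpb⟩ := hstep.2.2
      refine ⟨X ∪ vorCell Y b, IsPreconnected.union p (hX3 hpa) hpb hX1 (vor_convex_cell Y b).isPreconnected, ?_, subset_union_right, fun z hz => Or.inl (hX4 hz), ?_⟩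
      · rintro z (hz | hz)
        · exact hX2 hz
        · exact subset_closure (pvx_tie_free G hstep.1 hz)
      · rintro z (hz | hz)
        · exact hX5 hz
        · exact Or.inl (Or.inr ⟨b, ⟨s, hsV, ⟨u, hu, hus⟩, hsσ, Relation.ReflTransGen.tail hab hstep⟩, hz⟩)
  obtain ⟨X, hX1, hX2, hX3, hX4, hX5⟩ := key w hch
  obtain ⟨p, hp1, hp2⟩ := G.ZB_arc
  exact ⟨X, hX1, hX2, hX3, ⟨p, hX4 hp1, hp2⟩, hX5⟩

/-- the explored bottom blob: `ZB`, the explored white cells, the cells of the bottom sites adjacent to a free site -/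
def pvxT0 (F : PvxFr) (Y : Set ℂ) (σ : ℂ → Bool) : Set ℂ :=
  F.ZB ∪ vorUn Y (F.W Y σ) ∪ vorUn Y {u | u ∈ F.nb Y ∧ ∃ v ∈ F.free Y, pvxAdj Y u v}

theorem pvx_eqns_cite2 : True := by
  have := @pvxT0.eq_1
  trivial

/-- TIE with `ZB` inside the tie (no geometry needed) -/
theorem pvx_tie_zb {F : PvxFr} (hZB : IsPreconnected F.ZB) {Y : Set ℂ} (σ : ℂ → Bool) {w : ℂ} (hw : w ∈ F.W Y σ) :
    ∃ X : Set ℂ, IsPreconnected X ∧ F.ZB ⊆ X ∧ vorCell Y w ⊆ X ∧ X ⊆ pvxT0 F Y σ := by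
  obtain ⟨s, hsV, hsS, hsσ, hch⟩ := hw
  obtain ⟨u, hu, hus⟩ := hsS
  induction hch with
  | refl =>
    refine ⟨F.ZB ∪ vorCell Y u ∪ vorCell Y s, ?_, fun z hz => Or.inl (Or.inl hz), subset_union_right, ?_⟩
    · obtain ⟨p, hp1, hp2⟩ := hu.2.2
      obtain ⟨p', hp1', hp2'⟩ := hus
      have h1 : IsPreconnected (F.ZB ∪ vorCell Y u) := IsPreconnected.union p hp2 hp1 hZB (vor_convex_cell Y u).isPreconnected
      exact IsPreconnected.union p' (Or.inr hp1') hp2' h1 (vor_convex_cell Y s).isPreconnected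
    · rintro z ((hz | hz) | hz)
      · exact Or.inl (Or.inl hz)
      · exact Or.inr ⟨u, ⟨hu, s, hsV, hus⟩, hz⟩
      · exact Or.inl (Or.inr ⟨s, ⟨s, hsV, ⟨u, hu, hus⟩, hsσ, Relation.ReflTransGen.refl⟩, hz⟩)
  | @tail a b hab hstep ih =>
    obtain ⟨X, hX1, hX2, hX3, hX4⟩ := ih
    obtain ⟨p, hpa, hpb⟩ := hstep.2.2
    refine ⟨X ∪ vorCell Y b, IsPreconnected.union p (hX3 hpa) hpb hX1 (vor_convex_cell Y b).isPreconnected, fun z hz => Or.inl (hX2 hz), subset_union_right, ?_⟩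
    rintro z (hz | hz)
    · exact hX4 hz
    · exact Or.inl (Or.inr ⟨b, ⟨s, hsV, ⟨u, hu, hus⟩, hsσ, Relation.ReflTransGen.tail hab hstep⟩, hz⟩)

/-- **(C2) TIE, global form** -/
theorem pvx_tie_all {D : Set ℂ} {d : ℂ} {ψ : ℂ → ℂ} {x : ℝ} {F : PvxFr} {W' AL' AR' : Set ℂ} {z1 z2 : ℂ} {τ ρ0 μ : ℝ}
    (G : PvxGeo D d ψ x F W' AL' AR' z1 z2 τ ρ0 μ) {Y : Set ℂ} (hY : PvxOk Y (closure D) μ) (σ : ℂ → Bool) :
    IsPreconnected (pvxT0 F Y σ) ∧ pvxT0 F Y σ ⊆ closure D ∧ (pvxT0 F Y σ ∩ pvxmBot D d ψ).Nonempty ∧ ∀ w ∈ F.W Y σ, vorCell Y w ⊆ pvxT0 F Y σ ∩ D := by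
  obtain ⟨p, hp1, hp2⟩ := G.ZB_arc
  have hWfree : ∀ w ∈ F.W Y σ, w ∈ F.free Y := fun w hw => (pvx_W_sub hw).1
  refine ⟨?_, ?_, ⟨p, Or.inl (Or.inl hp1), hp2⟩, fun w hw z hz => ⟨Or.inl (Or.inr ⟨w, hw, hz⟩), pvx_tie_free G (hWfree w hw) hz⟩⟩
  · -- a union of preconnected sets through `p`
    set 𝒞 : Set (Set ℂ) := {X | IsPreconnected X ∧ p ∈ X ∧ X ⊆ pvxT0 F Y σ} with h𝒞
    have hU : pvxT0 F Y σ = ⋃₀ 𝒞 := by
      refine Subset.antisymm ?_ (sUnion_subset fun X hX => hX.2.2)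
      rintro z ((hz | ⟨w, hw, hz⟩) | ⟨u, hu, hz⟩)
      · exact ⟨F.ZB, ⟨G.ZB_conn, hp1, fun y hy => Or.inl (Or.inl hy)⟩, hz⟩
      · obtain ⟨X, hX1, hX2, hX3, hX4⟩ := pvx_tie_zb G.ZB_conn σ hw
        exact ⟨X, ⟨hX1, hX2 hp1, hX4⟩, hX3 hz⟩
      · obtain ⟨q, hq1, hq2⟩ := hu.1.2.2
        refine ⟨F.ZB ∪ vorCell Y u, ⟨IsPreconnected.union q hq2 hq1 G.ZB_conn (vor_convex_cell Y u).isPreconnected, Or.inl hp1, ?_⟩, Or.inr hz⟩
        rintro y (hy | hy)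
        · exact Or.inl (Or.inl hy)
        · exact Or.inr ⟨u, hu, hy⟩
    rw [hU]
    exact isPreconnected_sUnion p 𝒞 (fun X hX => hX.2.1) fun X hX => hX.1
  · rintro z ((hz | ⟨w, hw, hz⟩) | ⟨u, ⟨hu, v, hv, huv⟩, hz⟩)
    · exact G.ZB_sub hz
    · exact subset_closure (pvx_tie_free G (hWfree w hw) hz)
    · exact subset_closure (pvx_tie_nbr G hY hu.1 hv huv hz)

end Claimed.Agent.R289
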