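import Claimed.Agent.R289.Exit.ExtCut

/-!
# Row 289 (S0537), box EXT, piece PROB, file Ext/Prob : THE PAINT LEMMA, THE QUENCHED BOUND, THE GLUE OF THE PAINT DESIGN      (helper256, post of helper74 / helper82; prefix `pvxp_`, defs `pvxpPaint`, `Pvxp*`)

Design of 74 (09:10Z): at a fixed geometry `g` the colours `c : PvColT` are fair bits.  EXPLORATION `S c` (stopping set: white free sites joined to the seeds + their black boundary), `sel c = (zL, zR)` = grid points next to the two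
ends of the bank: a function of what was explored.   PAINT: `c' = c` with `S c` painted black.   DET: on `Cr \ T` the painted colouring has a WHITE arm across all the `m` annuli round `zL`, or round `zR`.
White arms are white-increasing, so painting only destroys them; off `S c` the colours are fresh:      `P (c' ∈ Bad (sel c)) ≤ max_j P (Bad j) ≤ 2 (1 - q)^m`.

MODEL FREE (`V` any type, kit `Arm/Stop` of 128)
* `pvxpPaint T ω`      `ω` with `T` painted black;      `PvxpWInc K`   `K` is white-increasing (it survives the removal of black sites)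
* **`pvxp_paint`**     `PvaStop S`, `PvaMeas S sel`, `∀ j, PvxpWInc (Bad j)`, `∀ j, pvaP A ξ (Bad j) ≤ p`   ⟹   `pvaP A ξ (fun ω => Bad (sel ω) (pvxpPaint (S ω) ω)) ≤ p`
* `pvxp_all`           `m` events reading pairwise disjoint sets, each of probability `≤ 1 - q`: all of them with probability `≤ (1 - q)^m`
THE MODEL
* `PvxpPlan T Cr g m q`   what DET + QARM must produce at a good geometry;      `PvxpPlan.mono`,  **`PvxpPlan.of_sample`** (arms given as events of `PVSample`: locality `PvalLoc`, monotonicity, `pvQ (W z k) g ≤ 1 - q`)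
* **`pvxp_quench`**       `pvQ (Cr \ T) g ≤ 2 (1 - q)^m`
* `pvxp_bridge`           `pvQ A g ≤ 1 - q` + locality ⟹ `pvaP I ξ … ≤ 1 - q` for every background
* `PvxpGeo`, **`pvxp_ext : PvNice → PvxpGeo → PvLower`**   the compiled glue of the paint design (with an exceptional annealed event `X`: corners, trap T2)
-/

set_option autoImplicit false
set_option linter.unusedSectionVars false

namespace Claimed.Agent.R289

open MeasureTheory ProbabilityTheory Set Filter Topology Claims.C0465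
open scoped ENNReal

/-! ## 1. the paint lemma (model free) -/

section abstract

variable {V : Type} [DecidableEq V]

/-- `ω` with `T` painted black -/
def pvxpPaint (T : Finset V) (ω : V → Bool) : V → Bool := fun v => if v ∈ T then true else ω v

/-- `K` is white-increasing: it survives the removal of black sites -/
def PvxpWInc (K : (V → Bool) → Prop) : Prop := ∀ ω ω' : V → Bool, (∀ v, ω' v = true → ω v = true) → K ω → K ω'

theorem pvxp_eqns_cite : True := by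
  have := @pvxpPaint.eq_1; have := @PvxpWInc.eq_1
  trivial

theorem pvxp_paint_in {T : Finset V} {ω : V → Bool} {v : V} (hv : v ∈ T) : pvxpPaint T ω v = true := by
  unfold pvxpPaint; rw [if_pos hv]

theorem pvxp_paint_out {T : Finset V} {ω : V → Bool} {v : V} (hv : v ∉ T) : pvxpPaint T ω v = ω v := by
  unfold pvxpPaint; rw [if_neg hv]

/-- painting adds black sites -/
theorem pvxp_le_paint (T : Finset V) (ω : V → Bool) (v : V) (h : ω v = true) : pvxpPaint T ω v = true := by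
  by_cases hv : v ∈ T
  · exact pvxp_paint_in hv
  · rw [pvxp_paint_out hv, h]

/-- the painted colouring forgets what was under the paint -/
theorem pvxp_paint_mix (T : Finset V) (ω ω' : V → Bool) : pvxpPaint T (pvaMix T ω ω') = pvxpPaint T ω' := by
  funext v
  by_cases hv : v ∈ T
  · rw [pvxp_paint_in hv, pvxp_paint_in hv]
  · rw [pvxp_paint_out hv, pvxp_paint_out hv, pva_mix_out hv]

theorem PvxpWInc.of_paint {K : (V → Bool) → Prop} (h : PvxpWInc K) {T : Finset V} {ω : V → Bool} (hK : K (pvxpPaint T ω)) : K ω :=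
  h _ _ (pvxp_le_paint T ω) hK

theorem PvxpWInc.and {K L : (V → Bool) → Prop} (h : PvxpWInc K) (h' : PvxpWInc L) : PvxpWInc fun ω => K ω ∧ L ω :=
  fun ω ω' hω hK => ⟨h ω ω' hω hK.1, h' ω ω' hω hK.2⟩

theorem PvxpWInc.or {K L : (V → Bool) → Prop} (h : PvxpWInc K) (h' : PvxpWInc L) : PvxpWInc fun ω => K ω ∨ L ω :=
  fun ω ω' hω hK => hK.imp (h ω ω' hω) (h' ω ω' hω)

theorem PvxpWInc.forall {ι : Sort*} {K : ι → (V → Bool) → Prop} (h : ∀ i, PvxpWInc (K i)) : PvxpWInc fun ω => ∀ i, K i ω :=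
  fun ω ω' hω hK i => h i ω ω' hω (hK i)

theorem PvxpWInc.exists {ι : Sort*} {K : ι → (V → Bool) → Prop} (h : ∀ i, PvxpWInc (K i)) : PvxpWInc fun ω => ∃ i, K i ω :=
  fun ω ω' hω ⟨i, hK⟩ => ⟨i, h i ω ω' hω hK⟩

theorem pvxp_winc_const (P : Prop) : PvxpWInc fun _ : V → Bool => P := fun _ _ _ h => h

/-- **THE PAINT LEMMA** -/
theorem pvxp_paint {J : Type} {S : (V → Bool) → Finset V} (hS : PvaStop S) {sel : (V → Bool) → J} (hsel : PvaMeas S sel) (A : Finset V) (ξ : V → Bool)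
    {Bad : J → (V → Bool) → Prop} (hB : ∀ j, PvxpWInc (Bad j)) {p : ℝ} (hp : ∀ j, pvaP A ξ (Bad j) ≤ p) :
    pvaP A ξ (fun ω => Bad (sel ω) (pvxpPaint (S ω) ω)) ≤ p := by
  have h0 : pvaP A ξ (fun ω => Bad (sel ω) (pvxpPaint (S ω) ω))
      = pvaE A ξ (fun ω => pvaP (A \ S ω) ω (fun ω => Bad (sel ω) (pvxpPaint (S ω) ω))) := by
    unfold pvaP
    exact pva_smarkov_one hS A ξ _
  rw [h0]
  refine pva_E_le_const fun ω hω => ?_
  refine (pva_P_fresh_le (S ω) hω (C := Bad (sel ω)) fun ω₂ _ hG => ?_).trans (hp _)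
  have e1 : S (pvaMix (S ω) ω ω₂) = S ω := hS ω _ fun v hv => pva_mix_in hv
  have e2 : sel (pvaMix (S ω) ω ω₂) = sel ω := hsel ω _ fun v hv => pva_mix_in hv
  rw [e1, e2, pvxp_paint_mix] at hG
  exact (hB _).of_paint hG

/-- all of `m` independent events of probability `≤ 1 - q` -/
theorem pvxp_all {I : Finset V} {ξ : V → Bool} {m : ℕ} {q : ℝ} (C : ℕ → (V → Bool) → Prop) (R : ℕ → Finset V)
    (hR : ∀ j ∈ Finset.range m, R j ⊆ I) (hd : ∀ i ∈ Finset.range m, ∀ j ∈ Finset.range m, i ≠ j → Disjoint (R i) (R j))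
    (hC : ∀ j ∈ Finset.range m, PvaDep I (R j) ξ (C j)) (hq : ∀ j ∈ Finset.range m, pvaP I ξ (C j) ≤ 1 - q) :
    pvaP I ξ (fun c => ∀ j ∈ Finset.range m, C j c) ≤ (1 - q) ^ m := by
  rw [pva_P_forall (Finset.range m) R C hR hd hC]
  calc ∏ j ∈ Finset.range m, pvaP I ξ (C j) ≤ ∏ _j ∈ Finset.range m, (1 - q) :=
        Finset.prod_le_prod (fun j _ => pva_P_nonneg _ _ _) hq
    _ = (1 - q) ^ m := by rw [Finset.prod_const, Finset.card_range]

end abstract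

/-! ## 2. the plan, the quenched bound -/

/-- a PLAN (paint design) for the geometry `g`: index window `I`, exploration `S`, selected centres `sel`, admissible centres `Z`, white arms `Arm z k` reading `R z k` -/
def PvxpPlan (T Cr : Set PVSample) (g : PvGeoT) (m : ℕ) (q : ℝ) : Prop :=
  ∃ (I : Finset PvIx) (J : Type) (Z : Set J) (S : PvColT → Finset PvIx) (sel : PvColT → J × J) (Arm : J → ℕ → PvColT → Prop) (R : J → ℕ → Finset PvIx),
    PvaStop S ∧ PvaMeas S sel ∧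
    (∀ z ∈ Z, ∀ k ∈ Finset.range m, PvxpWInc (Arm z k)) ∧
    (∀ z ∈ Z, ∀ k ∈ Finset.range m, R z k ⊆ I) ∧
    (∀ z ∈ Z, ∀ i ∈ Finset.range m, ∀ k ∈ Finset.range m, i ≠ k → Disjoint (R z i) (R z k)) ∧
    (∀ z ∈ Z, ∀ k ∈ Finset.range m, ∀ ξ, PvaDep I (R z k) ξ (Arm z k)) ∧
    (∀ z ∈ Z, ∀ k ∈ Finset.range m, ∀ ξ, pvaP I ξ (Arm z k) ≤ 1 - q) ∧
    (∀ c, pvMerge (g, c) ∈ Cr → pvMerge (g, c) ∉ T →
      ((sel c).1 ∈ Z ∧ ∀ k ∈ Finset.range m, Arm (sel c).1 k (pvxpPaint (S c) c)) ∨ ((sel c).2 ∈ Z ∧ ∀ k ∈ Finset.range m, Arm (sel c).2 k (pvxpPaint (S c) c)))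

theorem pvxp_eqns_cite2 : True := by
  have := @PvxpPlan.eq_1
  trivial

theorem PvxpPlan.mono {T Cr Cr' : Set PVSample} {g : PvGeoT} {m : ℕ} {q : ℝ} (h : PvxpPlan T Cr g m q) (hC : Cr' ⊆ Cr) : PvxpPlan T Cr' g m q := by
  obtain ⟨I, J, Z, S, sel, Arm, R, h1, h2, h3, h4, h5, h6, h7, h8⟩ := h
  exact ⟨I, J, Z, S, sel, Arm, R, h1, h2, h3, h4, h5, h6, h7, fun c hc => h8 c (hC hc)⟩

/-- one centre: all the `m` white arms -/
theorem pvxp_centre {I : Finset PvIx} {J : Type} {Z : Set J} {m : ℕ} {q : ℝ} (hq1 : q ≤ 1) {Arm : J → ℕ → PvColT → Prop} {R : J → ℕ → Finset PvIx}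
    (h4 : ∀ z ∈ Z, ∀ k ∈ Finset.range m, R z k ⊆ I)
    (h5 : ∀ z ∈ Z, ∀ i ∈ Finset.range m, ∀ k ∈ Finset.range m, i ≠ k → Disjoint (R z i) (R z k))
    (h6 : ∀ z ∈ Z, ∀ k ∈ Finset.range m, ∀ ξ, PvaDep I (R z k) ξ (Arm z k))
    (h7 : ∀ z ∈ Z, ∀ k ∈ Finset.range m, ∀ ξ, pvaP I ξ (Arm z k) ≤ 1 - q) (z : J) (ξ : PvColT) :
    pvaP I ξ (fun c => z ∈ Z ∧ ∀ k ∈ Finset.range m, Arm z k c) ≤ (1 - q) ^ m := by
  by_cases hz : z ∈ Z
  · refine (pva_P_mono fun c _ h => h.2).trans ?_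
    exact pvxp_all (Arm z) (R z) (h4 z hz) (h5 z hz) (fun k hk => h6 z hz k hk ξ) (fun k hk => h7 z hz k hk ξ)
  · rw [pva_P_false fun c _ h => hz h.1]
    exact pow_nonneg (by linarith) m

/-- **the quenched bound of the paint design** -/
theorem pvxp_quench {T Cr : Set PVSample} (hT : MeasurableSet T) (hCr : MeasurableSet Cr) {g : PvGeoT} {m : ℕ} {q : ℝ} (hq1 : q ≤ 1)
    (P : PvxpPlan T Cr g m q) : pvQ (Cr \ T) g ≤ ENNReal.ofReal (2 * (1 - q) ^ m) := by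
  obtain ⟨I, J, Z, S, sel, Arm, R, hS, hsel, h3, h4, h5, h6, h7, h8⟩ := P
  have hm : MeasurableSet {c : PvColT | pvMerge (g, c) ∈ Cr \ T} := pvqu_section_meas (hCr.diff hT) g
  set Bad : J × J → PvColT → Prop := fun j c =>
    (j.1 ∈ Z ∧ ∀ k ∈ Finset.range m, Arm j.1 k c) ∨ (j.2 ∈ Z ∧ ∀ k ∈ Finset.range m, Arm j.2 k c) with hBad
  have hone : ∀ z : J, PvxpWInc fun c : PvColT => z ∈ Z ∧ ∀ k ∈ Finset.range m, Arm z k c := by
    intro z ω ω' hω hK
    exact ⟨hK.1, fun k hk => h3 z hK.1 k hk ω ω' hω (hK.2 k hk)⟩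
  have hW : ∀ j, PvxpWInc (Bad j) := fun j => (hone j.1).or (hone j.2)
  have key : ∀ ξ, pvaP I ξ (fun c => pvMerge (g, c) ∈ Cr \ T) ≤ 2 * (1 - q) ^ m := by
    intro ξ
    have hp : ∀ j, pvaP I ξ (Bad j) ≤ 2 * (1 - q) ^ m := by
      intro j
      have a1 := pva_P_or_le I ξ (fun c => j.1 ∈ Z ∧ ∀ k ∈ Finset.range m, Arm j.1 k c) (fun c => j.2 ∈ Z ∧ ∀ k ∈ Finset.range m, Arm j.2 k c)
      have a2 := pvxp_centre hq1 h4 h5 h6 h7 j.1 ξ
      have a3 := pvxp_centre hq1 h4 h5 h6 h7 j.2 ξ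
      have a4 : pvaP I ξ (Bad j) ≤ pvaP I ξ (fun c => j.1 ∈ Z ∧ ∀ k ∈ Finset.range m, Arm j.1 k c) + pvaP I ξ (fun c => j.2 ∈ Z ∧ ∀ k ∈ Finset.range m, Arm j.2 k c) := a1
      linarith
    refine (pva_P_mono fun c _ h => ?_).trans (pvxp_paint hS hsel I ξ hW hp)
    exact h8 c h.1 h.2
  have h9 := pval_real_le I hm key
  have h10 : pvQ (Cr \ T) g = ENNReal.ofReal ((colLaw PvIx).real {c : PvColT | pvMerge (g, c) ∈ Cr \ T}) := by
    rw [ofReal_measureReal (measure_ne_top _ _)]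
    rfl
  rw [h10]
  exact ENNReal.ofReal_le_ofReal h9

/-! ## 3. arms given as events of the sample -/

/-- from the quenched probability (QARM) to every background -/
theorem pvxp_bridge {g : PvGeoT} {W : Set PVSample} {R I : Finset PvIx} (hRI : R ⊆ I) (hloc : PvalLoc R fun c : PvColT => pvMerge (g, c) ∈ W) {q : ℝ} (hq1 : q ≤ 1)
    (h : pvQ W g ≤ ENNReal.ofReal (1 - q)) (ξ : PvColT) : pvaP I ξ (fun c => pvMerge (g, c) ∈ W) ≤ 1 - q := by
  rw [← pval_real (pval_loc_mono hRI hloc) ξ]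
  have h1 : (colLaw PvIx) {c : PvColT | pvMerge (g, c) ∈ W} ≤ ENNReal.ofReal (1 - q) := h
  exact ENNReal.toReal_le_of_le_ofReal (by linarith) h1

/-- the plan from arms given as events `W z k` of the sample -/
theorem PvxpPlan.of_sample {T Cr : Set PVSample} {g : PvGeoT} {m : ℕ} {q : ℝ} (hq1 : q ≤ 1) (I : Finset PvIx) {J : Type} (Z : Set J) (S : PvColT → Finset PvIx)
    (sel : PvColT → J × J) (W : J → ℕ → Set PVSample) (R : J → ℕ → Finset PvIx) (hS : PvaStop S) (hsel : PvaMeas S sel)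
    (hmono : ∀ z ∈ Z, ∀ k ∈ Finset.range m, ∀ c c' : PvColT, (∀ i, c' i = true → c i = true) → pvMerge (g, c) ∈ W z k → pvMerge (g, c') ∈ W z k)
    (hRI : ∀ z ∈ Z, ∀ k ∈ Finset.range m, R z k ⊆ I)
    (hd : ∀ z ∈ Z, ∀ i ∈ Finset.range m, ∀ k ∈ Finset.range m, i ≠ k → Disjoint (R z i) (R z k))
    (hloc : ∀ z ∈ Z, ∀ k ∈ Finset.range m, PvalLoc (R z k) fun c : PvColT => pvMerge (g, c) ∈ W z k)
    (hQ : ∀ z ∈ Z, ∀ k ∈ Finset.range m, pvQ (W z k) g ≤ ENNReal.ofReal (1 - q))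
    (hdet : ∀ c, pvMerge (g, c) ∈ Cr → pvMerge (g, c) ∉ T →
      ((sel c).1 ∈ Z ∧ ∀ k ∈ Finset.range m, pvMerge (g, pvxpPaint (S c) c) ∈ W (sel c).1 k) ∨
      ((sel c).2 ∈ Z ∧ ∀ k ∈ Finset.range m, pvMerge (g, pvxpPaint (S c) c) ∈ W (sel c).2 k)) : PvxpPlan T Cr g m q :=
  ⟨I, J, Z, S, sel, fun z k c => pvMerge (g, c) ∈ W z k, R, hS, hsel, hmono, hRI, hd,
    fun z hz k hk ξ => pval_loc_dep (hloc z hz k hk) I ξ, fun z hz k hk ξ => pvxp_bridge (hRI z hz k hk) (hloc z hz k hk) hq1 (hQ z hz k hk) ξ, hdet⟩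

/-! ## 4. the glue of the paint design -/

/-- **THE SUB-EXIT OF THE PAINT DESIGN** (GEO + DET + QARM + TGT): as `pvxc_geo` of `Exit/ExtCut.lean`, with `PvxpPlan` and an exceptional event `X` of small annealed OUTER probability (corners) -/
def PvxpGeo : Prop :=
  ∀ (D : Set ℂ) (d : ℂ) (ψ : ℂ → ℂ), PvChart D d ψ → ∀ x η : ℝ, 0 < x → x < 1 → 0 < η →
    ∃ x' q : ℝ, 0 < x' ∧ x' < 1 ∧ cardyF x - η ≤ cardyF x' ∧ 0 < q ∧ q ≤ 1 ∧
      ∀ m : ℕ, ∀ θ : ℝ, 0 < θ → ∃ (D' : Set ℂ) (d' : ℂ) (ψ' : ℂ → ℂ) (ρ : ℝ) (T : Set PVSample), PvAn D' d' ψ' ∧ 0 < ρ ∧ MeasurableSet T ∧ T ⊆ {ω | PvStrict D d ψ x ω} ∧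
        ∀ᶠ ε in 𝓝[>] (0 : ℝ), ∃ X : Set PVSample, pvLaw ε X ≤ ENNReal.ofReal θ ∧
          pvGeo ε {g | ¬ PvxpPlan T ({ω | PvVC (pvConf ω) (Metric.thickening ρ D') (Metric.thickening ρ (pvArcL D' d' ψ' x')) (Metric.thickening ρ (pvArcR D' d' ψ'))} \ X) g m q} ≤
            ENNReal.ofReal θ

theorem pvxp_eqns_cite3 : True := by
  have := @PvxpGeo.eq_1
  trivial

/-- **EXT**, paint design, modulo `PvxpGeo` -/
theorem pvxp_ext (hN : PvNice) (hG : PvxpGeo) : PvLower := by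
  intro D d ψ h x hx0 hx1 η hη
  obtain ⟨x', q, hx'0, hx'1, hF, hq0, hq1, H⟩ := hG D d ψ h x (η / 5) hx0 hx1 (by positivity)
  obtain ⟨m, hm⟩ := pvxc_pow_small hq0 (show 0 < η / 5 by positivity)
  obtain ⟨D', d', ψ', ρ, T, hAn, hρ, hTm, hTs, HT⟩ := H m (η / 5) (by positivity)
  filter_upwards [hN D' d' ψ' hAn x' hx'0 hx'1 ρ (η / 5) hρ (by positivity), HT] with ε h1 h2
  obtain ⟨E, hEm, hEs, hE⟩ := h1
  obtain ⟨X, hX, hP⟩ := h2
  set X' := toMeasurable (pvLaw ε) X with hX'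
  have hX'm : MeasurableSet X' := measurableSet_toMeasurable _ _
  have hX'le : pvLaw ε X' ≤ ENNReal.ofReal (η / 5) := by rw [hX', measure_toMeasurable]; exact hX
  refine ⟨E ∩ T, hEm.inter hTm, fun ω hω => hTs hω.2, ?_⟩
  have h3 : pvLaw ε ((E \ X') \ T) ≤ ENNReal.ofReal (2 * (1 - q) ^ m) + ENNReal.ofReal (η / 5) := by
    refine (pvxc_anneal ε ((hEm.diff hX'm).diff hTm) (fun g => PvxpPlan T (E \ X') g m q) fun g hg => pvxp_quench hTm (hEm.diff hX'm) hq1 hg).trans ?_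
    refine add_le_add le_rfl (le_trans (measure_mono fun g hg => ?_) hP)
    exact fun hcon => hg (hcon.mono fun ω hω => ⟨hEs hω.1, fun hx => hω.2 (subset_toMeasurable _ _ hx)⟩)
  have h4 : pvLaw ε E ≤ pvLaw ε (E ∩ T) + (pvLaw ε ((E \ X') \ T) + pvLaw ε X') := by
    have hsub : E ⊆ (E ∩ T) ∪ (((E \ X') \ T) ∪ X') := by
      intro ω hω
      by_cases hT : ω ∈ T
      · exact Or.inl ⟨hω, hT⟩
      · by_cases hx : ω ∈ X'
        · exact Or.inr (Or.inr hx)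
        · exact Or.inr (Or.inl ⟨⟨hω, hx⟩, hT⟩)
    exact (measure_mono hsub).trans ((measure_union_le _ _).trans (add_le_add le_rfl (measure_union_le _ _)))
  have ha : pvLaw ε (E ∩ T) ≠ ∞ := measure_ne_top _ _
  have hp0 : 0 ≤ 2 * (1 - q) ^ m := mul_nonneg (by norm_num) (pow_nonneg (by linarith) m)
  have h6 : ENNReal.ofReal (cardyF x' - η / 5) ≤ pvLaw ε (E ∩ T) + ENNReal.ofReal (3 * η / 5) := by
    calc ENNReal.ofReal (cardyF x' - η / 5) ≤ pvLaw ε E := hE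
      _ ≤ pvLaw ε (E ∩ T) + (pvLaw ε ((E \ X') \ T) + pvLaw ε X') := h4
      _ ≤ pvLaw ε (E ∩ T) + ((ENNReal.ofReal (2 * (1 - q) ^ m) + ENNReal.ofReal (η / 5)) + ENNReal.ofReal (η / 5)) := add_le_add le_rfl (add_le_add h3 hX'le)
      _ ≤ pvLaw ε (E ∩ T) + ENNReal.ofReal (3 * η / 5) := by
          refine add_le_add le_rfl ?_
          rw [← ENNReal.ofReal_add hp0 (by positivity), ← ENNReal.ofReal_add (by positivity) (by positivity)]
          exact ENNReal.ofReal_le_ofReal (by linarith)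
  rw [ENNReal.ofReal_le_iff_le_toReal ha]
  have h7 := (ENNReal.ofReal_le_iff_le_toReal (ENNReal.add_ne_top.2 ⟨ha, ENNReal.ofReal_ne_top⟩)).1 h6
  rw [ENNReal.toReal_add ha ENNReal.ofReal_ne_top, ENNReal.toReal_ofReal (by positivity)] at h7
  linarith

end Claimed.Agent.R289
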