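import Claimed.Agent.R289.Arm.BxpPv

/-!
# Row 289 (S0537), unit EXT, file Ext/Qarm : QARM = QUENCHED ARMS ACROSS FIXED ANNULI, IN THE FORM OF THE FIELDS OF `PvxcPlan`      (helper262, post of helper74; prefix `pvxq_`, defs `pvxq*`, `Pvxq*`; 0 sorry)

INPUT: `PvaxQbx q` (THE exit of QBX, typed by 196 in `Arm/BxpPv.lean`).      OUTPUT (consumers: level 2 of EXT = 74 / 100 / 61, `Exit/ExtCut.lean`):
* `pvxqIx g K`          the active indices whose Voronoi cell meets `K`;   `pvxq_ix_finite` (good `g`, bounded `K`);   `pvxq_ix_near` (MESH: `VorDense (pvgSites g) K μ` ⟹ these sites are within `μ` of `K`),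
                        `pvxq_ix_disj` (`K`, `K'` at distance `> 2 μ`, both dense ⟹ disjoint index sets);   `pvxqFs g K : Finset PvIx` (the same as a finset), `pvxq_mem_fs`, `pvxq_fs_mono`
* `pvxq_reg_eq`         at a good geometry: `cfReg (pvConf (pvMerge (g, c))) b = ⋃ {cells of the active sites with c i = b}`;   `pvxq_reg_congr`: `cfReg … b ∩ K` reads only the colours of `pvxqIx g K`
* `pvxq_dep`            `PvDep (pvxqIx g e.K) {c | e.Holds (cfReg (pvConf (pvMerge (g, c))) b)}` for EVERY pattern `e`;   `pvxq_meas`, `pvxq_compl` (`Q(arm) = 1 - Q(no arm)`), `pvxq_reg_mono`, `pvxq_holds_mono` (monotone in the colours)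
* `pvxq_arm`            `PvaxQbx q ⟹ pvGeo ε {g | 1 - q < pvQc {arm of colour b across the square annulus (z; u/2, 5u/2)} g} → 0` as `ε ↓ 0`   (outer measure)
* `pvxq_prod(_le)`      patterns read on pairwise disjoint sets of cells are independent at fixed geometry
* `pvxq_geo_eq`, `pvxq_dense`      `pvLaw ε {ω | pvGeoOf ω ∈ S} = pvGeo ε S` for EVERY `S`;  the mesh event on the labelled geometries
* **`PvxqFrame q μ K Z U g`**, **`pvxq_frame`**      THE GOOD GEOMETRIES: `PvgOk g`, mesh `μ` on `K`, `Q(arm of colour b across (z; u/2, 5u/2)) ≤ 1 - q` for all `z ∈ Z`, `u ∈ U`, `b`;   `pvGeo ε {¬ frame} → 0`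
* `pvxqRing`, **`pvxq_ring_iff`**      (last exit from the inner box) the arm pattern `rswArm` (whose `K` is the full box) is the SAME event as the pattern read in the closed annulus `pvxqAnK z u` only
* `pvxqFin g z u`, `pvxq_loc`, **`pvxq_plan`**      on the frame: `PvaDep I (pvxqFin g z u) ξ (no arm)` and `q ≤ pvaP I ξ (no arm)` for every finite `I ⊇ pvxqFin g z u` and every background `ξ`
* `pvxq_an_sep`, `pvxq_fin_disj`, `pvxqSc u0 j = u0 6^j`, **`pvxq_tower`**      the four fields (`R j ⊆ I`, pairwise disjoint, `PvaDep`, `q ≤ pvaP`) of `PvxcPlan` for the `m` concentric annuli of scales `u0 6^j` round a grid point `z ∈ Z`, `I := pvxqFs g K`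
-/

set_option autoImplicit false

namespace Claimed.Agent.R289

open MeasureTheory ProbabilityTheory Set Filter Topology Metric
open scoped ENNReal NNReal
open Claims.C0465

/-- the active indices whose Voronoi cell meets `K` -/
def pvxqIx (g : PvGeoT) (K : Set ℂ) : Set PvIx := {i | i ∈ pvgAct g ∧ (vorCell (pvgSites g) (pvgSite g i) ∩ K).Nonempty}

theorem pvxq_eqns_cite : True := by
  have := @pvxqIx.eq_1
  trivial

theorem pvxq_ix_mono (g : PvGeoT) {K K' : Set ℂ} (h : K ⊆ K') : pvxqIx g K ⊆ pvxqIx g K' :=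
  fun _ hi => ⟨hi.1, hi.2.mono (inter_subset_inter_right _ h)⟩

theorem pvxq_ix_finite {g : PvGeoT} (hg : PvgOk g) {K : Set ℂ} (hK : Bornology.IsBounded K) : (pvxqIx g K).Finite := by
  refine Set.Finite.of_finite_image ((vor_finite_meet hg.lf hK).subset ?_) hg.inj.injOn
  rintro _ ⟨i, hi, rfl⟩
  exact ⟨⟨i, hi.1, rfl⟩, hi.2⟩

/-- MESH: the sites whose cell meets `K` are within `μ` of `K` -/
theorem pvxq_ix_near {g : PvGeoT} {K : Set ℂ} {μ : ℝ} (hd : VorDense (pvgSites g) K μ) {i : PvIx} (hi : i ∈ pvxqIx g K) : ∃ z ∈ K, ‖z - pvgSite g i‖ ≤ μ := by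
  obtain ⟨z, hz, hzK⟩ := hi.2
  obtain ⟨u, hu, hzu⟩ := hd z hzK
  exact ⟨z, hzK, (hz u hu).trans hzu⟩

/-- separated sets are read on disjoint sets of indices -/
theorem pvxq_ix_disj {g : PvGeoT} {K K' : Set ℂ} {μ : ℝ} (hd : VorDense (pvgSites g) K μ) (hd' : VorDense (pvgSites g) K' μ)
    (hsep : ∀ z ∈ K, ∀ z' ∈ K', 2 * μ < ‖z - z'‖) : Disjoint (pvxqIx g K) (pvxqIx g K') := by
  rw [Set.disjoint_left]
  intro i hi hi'
  obtain ⟨z, hz, h1⟩ := pvxq_ix_near hd hi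
  obtain ⟨z', hz', h2⟩ := pvxq_ix_near hd' hi'
  have h3 := hsep z hz z' hz'
  have h4 : ‖z - z'‖ ≤ ‖z - pvgSite g i‖ + ‖z' - pvgSite g i‖ := by
    have := norm_sub_le (z - pvgSite g i) (z' - pvgSite g i)
    have e : z - pvgSite g i - (z' - pvgSite g i) = z - z' := by ring
    rwa [e] at this
  linarith

theorem pvxq_Bk (g : PvGeoT) (c : PvColT) : cfBk (pvConf (pvMerge (g, c))) = {v | ∃ i ∈ pvgAct g, c i = true ∧ v = pvgSite g i} := by
  ext v
  show (v, true) ∈ (pvConf (pvMerge (g, c))).pts ↔ _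
  rw [pvqu_mem_conf]
  constructor
  · rintro ⟨i, hi, h⟩
    exact ⟨i, hi, (congrArg Prod.snd h).symm, congrArg Prod.fst h⟩
  · rintro ⟨i, hi, h1, rfl⟩
    exact ⟨i, hi, by rw [h1]⟩

theorem pvxq_Wh (g : PvGeoT) (c : PvColT) : cfWh (pvConf (pvMerge (g, c))) = {v | ∃ i ∈ pvgAct g, c i = false ∧ v = pvgSite g i} := by
  ext v
  show (v, false) ∈ (pvConf (pvMerge (g, c))).pts ↔ _
  rw [pvqu_mem_conf]
  constructor
  · rintro ⟨i, hi, h⟩
    exact ⟨i, hi, (congrArg Prod.snd h).symm, congrArg Prod.fst h⟩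
  · rintro ⟨i, hi, h1, rfl⟩
    exact ⟨i, hi, by rw [h1]⟩

/-- at a good geometry the region of the colour `b` is the union of the cells of the active sites of colour `b` -/
theorem pvxq_reg_eq {g : PvGeoT} (hg : PvgOk g) (c : PvColT) (b : Bool) :
    cfReg (pvConf (pvMerge (g, c))) b = {z | ∃ i ∈ pvgAct g, c i = b ∧ z ∈ vorCell (pvgSites g) (pvgSite g i)} := by
  have hs : cfBk (pvConf (pvMerge (g, c))) ∪ cfWh (pvConf (pvMerge (g, c))) = pvgSites g := by
    rw [← pvr_sites, pvqu_cfSites]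
  cases b
  · have h1 : cfReg (pvConf (pvMerge (g, c))) false = pvrbM (cfWh (pvConf (pvMerge (g, c)))) (cfBk (pvConf (pvMerge (g, c)))) := rfl
    rw [h1, pvrb_M_eq (by rw [union_comm, hs]; exact hg.lf), union_comm, hs, pvxq_Wh]
    ext z
    constructor
    · rintro ⟨_, ⟨i, hi, h2, rfl⟩, hz⟩
      exact ⟨i, hi, h2, hz⟩
    · rintro ⟨i, hi, h2, hz⟩
      exact ⟨_, ⟨i, hi, h2, rfl⟩, hz⟩
  · have h1 : cfReg (pvConf (pvMerge (g, c))) true = pvrbM (cfBk (pvConf (pvMerge (g, c)))) (cfWh (pvConf (pvMerge (g, c)))) := rfl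
    rw [h1, pvrb_M_eq (by rw [hs]; exact hg.lf), hs, pvxq_Bk]
    ext z
    constructor
    · rintro ⟨_, ⟨i, hi, h2, rfl⟩, hz⟩
      exact ⟨i, hi, h2, hz⟩
    · rintro ⟨i, hi, h2, hz⟩
      exact ⟨_, ⟨i, hi, h2, rfl⟩, hz⟩

/-- the region inside `K` reads only the colours of the cells which meet `K` -/
theorem pvxq_reg_congr {g : PvGeoT} (hg : PvgOk g) {K : Set ℂ} {c c' : PvColT} (h : ∀ i ∈ pvxqIx g K, c i = c' i) (b : Bool) :
    cfReg (pvConf (pvMerge (g, c))) b ∩ K = cfReg (pvConf (pvMerge (g, c'))) b ∩ K := by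
  rw [pvxq_reg_eq hg, pvxq_reg_eq hg]
  ext z
  refine and_congr_left fun hzK => ?_
  constructor
  · rintro ⟨i, hi, h1, hz⟩
    exact ⟨i, hi, by rw [← h i ⟨hi, z, hz, hzK⟩, h1], hz⟩
  · rintro ⟨i, hi, h1, hz⟩
    exact ⟨i, hi, by rw [h i ⟨hi, z, hz, hzK⟩, h1], hz⟩

/-- **quenched finite dependence of a pattern** -/
theorem pvxq_dep {g : PvGeoT} (hg : PvgOk g) (e : RswTri) (b : Bool) : PvDep (pvxqIx g e.K) {c | e.Holds (cfReg (pvConf (pvMerge (g, c))) b)} := by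
  intro c c' h hc
  have h1 := pvxq_reg_congr hg h b
  show e.Holds _
  unfold RswTri.Holds at hc ⊢
  simp only [mem_ofPred_eq] at hc
  rwa [← h1]

theorem pvxq_dep_fin {g : PvGeoT} (hg : PvgOk g) {e : RswTri} (he : Bornology.IsBounded e.K) (b : Bool) :
    PvDep ((pvxq_ix_finite hg he).toFinset : Set PvIx) {c | e.Holds (cfReg (pvConf (pvMerge (g, c))) b)} := by
  rw [Set.Finite.coe_toFinset]
  exact pvxq_dep hg e b

theorem pvxq_meas {g : PvGeoT} (hg : PvgOk g) {e : RswTri} (he : Bornology.IsBounded e.K) (b : Bool) :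
    MeasurableSet {c : PvColT | e.Holds (cfReg (pvConf (pvMerge (g, c))) b)} := (pvqu_dep_finset (pvxq_dep_fin hg he b)).1

/-- `Q(pattern) = 1 - Q(no pattern)` at a good geometry -/
theorem pvxq_compl {g : PvGeoT} (hg : PvgOk g) {e : RswTri} (he : Bornology.IsBounded e.K) (b : Bool) :
    pvQc {η | e.Holds (cfReg η b)} g = 1 - pvQc {η | ¬ e.Holds (cfReg η b)} g := by
  have h1 : pvQc {η | ¬ e.Holds (cfReg η b)} g = pvCol {c : PvColT | e.Holds (cfReg (pvConf (pvMerge (g, c))) b)}ᶜ := rfl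
  have h2 : pvQc {η | e.Holds (cfReg η b)} g = pvCol {c : PvColT | e.Holds (cfReg (pvConf (pvMerge (g, c))) b)} := rfl
  rw [h1, h2, prob_compl_eq_one_sub (pvxq_meas hg he b)]
  exact (ENNReal.sub_sub_cancel ENNReal.one_ne_top prob_le_one).symm

theorem pvxq_arm_bdd (cx cy t r : ℝ) : Bornology.IsBounded (rswArm cx cy t r).K := pvrb_rect_bdd _ _ _ _

/-- **QARM**: off a geometry event of probability `o(1)` the quenched probability of an arm of colour `b` across the square annulus `(z; u/2, 5u/2)` is at most `1 - q` -/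
theorem pvxq_arm {q : ℝ} (hQ : PvaxQbx q) (z : ℂ) {u : ℝ} (hu : 0 < u) (b : Bool) :
    Tendsto (fun ε : ℝ => pvGeo ε {g | ENNReal.ofReal (1 - q) < pvQc {η | (rswArm z.re z.im (u / 2) (5 * u / 2)).Holds (cfReg η b)} g}) (𝓝[>] 0) (𝓝 0) := by
  refine tendsto_of_tendsto_of_tendsto_of_le_of_le tendsto_const_nhds (hQ z u b hu) (fun _ => zero_le) fun ε => ?_
  refine measure_mono_ae ?_
  filter_upwards [pvqu_ok_ae ε] with g hg hbad
  have hbad' : ENNReal.ofReal (1 - q) < pvQc {η | (rswArm z.re z.im (u / 2) (5 * u / 2)).Holds (cfReg η b)} g := hbad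
  show pvQc {η | ¬ (rswArm z.re z.im (u / 2) (5 * u / 2)).Holds (pvaxReg b η)} g < ENNReal.ofReal q
  rw [pvxq_compl hg (pvxq_arm_bdd _ _ _ _) b] at hbad'
  by_contra hcon
  rw [not_lt] at hcon
  have hcon' : ENNReal.ofReal q ≤ pvQc {η | ¬ (rswArm z.re z.im (u / 2) (5 * u / 2)).Holds (cfReg η b)} g := hcon
  have h1 : (1 : ℝ≥0∞) - pvQc {η | ¬ (rswArm z.re z.im (u / 2) (5 * u / 2)).Holds (cfReg η b)} g ≤ 1 - ENNReal.ofReal q := tsub_le_tsub_left hcon' 1
  have h2 : (1 : ℝ≥0∞) - ENNReal.ofReal q ≤ ENNReal.ofReal (1 - q) := by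
    rcases le_or_gt 0 q with h0 | h0
    · rw [ENNReal.ofReal_sub 1 h0, ENNReal.ofReal_one]
    · rw [ENNReal.ofReal_of_nonpos h0.le, tsub_zero, ← ENNReal.ofReal_one]
      exact ENNReal.ofReal_le_ofReal (by linarith)
  exact absurd (hbad'.trans_le (h1.trans h2)) (lt_irrefl _)

/-! ## monotonicity in the colours -/

/-- turning sites to the colour `b` enlarges the region of the colour `b` -/
theorem pvxq_reg_mono {g : PvGeoT} (hg : PvgOk g) {c c' : PvColT} (b : Bool) (h : ∀ i, c i = b → c' i = b) :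
    cfReg (pvConf (pvMerge (g, c))) b ⊆ cfReg (pvConf (pvMerge (g, c'))) b := by
  rw [pvxq_reg_eq hg, pvxq_reg_eq hg]
  rintro z ⟨i, hi, h1, hz⟩
  exact ⟨i, hi, h i h1, hz⟩

/-- a pattern of colour `b` is increasing in the set of sites of colour `b` -/
theorem pvxq_holds_mono {g : PvGeoT} (hg : PvgOk g) {c c' : PvColT} (b : Bool) (h : ∀ i, c i = b → c' i = b) {e : RswTri}
    (he : e.Holds (cfReg (pvConf (pvMerge (g, c))) b)) : e.Holds (cfReg (pvConf (pvMerge (g, c'))) b) :=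
  rsw_det_mono (pvxq_reg_mono hg b h) Subset.rfl Subset.rfl Subset.rfl he

/-! ## products over separated patterns -/

theorem pvxq_dep_all {g : PvGeoT} (hg : PvgOk g) {ι : Type} (S : Finset ι) (e : ι → RswTri) (b : Bool) :
    PvDep (⋃ j ∈ S, pvxqIx g (e j).K) {c | ∀ j ∈ S, (e j).Holds (cfReg (pvConf (pvMerge (g, c))) b)} := by
  intro c c' h hc j hj
  exact pvxq_dep hg (e j) b c c' (fun i hi => h i (mem_biUnion hj hi)) (hc j hj)

/-- **patterns read on pairwise disjoint sets of cells are independent at fixed geometry** -/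
theorem pvxq_prod {g : PvGeoT} (hg : PvgOk g) {ι : Type} (S : Finset ι) (e : ι → RswTri) (he : ∀ j ∈ S, Bornology.IsBounded (e j).K) (b : Bool)
    (hdisj : ∀ j ∈ S, ∀ k ∈ S, j ≠ k → Disjoint (pvxqIx g (e j).K) (pvxqIx g (e k).K)) :
    pvCol {c | ∀ j ∈ S, (e j).Holds (cfReg (pvConf (pvMerge (g, c))) b)} = ∏ j ∈ S, pvCol {c | (e j).Holds (cfReg (pvConf (pvMerge (g, c))) b)} := by
  classical
  induction S using Finset.induction_on with
  | empty => simp
  | insert a s ha ih =>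
    rw [Finset.prod_insert ha, ← ih (fun j hj => he j (Finset.mem_insert_of_mem hj))
      (fun j hj k hk hjk => hdisj j (Finset.mem_insert_of_mem hj) k (Finset.mem_insert_of_mem hk) hjk)]
    have hfin : (⋃ j ∈ s, pvxqIx g (e j).K).Finite := s.finite_toSet.biUnion fun j hj => pvxq_ix_finite hg (he j (Finset.mem_insert_of_mem hj))
    have hfa := pvxq_ix_finite hg (he a (Finset.mem_insert_self a s))
    have h1 : PvDep (hfa.toFinset : Set PvIx) {c | (e a).Holds (cfReg (pvConf (pvMerge (g, c))) b)} := by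
      rw [Set.Finite.coe_toFinset]; exact pvxq_dep hg (e a) b
    have h2 : PvDep (hfin.toFinset : Set PvIx) {c | ∀ j ∈ s, (e j).Holds (cfReg (pvConf (pvMerge (g, c))) b)} := by
      rw [Set.Finite.coe_toFinset]; exact pvxq_dep_all hg s e b
    have hd : Disjoint hfa.toFinset hfin.toFinset := by
      rw [← Finset.disjoint_coe, Set.Finite.coe_toFinset, Set.Finite.coe_toFinset, Set.disjoint_iUnion₂_right]
      intro j hj
      exact hdisj a (Finset.mem_insert_self a s) j (Finset.mem_insert_of_mem hj) (fun h => ha (h ▸ hj))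
    rw [← pvqu_dep_indep hd h1 h2]
    congr 1
    ext c
    simp only [mem_ofPred_eq, Finset.mem_insert, forall_eq_or_imp, mem_inter_iff]

/-- consumer form: all the patterns of a separated family hold with quenched probability at most `p ^ #S` -/
theorem pvxq_prod_le {g : PvGeoT} (hg : PvgOk g) {ι : Type} (S : Finset ι) (e : ι → RswTri) (he : ∀ j ∈ S, Bornology.IsBounded (e j).K) (b : Bool)
    (hdisj : ∀ j ∈ S, ∀ k ∈ S, j ≠ k → Disjoint (pvxqIx g (e j).K) (pvxqIx g (e k).K)) {p : ℝ≥0∞}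
    (hp : ∀ j ∈ S, pvQc {η | (e j).Holds (cfReg η b)} g ≤ p) :
    pvQc {η | ∀ j ∈ S, (e j).Holds (cfReg η b)} g ≤ p ^ S.card := by
  have h1 : pvQc {η | ∀ j ∈ S, (e j).Holds (cfReg η b)} g = pvCol {c | ∀ j ∈ S, (e j).Holds (cfReg (pvConf (pvMerge (g, c))) b)} := rfl
  rw [h1, pvxq_prod hg S e he b hdisj]
  calc ∏ j ∈ S, pvCol {c | (e j).Holds (cfReg (pvConf (pvMerge (g, c))) b)} ≤ ∏ _j ∈ S, p := Finset.prod_le_prod' fun j hj => hp j hj
    _ = p ^ S.card := by rw [Finset.prod_const]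

/-! ## events of the geometry: `pvLaw` and `pvGeo` agree on EVERY set -/

theorem pvxq_geo_eq (ε : ℝ) (S : Set PvGeoT) : pvLaw ε {ω | pvGeoOf ω ∈ S} = pvGeo ε S := by
  have h1 := MeasurableEquiv.map_apply (μ := pvLaw ε) pvSplit (S ×ˢ (univ : Set PvColT))
  rw [pvqu_law_split, Measure.prod_prod, measure_univ, mul_one] at h1
  rw [h1]
  congr 1
  ext ω
  show pvGeoOf ω ∈ S ↔ pvSplit ω ∈ S ×ˢ (univ : Set PvColT)
  constructor
  · intro h; exact ⟨h, mem_univ _⟩
  · intro h; exact h.1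

/-- the mesh event on the labelled geometries -/
theorem pvxq_dense {K : Set ℂ} (hK : Bornology.IsBounded K) {μ : ℝ} (hμ : 0 < μ) :
    Tendsto (fun ε : ℝ => pvGeo ε {g | ¬ VorDense (pvgSites g) K μ}) (𝓝[>] 0) (𝓝 0) := by
  refine (pvax_dense hK hμ).congr fun ε => ?_
  rw [← pvxq_geo_eq]
  congr 1
  ext ω
  simp only [mem_ofPred_eq, pvax_sites]

/-! ## the frame of EXT: finitely many centres, finitely many scales -/

/-- the annulus pattern of the scale `u` centred at `z` -/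
noncomputable def pvxqAn (z : ℂ) (u : ℝ) : RswTri := rswArm z.re z.im (u / 2) (5 * u / 2)

/-- **the good geometries of EXT**: general position, mesh `μ` on `K`, all the quenched arm probabilities of the family `≤ 1 - q` (both colours) -/
structure PvxqFrame (q μ : ℝ) (K : Set ℂ) (Z : Finset ℂ) (U : Finset ℝ) (g : PvGeoT) : Prop where
  ok : PvgOk g
  dense : VorDense (pvgSites g) K μ
  arm : ∀ z ∈ Z, ∀ u ∈ U, ∀ b : Bool, pvQc {η | (pvxqAn z u).Holds (cfReg η b)} g ≤ ENNReal.ofReal (1 - q)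

theorem pvxq_eqns_cite2 : True := by
  have := @pvxqAn.eq_1
  trivial

/-- **the frame holds with high probability** (outer measure of the bad geometries) -/
theorem pvxq_frame {q : ℝ} (hQ : PvaxQbx q) {μ : ℝ} (hμ : 0 < μ) {K : Set ℂ} (hK : Bornology.IsBounded K) (Z : Finset ℂ) (U : Finset ℝ) (hU : ∀ u ∈ U, 0 < u) :
    Tendsto (fun ε : ℝ => pvGeo ε {g | ¬ PvxqFrame q μ K Z U g}) (𝓝[>] 0) (𝓝 0) := by
  classical
  set I : Finset ((ℂ × ℝ) × Bool) := (Z ×ˢ U) ×ˢ Finset.univ with hI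
  have h1 : Tendsto (fun ε : ℝ => ∑ p ∈ I, pvGeo ε {g | ENNReal.ofReal (1 - q) < pvQc {η | (pvxqAn p.1.1 p.1.2).Holds (cfReg η p.2)} g}) (𝓝[>] 0) (𝓝 0) := by
    have : ∀ p ∈ I, Tendsto (fun ε : ℝ => pvGeo ε {g | ENNReal.ofReal (1 - q) < pvQc {η | (pvxqAn p.1.1 p.1.2).Holds (cfReg η p.2)} g}) (𝓝[>] 0) (𝓝 0) := by
      intro p hp
      have hu : 0 < p.1.2 := hU _ (Finset.mem_product.1 (Finset.mem_product.1 hp).1).2
      exact pvxq_arm hQ p.1.1 hu p.2
    simpa using tendsto_finsetSum I this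
  have h2 := (pvxq_dense hK hμ).add h1
  rw [add_zero] at h2
  refine tendsto_of_tendsto_of_tendsto_of_le_of_le tendsto_const_nhds h2 (fun _ => zero_le) fun ε => ?_
  have hsub : ∀ᵐ g ∂(pvGeo ε), g ∈ {g | ¬ PvxqFrame q μ K Z U g} → g ∈ {g | ¬ VorDense (pvgSites g) K μ} ∪
      ⋃ p ∈ I, {g | ENNReal.ofReal (1 - q) < pvQc {η | (pvxqAn p.1.1 p.1.2).Holds (cfReg η p.2)} g} := by
    filter_upwards [pvqu_ok_ae ε] with g hg hbad
    by_contra hn
    simp only [mem_union, mem_ofPred_eq, mem_iUnion, not_or, not_not, not_exists, not_lt] at hn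
    exact hbad ⟨hg, hn.1, fun z hz u hu b => hn.2 ((z, u), b) (Finset.mem_product.2 ⟨Finset.mem_product.2 ⟨hz, hu⟩, Finset.mem_univ b⟩)⟩
  exact (measure_mono_ae hsub).trans ((measure_union_le _ _).trans (add_le_add le_rfl (measure_biUnion_finset_le I _)))

/-! ## the ring: an arm reads only the cells which meet the closed annulus -/

/-- the open box of radius `t` -/
def pvxqBox (cx cy t : ℝ) : Set ℂ := {z | cx - t < z.re ∧ z.re < cx + t ∧ cy - t < z.im ∧ z.im < cy + t}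

/-- the arm pattern, read in the closed annulus only -/
def pvxqRing (cx cy t r : ℝ) : RswTri := ⟨(rswArm cx cy t r).K \ pvxqBox cx cy t, (rswArm cx cy t r).S, (rswArm cx cy t r).T⟩

theorem pvxq_eqns_cite3 : True := by
  have := @pvxqBox.eq_1
  have := @pvxqRing.eq_1
  trivial

theorem pvxq_box_open (cx cy t : ℝ) : IsOpen (pvxqBox cx cy t) := by
  have : pvxqBox cx cy t = {z : ℂ | cx - t < z.re} ∩ {z | z.re < cx + t} ∩ {z | cy - t < z.im} ∩ {z | z.im < cy + t} := by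
    ext z
    simp only [pvxqBox, mem_ofPred_eq, mem_inter_iff]
    tauto
  rw [this]
  exact (((isOpen_lt continuous_const Complex.continuous_re).inter (isOpen_lt Complex.continuous_re continuous_const)).inter
    (isOpen_lt continuous_const Complex.continuous_im)).inter (isOpen_lt Complex.continuous_im continuous_const)

/-- **last exit from the inner box**: the arm pattern and the ring pattern are the same event -/
theorem pvxq_ring_iff {cx cy t r : ℝ} (htr : t ≤ r) (B : Set ℂ) : (rswArm cx cy t r).Holds B ↔ (pvxqRing cx cy t r).Holds B := by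
  constructor
  · rintro ⟨x, hx, y, hy, hj⟩
    obtain ⟨γ, hγ⟩ := hj.symm
    have hyR : y ∈ (pvxqBox cx cy t)ᶜ := by
      intro hyb
      obtain ⟨b1, b2, b3, b4⟩ := hyb
      rcases hy.2 with h | h | h | h <;> linarith
    obtain ⟨s0, hs0, hlt⟩ := rsw_first_time γ (S := rswRect (cx - t) (cx + t) (cy - t) (cy + t)) (rsw_rect_closed _ _ _ _) hx
    have hout : ∀ s : unitInterval, s < s0 → γ s ∈ (pvxqBox cx cy t)ᶜ := by
      intro s hs hb
      exact hlt s hs ⟨hb.1.le, hb.2.1.le, hb.2.2.1.le, hb.2.2.2.le⟩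
    have h1 : γ s0 ∈ (pvxqBox cx cy t)ᶜ := rsw_closed_limit γ (pvxq_box_open cx cy t).isClosed_compl hyR s0 hout
    have h2 : JoinedIn (B ∩ (pvxqRing cx cy t r).K) y (γ s0) := by
      refine rsw_joined_init γ s0 fun s hs => ⟨(hγ s).1, (hγ s).2, ?_⟩
      rcases hs.lt_or_eq with h3 | h3
      · exact hout s h3
      · rw [h3]; exact h1
    exact ⟨γ s0, hs0, y, hy, h2.symm⟩
  · exact rsw_det_mono Subset.rfl sdiff_subset Subset.rfl Subset.rfl

theorem pvxq_ring_bdd (cx cy t r : ℝ) : Bornology.IsBounded (pvxqRing cx cy t r).K := (pvxq_arm_bdd cx cy t r).subset sdiff_subset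

/-- the closed annulus of the scale `u` centred at `z` -/
noncomputable def pvxqAnK (z : ℂ) (u : ℝ) : Set ℂ := (pvxqRing z.re z.im (u / 2) (5 * u / 2)).K

/-- the finite set of the indices read in a bounded set `K` (junk `∅` if infinite) -/
noncomputable def pvxqFs (g : PvGeoT) (K : Set ℂ) : Finset PvIx := by
  classical
  exact if h : (pvxqIx g K).Finite then h.toFinset else ∅

/-- the finite set of the indices read by the annulus `(z; u/2, 5u/2)` -/
noncomputable def pvxqFin (g : PvGeoT) (z : ℂ) (u : ℝ) : Finset PvIx := pvxqFs g (pvxqAnK z u)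

theorem pvxq_eqns_cite4 : True := by
  have := @pvxqAnK.eq_1
  have := @pvxqFs.eq_1
  have := @pvxqFin.eq_1
  trivial

theorem pvxq_anK_bdd (z : ℂ) (u : ℝ) : Bornology.IsBounded (pvxqAnK z u) := pvxq_ring_bdd _ _ _ _

theorem pvxq_fs_coe {g : PvGeoT} (hg : PvgOk g) {K : Set ℂ} (hK : Bornology.IsBounded K) : (pvxqFs g K : Set PvIx) = pvxqIx g K := by
  unfold pvxqFs
  rw [dif_pos (pvxq_ix_finite hg hK), Set.Finite.coe_toFinset]

theorem pvxq_mem_fs {g : PvGeoT} (hg : PvgOk g) {K : Set ℂ} (hK : Bornology.IsBounded K) {i : PvIx} : i ∈ pvxqFs g K ↔ i ∈ pvxqIx g K := by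
  rw [← pvxq_fs_coe hg hK, Finset.mem_coe]

theorem pvxq_fs_mono {g : PvGeoT} (hg : PvgOk g) {K K' : Set ℂ} (hK' : Bornology.IsBounded K') (h : K ⊆ K') : pvxqFs g K ⊆ pvxqFs g K' := by
  intro i hi
  rw [pvxq_mem_fs hg hK']
  exact pvxq_ix_mono g h ((pvxq_mem_fs hg (hK'.subset h)).1 hi)

theorem pvxq_mem_fin {g : PvGeoT} (hg : PvgOk g) {z : ℂ} {u : ℝ} {i : PvIx} : i ∈ pvxqFin g z u ↔ i ∈ pvxqIx g (pvxqAnK z u) :=
  pvxq_mem_fs hg (pvxq_anK_bdd z u)

/-- the annulus is read inside every bounded set which contains it -/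
theorem pvxq_fin_sub {g : PvGeoT} (hg : PvgOk g) {K : Set ℂ} (hK : Bornology.IsBounded K) {z : ℂ} {u : ℝ} (h : pvxqAnK z u ⊆ K) : pvxqFin g z u ⊆ pvxqFs g K :=
  pvxq_fs_mono hg hK h

theorem pvxq_an_iff (z : ℂ) {u : ℝ} (hu : 0 ≤ u) (B : Set ℂ) : (pvxqAn z u).Holds B ↔ (pvxqRing z.re z.im (u / 2) (5 * u / 2)).Holds B :=
  pvxq_ring_iff (by linarith) B

/-- **LOCALITY (plan form)**: the arm event of the annulus reads only `pvxqFin g z u` -/
theorem pvxq_loc {g : PvGeoT} (hg : PvgOk g) (z : ℂ) {u : ℝ} (hu : 0 ≤ u) (b : Bool) :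
    PvalLoc (pvxqFin g z u) (fun c : PvColT => (pvxqAn z u).Holds (cfReg (pvConf (pvMerge (g, c))) b)) := by
  intro c c' h
  have h1 : ∀ i ∈ pvxqIx g (pvxqRing z.re z.im (u / 2) (5 * u / 2)).K, c i = c' i := fun i hi => h i ((pvxq_mem_fin hg).2 hi)
  have h2 := (pvxq_dep hg (pvxqRing z.re z.im (u / 2) (5 * u / 2)) b).iff h1
  simp only [mem_ofPred_eq] at h2
  simp only [pvxq_an_iff z hu, h2]

theorem pvxq_loc_not {g : PvGeoT} (hg : PvgOk g) (z : ℂ) {u : ℝ} (hu : 0 ≤ u) (b : Bool) :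
    PvalLoc (pvxqFin g z u) (fun c : PvColT => ¬ (pvxqAn z u).Holds (cfReg (pvConf (pvMerge (g, c))) b)) :=
  fun c c' h => congrArg Not (pvxq_loc hg z hu b c c' h)

/-- **the two fields `PvaDep`, `q ≤ pvaP` of `PvxcPlan`** for `C := no arm of colour b across the annulus (z; u/2, 5u/2)`, `R := pvxqFin g z u` -/
theorem pvxq_plan {q μ : ℝ} {K : Set ℂ} {Z : Finset ℂ} {U : Finset ℝ} {g : PvGeoT} (F : PvxqFrame q μ K Z U g) (hq1 : q ≤ 1) {z : ℂ} (hz : z ∈ Z) {u : ℝ} (hu : u ∈ U) (hu0 : 0 ≤ u)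
    (b : Bool) {I : Finset PvIx} (hI : pvxqFin g z u ⊆ I) (ξ : PvColT) :
    PvaDep I (pvxqFin g z u) ξ (fun c : PvColT => ¬ (pvxqAn z u).Holds (cfReg (pvConf (pvMerge (g, c))) b)) ∧
      q ≤ pvaP I ξ (fun c : PvColT => ¬ (pvxqAn z u).Holds (cfReg (pvConf (pvMerge (g, c))) b)) := by
  refine ⟨pval_loc_dep (pvxq_loc_not F.ok z hu0 b) I ξ, ?_⟩
  rw [pva_P_not, ← pval_real (pval_loc_mono hI (pvxq_loc F.ok z hu0 b)) ξ]
  have h1 := F.arm z hz u hu b
  have h2 : pvQc {η | (pvxqAn z u).Holds (cfReg η b)} g = colLaw PvIx {c : PvColT | (pvxqAn z u).Holds (cfReg (pvConf (pvMerge (g, c))) b)} := rfl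
  rw [h2] at h1
  have h3 : (colLaw PvIx).real {c : PvColT | (pvxqAn z u).Holds (cfReg (pvConf (pvMerge (g, c))) b)} ≤ 1 - q := by
    rw [measureReal_def]
    exact ENNReal.toReal_le_of_le_ofReal (by linarith) h1
  linarith

/-! ## concentric annuli -/

theorem pvxq_anK_in {z w : ℂ} {u : ℝ} (hw : w ∈ pvxqAnK z u) : |w.re - z.re| ≤ 5 * u / 2 ∧ |w.im - z.im| ≤ 5 * u / 2 := by
  obtain ⟨⟨a1, a2, a3, a4⟩, _⟩ := hw
  exact ⟨abs_le.2 ⟨by linarith, by linarith⟩, abs_le.2 ⟨by linarith, by linarith⟩⟩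

theorem pvxq_anK_out {z w : ℂ} {u : ℝ} (hw : w ∈ pvxqAnK z u) : u / 2 ≤ |w.re - z.re| ∨ u / 2 ≤ |w.im - z.im| := by
  by_contra hcon
  rw [not_or, not_le, not_le, abs_lt, abs_lt] at hcon
  exact hw.2 ⟨by linarith [hcon.1.1], by linarith [hcon.1.2], by linarith [hcon.2.1], by linarith [hcon.2.2]⟩

/-- two annuli of the same centre: separated by more than `2 μ` as soon as `5 u / 2 + 2 μ < u' / 2` -/
theorem pvxq_an_sep {z : ℂ} {u u' μ : ℝ} (h : 5 * u / 2 + 2 * μ < u' / 2) : ∀ w ∈ pvxqAnK z u, ∀ w' ∈ pvxqAnK z u', 2 * μ < ‖w - w'‖ := by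
  intro w hw w' hw'
  obtain ⟨h1, h2⟩ := pvxq_anK_in hw
  rcases pvxq_anK_out hw' with h3 | h3
  · have h4 : |w'.re - z.re| ≤ |w.re - z.re| + |(w - w').re| := by
      have e : w'.re - z.re = (w.re - z.re) - (w - w').re := by simp
      rw [e]
      exact abs_sub _ _
    have h5 := Complex.abs_re_le_norm (w - w')
    linarith
  · have h4 : |w'.im - z.im| ≤ |w.im - z.im| + |(w - w').im| := by
      have e : w'.im - z.im = (w.im - z.im) - (w - w').im := by simp
      rw [e]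
      exact abs_sub _ _
    have h5 := Complex.abs_im_le_norm (w - w')
    linarith

theorem pvxq_fin_disj {g : PvGeoT} (hg : PvgOk g) {K : Set ℂ} {μ : ℝ} (hd : VorDense (pvgSites g) K μ) {z : ℂ} {u u' : ℝ} (hK : pvxqAnK z u ⊆ K) (hK' : pvxqAnK z u' ⊆ K)
    (h : 5 * u / 2 + 2 * μ < u' / 2) : Disjoint (pvxqFin g z u) (pvxqFin g z u') := by
  rw [← Finset.disjoint_coe]
  unfold pvxqFin
  rw [pvxq_fs_coe hg (pvxq_anK_bdd z u), pvxq_fs_coe hg (pvxq_anK_bdd z u')]
  exact pvxq_ix_disj (fun w hw => hd w (hK hw)) (fun w hw => hd w (hK' hw)) (pvxq_an_sep h)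

/-- the scales of the tower -/
noncomputable def pvxqSc (u0 : ℝ) (j : ℕ) : ℝ := u0 * 6 ^ j

theorem pvxq_eqns_cite5 : True := by
  have := @pvxqSc.eq_1
  trivial

theorem pvxq_sc_pos {u0 : ℝ} (h : 0 < u0) (j : ℕ) : 0 < pvxqSc u0 j := by unfold pvxqSc; positivity

theorem pvxq_sc_lt {u0 μ : ℝ} (h0 : 0 < u0) (h : 4 * μ < u0) {i j : ℕ} (hij : i < j) : 5 * pvxqSc u0 i / 2 + 2 * μ < pvxqSc u0 j / 2 := by
  have h1 : pvxqSc u0 (i + 1) ≤ pvxqSc u0 j := by
    unfold pvxqSc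
    exact mul_le_mul_of_nonneg_left (pow_le_pow_right₀ (by norm_num) hij) h0.le
  have h2 : pvxqSc u0 (i + 1) = 6 * pvxqSc u0 i := by unfold pvxqSc; ring
  have h3 : u0 ≤ pvxqSc u0 i := by
    unfold pvxqSc
    exact le_mul_of_one_le_right h0.le (one_le_pow₀ (by norm_num))
  linarith

/-- **THE TOWER, in the form of the fields of `PvxcPlan`**: `R j := pvxqFin g z (u0 6^j)`, `C j := no arm of colour b across the j-th annulus round z`, `I := pvxqFs g K` -/
theorem pvxq_tower {q μ : ℝ} {K : Set ℂ} {Z : Finset ℂ} {U : Finset ℝ} {g : PvGeoT} (F : PvxqFrame q μ K Z U g) (hq1 : q ≤ 1) (hKb : Bornology.IsBounded K)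
    {u0 : ℝ} (h0 : 0 < u0) (hμ : 4 * μ < u0) {m : ℕ} (hU : ∀ j < m, pvxqSc u0 j ∈ U) {z : ℂ} (hz : z ∈ Z) (hK : ∀ j < m, pvxqAnK z (pvxqSc u0 j) ⊆ K) (b : Bool) :
    (∀ j ∈ Finset.range m, pvxqFin g z (pvxqSc u0 j) ⊆ pvxqFs g K) ∧
    (∀ i ∈ Finset.range m, ∀ j ∈ Finset.range m, i ≠ j → Disjoint (pvxqFin g z (pvxqSc u0 i)) (pvxqFin g z (pvxqSc u0 j))) ∧
    (∀ j ∈ Finset.range m, ∀ ξ : PvColT,
      PvaDep (pvxqFs g K) (pvxqFin g z (pvxqSc u0 j)) ξ (fun c : PvColT => ¬ (pvxqAn z (pvxqSc u0 j)).Holds (cfReg (pvConf (pvMerge (g, c))) b)) ∧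
      q ≤ pvaP (pvxqFs g K) ξ (fun c : PvColT => ¬ (pvxqAn z (pvxqSc u0 j)).Holds (cfReg (pvConf (pvMerge (g, c))) b))) := by
  have hs : ∀ j ∈ Finset.range m, pvxqFin g z (pvxqSc u0 j) ⊆ pvxqFs g K := fun j hj => pvxq_fin_sub F.ok hKb (hK j (Finset.mem_range.1 hj))
  refine ⟨hs, fun i hi j hj hij => ?_, fun j hj ξ => pvxq_plan F hq1 hz (hU j (Finset.mem_range.1 hj)) (pvxq_sc_pos h0 j).le b (hs j hj) ξ⟩
  rcases lt_or_gt_of_ne hij with h | h
  · exact pvxq_fin_disj F.ok F.dense (hK i (Finset.mem_range.1 hi)) (hK j (Finset.mem_range.1 hj)) (pvxq_sc_lt h0 hμ h)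
  · exact (pvxq_fin_disj F.ok F.dense (hK j (Finset.mem_range.1 hj)) (hK i (Finset.mem_range.1 hi)) (pvxq_sc_lt h0 hμ h)).symm

end Claimed.Agent.R289
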