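-- KEEP CAPOK
import Claimed.Agent.R289.Ext.Defs
import Claimed.Agent.R289.Ext.Qarm
import Claimed.Agent.R289.Ext.Prob
import Claimed.Agent.R289.Rsw.Exports

/-!
# Row 289 (S0537), unit EXT, file Ext/ArmBr : THE ARM BRIDGE      (helper54, post of helper74; prefix `pvxr_`; 0 sorry)

FROM the arms of DET (`PvxArm Y Wh e r R` of `Ext/Defs`: a chain of sites of `Wh`, consecutive closed cells touching, from `closedBall e r` to the outside of `ball e R`)
TO the arm patterns of QARM (`(pvxqAn z u).Holds (cfReg η b)` of `Ext/Qarm`: the region of colour `b` crosses the square annulus `(z; u/2, 5u/2)`), and to the plan of PROB (`PvxpPlan` of `Ext/Prob`).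

* `pvxr_cell_joined`, `pvxr_step`, `pvxr_chain`      a chain of touching cells of sites of `Wh` is a path in `vorUn Y Wh`
* `PvxArm.mono3`                                     monotone in the set of sites and in the two radii
* **`pvxr_arm_set`**       `PvxArm Y Wh e r R`, `‖z - e‖ + r ≤ u/2`, `5 u ≤ R - ‖z - e‖`   ⟹   `(pvxqAn z u).Holds (vorUn Y Wh)`
* `pvxr_reg_eq`            at a good geometry `cfReg (pvConf (pvMerge (g,c))) b = vorUn (pvgSites g) {sites of colour b for pvgColAt g c}`  (`pvxr_reg_white`, `pvxr_reg_black`: `pvxH`, `pvxK`)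
* **`pvxr_arm`**           the same for the merged sample: `PvxArm (pvgSites g) Wh e r R`, `Wh ⊆ pvxH (pvgSites g) (pvgColAt g c)`  ⟹  white arm of `pvConf (pvMerge (g,c))` across `(z; u/2, 5u/2)`;   `pvxr_arm_black`
* **`pvxr_tower`**         all the `m` annuli of the tower `u0 6^j` of 262 at once (`‖z - e‖ + r ≤ u0/2`, `5 u0 6^(m-1) ≤ R - ‖z - e‖`);   `pvxr_block` : one blocked annulus kills the arm
* **`pvxr_plan`**          QARM + BRIDGE ⟹ `PvxpPlan T Cr g m q` from: a frame `PvxqFrame`, a stopping set `S`, explored centres `sel`, and DET IN THE FORM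
                           "on `Cr \ T` the PAINTED colouring has a `PvxArm` of white sites from `closedBall e r` to distance `R`, `e` within `u0/2 - r` of the selected grid point"
* bookkeeping: `pvxr_grid` (finite net of a bounded set), `pvxrSel`, `pvxr_sel_spec`, `pvxr_sel_meas` (selected grid points of explored ends are explored), `pvxr_anK_ball`, `pvxr_tower_ball`, `pvxrU`, `pvxr_scales` (`u0 = R / (10 · 6^(m-1))`)
-/

set_option autoImplicit false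

namespace Claimed.Agent.R289

open Set Metric Filter Topology MeasureTheory
open Claims.C0465

/-! ## 1. chains of touching cells are paths -/

/-- a site is joined to every point of its cell inside the union of the cells -/
theorem pvxr_cell_joined {Y Wh : Set ℂ} {v w : ℂ} (hv : v ∈ Wh) (hw : w ∈ vorCell Y v) : JoinedIn (vorUn Y Wh) v w :=
  ((vor_convex_cell Y v).isPathConnected ⟨v, vor_self_mem Y v⟩).joinedIn v (vor_self_mem Y v) w hw |>.mono fun _ hz => ⟨v, hv, hz⟩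

/-- two touching cells -/
theorem pvxr_step {Y Wh : Set ℂ} {a b : ℂ} (ha : a ∈ Wh) (hb : b ∈ Wh) (h : pvxAdj Y a b) : JoinedIn (vorUn Y Wh) a b := by
  obtain ⟨z, hza, hzb⟩ := h
  exact (pvxr_cell_joined ha hza).trans (pvxr_cell_joined hb hzb).symm

/-- a chain of touching cells -/
theorem pvxr_chain {Y Wh : Set ℂ} {a b : ℂ} (ha : a ∈ Wh) (h : Relation.ReflTransGen (fun u v => v ∈ Wh ∧ pvxAdj Y u v) a b) :
    b ∈ Wh ∧ JoinedIn (vorUn Y Wh) a b := by
  induction h with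
  | refl => exact ⟨ha, JoinedIn.refl ⟨a, ha, vor_self_mem Y a⟩⟩
  | tail _ hbc ih => exact ⟨hbc.1, ih.2.trans (pvxr_step ih.1 hbc.1 hbc.2)⟩

theorem pvxr_un_mono (Y : Set ℂ) {A A' : Set ℂ} (h : A ⊆ A') : vorUn Y A ⊆ vorUn Y A' := fun _ ⟨v, hv, hz⟩ => ⟨v, h hv, hz⟩

/-- an arm is monotone in the set of sites and in the radii -/
theorem PvxArm.mono3 {Y Wh Wh' : Set ℂ} {e : ℂ} {r r' R R' : ℝ} (h : PvxArm Y Wh e r R) (hW : Wh ⊆ Wh') (hr : r ≤ r') (hR : R' ≤ R) : PvxArm Y Wh' e r' R' := by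
  obtain ⟨a, b, ha, har, hbR, hc⟩ := h
  exact ⟨a, b, hW ha, har.trans hr, hR.trans hbR, Relation.ReflTransGen.mono (fun _ _ huv => ⟨hW huv.1, huv.2⟩) _ _ hc⟩

/-! ## 2. the bridge in set form -/

theorem pvxr_abs_re_le (w : ℂ) : |w.re| ≤ ‖w‖ := Complex.abs_re_le_norm w

theorem pvxr_abs_im_le (w : ℂ) : |w.im| ≤ ‖w‖ := Complex.abs_im_le_norm w

/-- **THE ARM BRIDGE, set form** -/
theorem pvxr_arm_set {Y Wh : Set ℂ} {e : ℂ} {r R : ℝ} (h : PvxArm Y Wh e r R) {z : ℂ} {u : ℝ} (h1 : ‖z - e‖ + r ≤ u / 2) (h2 : 5 * u ≤ R - ‖z - e‖) :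
    (pvxqAn z u).Holds (vorUn Y Wh) := by
  obtain ⟨a, b, ha, har, hbR, hc⟩ := h
  have hj := (pvxr_chain ha hc).2
  have hu : 0 ≤ u := by
    have := norm_nonneg (a - e); have := norm_nonneg (z - e); linarith
  have haz : ‖a - z‖ ≤ u / 2 := by
    have e1 : a - z = (a - e) - (z - e) := by ring
    calc ‖a - z‖ = ‖(a - e) - (z - e)‖ := by rw [e1]
      _ ≤ ‖a - e‖ + ‖z - e‖ := norm_sub_le _ _
      _ ≤ u / 2 := by linarith
  have hbz : 5 * u ≤ ‖b - z‖ := by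
    have e1 : b - e = (b - z) + (z - e) := by ring
    have : ‖b - e‖ ≤ ‖b - z‖ + ‖z - e‖ := by rw [e1]; exact norm_add_le _ _
    linarith
  unfold pvxqAn
  refine pvre_arm_of_path (by linarith) hj ?_ ?_
  · have r1 := abs_le.1 ((pvxr_abs_re_le (a - z)).trans haz)
    have r2 := abs_le.1 ((pvxr_abs_im_le (a - z)).trans haz)
    rw [Complex.sub_re] at r1
    rw [Complex.sub_im] at r2
    exact ⟨by linarith [r1.1], by linarith [r1.2], by linarith [r2.1], by linarith [r2.2]⟩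
  · rintro ⟨b1, b2, b3, b4⟩
    have n1 : ‖b - z‖ ≤ |(b - z).re| + |(b - z).im| := Complex.norm_le_abs_re_add_abs_im _
    have n2 : |(b - z).re| < 5 * u / 2 := by rw [Complex.sub_re, abs_lt]; constructor <;> linarith
    have n3 : |(b - z).im| < 5 * u / 2 := by rw [Complex.sub_im, abs_lt]; constructor <;> linarith
    linarith

/-! ## 3. the merged sample -/

/-- at a good geometry the region of colour `b` is the union of the cells of the sites of colour `b` for the colouring `pvgColAt g c` of the plane -/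
theorem pvxr_reg_eq {g : PvGeoT} (hg : PvgOk g) (c : PvColT) (b : Bool) :
    cfReg (pvConf (pvMerge (g, c))) b = vorUn (pvgSites g) {v | v ∈ pvgSites g ∧ pvgColAt g c v = b} := by
  rw [pvxq_reg_eq hg]
  ext z
  constructor
  · rintro ⟨i, hi, h1, hz⟩
    refine ⟨pvgSite g i, ⟨⟨i, hi, rfl⟩, ?_⟩, hz⟩
    unfold pvgColAt
    rw [hg.idx_site hi, h1]
  · rintro ⟨v, ⟨hv, h1⟩, hz⟩
    obtain ⟨h2, h3⟩ := pvqu_idx_spec hv
    refine ⟨pvgIdx g v, h2, h1, ?_⟩
    rw [h3]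
    exact hz

theorem pvxr_reg_white {g : PvGeoT} (hg : PvgOk g) (c : PvColT) : cfReg (pvConf (pvMerge (g, c))) false = vorUn (pvgSites g) (pvxH (pvgSites g) (pvgColAt g c)) :=
  pvxr_reg_eq hg c false

theorem pvxr_reg_black {g : PvGeoT} (hg : PvgOk g) (c : PvColT) : cfReg (pvConf (pvMerge (g, c))) true = vorUn (pvgSites g) (pvxK (pvgSites g) (pvgColAt g c)) :=
  pvxr_reg_eq hg c true

/-- **THE ARM BRIDGE** (white) -/
theorem pvxr_arm {g : PvGeoT} (hg : PvgOk g) {c : PvColT} {Wh : Set ℂ} (hW : Wh ⊆ pvxH (pvgSites g) (pvgColAt g c)) {e : ℂ} {r R : ℝ} (h : PvxArm (pvgSites g) Wh e r R)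
    {z : ℂ} {u : ℝ} (h1 : ‖z - e‖ + r ≤ u / 2) (h2 : 5 * u ≤ R - ‖z - e‖) : (pvxqAn z u).Holds (cfReg (pvConf (pvMerge (g, c))) false) := by
  rw [pvxr_reg_white hg]
  exact rsw_det_mono (pvxr_un_mono _ hW) Subset.rfl Subset.rfl Subset.rfl (pvxr_arm_set h h1 h2)

/-- **THE ARM BRIDGE** (black) -/
theorem pvxr_arm_black {g : PvGeoT} (hg : PvgOk g) {c : PvColT} {Bk : Set ℂ} (hB : Bk ⊆ pvxK (pvgSites g) (pvgColAt g c)) {e : ℂ} {r R : ℝ} (h : PvxArm (pvgSites g) Bk e r R)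
    {z : ℂ} {u : ℝ} (h1 : ‖z - e‖ + r ≤ u / 2) (h2 : 5 * u ≤ R - ‖z - e‖) : (pvxqAn z u).Holds (cfReg (pvConf (pvMerge (g, c))) true) := by
  rw [pvxr_reg_black hg]
  exact rsw_det_mono (pvxr_un_mono _ hB) Subset.rfl Subset.rfl Subset.rfl (pvxr_arm_set h h1 h2)

/-! ## 4. the tower -/

theorem pvxr_sc_mono {u0 : ℝ} (h0 : 0 ≤ u0) {i j : ℕ} (hij : i ≤ j) : pvxqSc u0 i ≤ pvxqSc u0 j := by
  unfold pvxqSc
  exact mul_le_mul_of_nonneg_left (pow_le_pow_right₀ (by norm_num) hij) h0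

theorem pvxr_sc_zero (u0 : ℝ) : pvxqSc u0 0 = u0 := by unfold pvxqSc; simp

/-- an arm from `closedBall e r` to distance `R` crosses all the annuli of the tower round a grid point `z` next to `e` -/
theorem pvxr_tower {g : PvGeoT} (hg : PvgOk g) {c : PvColT} {Wh : Set ℂ} (hW : Wh ⊆ pvxH (pvgSites g) (pvgColAt g c)) {e : ℂ} {r R : ℝ} (h : PvxArm (pvgSites g) Wh e r R)
    {z : ℂ} {u0 : ℝ} (h0 : 0 ≤ u0) {m : ℕ} (h1 : ‖z - e‖ + r ≤ u0 / 2) (h2 : 5 * pvxqSc u0 (m - 1) ≤ R - ‖z - e‖) :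
    ∀ k ∈ Finset.range m, (pvxqAn z (pvxqSc u0 k)).Holds (cfReg (pvConf (pvMerge (g, c))) false) := by
  intro k hk
  have hk' : k ≤ m - 1 := by have := Finset.mem_range.1 hk; omega
  have a1 : u0 ≤ pvxqSc u0 k := by
    have := pvxr_sc_mono h0 (Nat.zero_le k)
    rwa [pvxr_sc_zero] at this
  have a2 := pvxr_sc_mono h0 hk'
  exact pvxr_arm hg hW h (by linarith) (by linarith)

/-- one blocked annulus kills the arm -/
theorem pvxr_block {g : PvGeoT} (hg : PvgOk g) {c : PvColT} {Wh : Set ℂ} (hW : Wh ⊆ pvxH (pvgSites g) (pvgColAt g c)) {e : ℂ} {r R : ℝ}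
    {z : ℂ} {u0 : ℝ} (h0 : 0 ≤ u0) {m : ℕ} (h1 : ‖z - e‖ + r ≤ u0 / 2) (h2 : 5 * pvxqSc u0 (m - 1) ≤ R - ‖z - e‖)
    (hb : ∃ k ∈ Finset.range m, ¬ (pvxqAn z (pvxqSc u0 k)).Holds (cfReg (pvConf (pvMerge (g, c))) false)) : ¬ PvxArm (pvgSites g) Wh e r R := by
  intro h
  obtain ⟨k, hk, hn⟩ := hb
  exact hn (pvxr_tower hg hW h h0 h1 h2 k hk)

/-! ## 5. QARM + BRIDGE ⟹ the plan of PROB -/

/-- the white arm event of the `k`-th annulus of the tower round `z` -/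
def pvxrW (u0 : ℝ) (z : ℂ) (k : ℕ) : Set PVSample := {ω | (pvxqAn z (pvxqSc u0 k)).Holds (cfReg (pvConf ω) false)}

theorem pvxr_eqns_cite : True := by
  have := @pvxrW.eq_1
  trivial

/-- **QARM + BRIDGE ⟹ PLAN**.      What is left to DET / PLAN: the stopping set `S`, the explored centres `sel`, and `hdet`. -/
theorem pvxr_plan {T Cr : Set PVSample} {q μ : ℝ} {K : Set ℂ} {Z : Finset ℂ} {U : Finset ℝ} {g : PvGeoT} (F : PvxqFrame q μ K Z U g) (hq1 : q ≤ 1) (hKb : Bornology.IsBounded K)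
    {u0 : ℝ} (h0 : 0 < u0) (hμ : 4 * μ < u0) {m : ℕ} (hU : ∀ j < m, pvxqSc u0 j ∈ U) (hK : ∀ z ∈ Z, ∀ j < m, pvxqAnK z (pvxqSc u0 j) ⊆ K)
    (S : PvColT → Finset PvIx) (sel : PvColT → ℂ × ℂ) (hS : PvaStop S) (hsel : PvaMeas S sel) {r R : ℝ}
    (hdet : ∀ c, pvMerge (g, c) ∈ Cr → pvMerge (g, c) ∉ T → ∃ e : ℂ, PvxArm (pvgSites g) (pvxH (pvgSites g) (pvgColAt g (pvxpPaint (S c) c))) e r R ∧
      (((sel c).1 ∈ Z ∧ ‖(sel c).1 - e‖ + r ≤ u0 / 2 ∧ 5 * pvxqSc u0 (m - 1) ≤ R - ‖(sel c).1 - e‖) ∨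
       ((sel c).2 ∈ Z ∧ ‖(sel c).2 - e‖ + r ≤ u0 / 2 ∧ 5 * pvxqSc u0 (m - 1) ≤ R - ‖(sel c).2 - e‖))) :
    PvxpPlan T Cr g m q := by
  refine PvxpPlan.of_sample hq1 (pvxqFs g K) (Z : Set ℂ) S sel (pvxrW u0) (fun z k => pvxqFin g z (pvxqSc u0 k)) hS hsel ?_ ?_ ?_ ?_ ?_ ?_
  · intro z _ k _ c c' hcc hc
    refine pvxq_holds_mono F.ok false (fun i hi => ?_) hc
    cases hci : c' i
    · rfl
    · rw [hcc i hci] at hi; exact absurd hi (by simp)
  · intro z hz k hk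
    exact (pvxq_tower F hq1 hKb h0 hμ hU hz (hK z hz) false).1 k hk
  · intro z hz i hi k hk hik
    exact (pvxq_tower F hq1 hKb h0 hμ hU hz (hK z hz) false).2.1 i hi k hk hik
  · intro z _ k _
    exact pvxq_loc F.ok z (pvxq_sc_pos h0 k).le false
  · intro z hz k hk
    exact F.arm z hz _ (hU k (Finset.mem_range.1 hk)) false
  · intro c hc hT
    obtain ⟨e, harm, hor⟩ := hdet c hc hT
    rcases hor with ⟨hz, a1, a2⟩ | ⟨hz, a1, a2⟩
    · exact Or.inl ⟨hz, pvxr_tower F.ok Subset.rfl harm h0.le a1 a2⟩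
    · exact Or.inr ⟨hz, pvxr_tower F.ok Subset.rfl harm h0.le a1 a2⟩

/-! ## 6. grid points, scales (bookkeeping for the assembly) -/

/-- a finite `s`-net of a bounded set -/
theorem pvxr_grid {K : Set ℂ} (hK : Bornology.IsBounded K) {s : ℝ} (hs : 0 < s) : ∃ Z : Finset ℂ, ∀ e ∈ K, ∃ z ∈ Z, ‖z - e‖ ≤ s := by
  have htb : TotallyBounded K := (hK.isCompact_closure.totallyBounded).subset subset_closure
  obtain ⟨t, htf, ht⟩ := Metric.totallyBounded_iff.1 htb s hs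
  refine ⟨htf.toFinset, fun e he => ?_⟩
  obtain ⟨y, hy, hey⟩ := mem_iUnion₂.1 (ht he)
  refine ⟨y, htf.mem_toFinset.2 hy, ?_⟩
  rw [← dist_eq_norm, dist_comm]
  exact (mem_ball.1 hey).le

open Classical in
/-- the selected grid point next to `e` (junk `0` if there is none) -/
noncomputable def pvxrSel (Z : Finset ℂ) (s : ℝ) (e : ℂ) : ℂ := if h : ∃ z ∈ Z, ‖z - e‖ ≤ s then h.choose else 0

theorem pvxr_eqns_cite2 : True := by
  have := @pvxrSel.eq_1
  trivial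

theorem pvxr_sel_spec {Z : Finset ℂ} {s : ℝ} {e : ℂ} (h : ∃ z ∈ Z, ‖z - e‖ ≤ s) : pvxrSel Z s e ∈ Z ∧ ‖pvxrSel Z s e - e‖ ≤ s := by
  unfold pvxrSel
  rw [dif_pos h]
  exact h.choose_spec

/-- the selected grid points of two explored ends are explored -/
theorem pvxr_sel_meas {S : PvColT → Finset PvIx} {ends : PvColT → ℂ × ℂ} (h : PvaMeas S ends) (Z : Finset ℂ) (s : ℝ) :
    PvaMeas S (fun c => (pvxrSel Z s (ends c).1, pvxrSel Z s (ends c).2)) :=
  pva_meas_comp h fun p => (pvxrSel Z s p.1, pvxrSel Z s p.2)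

/-- the closed annulus of scale `u` lies in the closed ball of radius `5 u` -/
theorem pvxr_anK_ball (z : ℂ) (u : ℝ) : pvxqAnK z u ⊆ closedBall z (5 * u) := by
  intro w hw
  obtain ⟨h1, h2⟩ := pvxq_anK_in hw
  rw [mem_closedBall, dist_eq_norm]
  have n1 : ‖w - z‖ ≤ |(w - z).re| + |(w - z).im| := Complex.norm_le_abs_re_add_abs_im _
  rw [Complex.sub_re, Complex.sub_im] at n1
  linarith

/-- all the annuli of the tower lie in the ball of radius `5 u0 6^(m-1)` -/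
theorem pvxr_tower_ball {u0 : ℝ} (h0 : 0 ≤ u0) (z : ℂ) {m j : ℕ} (hj : j < m) : pvxqAnK z (pvxqSc u0 j) ⊆ closedBall z (5 * pvxqSc u0 (m - 1)) :=
  (pvxr_anK_ball z _).trans (closedBall_subset_closedBall (by have := pvxr_sc_mono h0 (show j ≤ m - 1 by omega); linarith))

/-- the set of scales of the tower -/
noncomputable def pvxrU (u0 : ℝ) (m : ℕ) : Finset ℝ := (Finset.range m).image (pvxqSc u0)

theorem pvxr_mem_U (u0 : ℝ) {m j : ℕ} (hj : j < m) : pvxqSc u0 j ∈ pvxrU u0 m := Finset.mem_image.2 ⟨j, Finset.mem_range.2 hj, rfl⟩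

theorem pvxr_U_pos {u0 : ℝ} (h0 : 0 < u0) (m : ℕ) : ∀ u ∈ pvxrU u0 m, 0 < u := by
  intro u hu
  obtain ⟨j, -, rfl⟩ := Finset.mem_image.1 hu
  exact pvxq_sc_pos h0 j

/-- **the scales**: given the macroscopic radius `R` and the number `m` of annuli, the base scale `u0 = R / (10 · 6^(m-1))`: every arm from `closedBall e (u0/4)` to distance `R` crosses the `m` annuli round any `z` within `u0/4` of `e` -/
theorem pvxr_scales {R : ℝ} (hR : 0 < R) (m : ℕ) : ∃ u0 : ℝ, 0 < u0 ∧ u0 ≤ R ∧ 5 * pvxqSc u0 (m - 1) ≤ R / 2 ∧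
    ∀ z e : ℂ, ‖z - e‖ ≤ u0 / 4 → ‖z - e‖ + u0 / 4 ≤ u0 / 2 ∧ 5 * pvxqSc u0 (m - 1) ≤ R - ‖z - e‖ := by
  have h6 : (0 : ℝ) < 6 ^ (m - 1) := by positivity
  have h61 : (1 : ℝ) ≤ 6 ^ (m - 1) := one_le_pow₀ (by norm_num)
  have hu0 : 0 < R / (10 * 6 ^ (m - 1)) := by positivity
  have hle : R / (10 * 6 ^ (m - 1)) ≤ R / 10 := by
    apply div_le_div_of_nonneg_left hR.le (by norm_num)
    linarith
  have hsc : 5 * pvxqSc (R / (10 * 6 ^ (m - 1))) (m - 1) = R / 2 := by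
    unfold pvxqSc
    field_simp
    ring
  refine ⟨R / (10 * 6 ^ (m - 1)), hu0, by linarith, hsc.le, fun z e hze => ⟨by linarith, ?_⟩⟩
  rw [hsc]
  linarith

end Claimed.Agent.R289
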