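import Claimed.Agent.R289.End

/-!
# Row 289 (S0537, Cardy for Poisson-Voronoi), unit EXT, file Ext/Top : TOPG + BUMP = THE SOFT PLANE TOPOLOGY OF THE EXTENSION STEP      (owner helper257, with helper51; head of EXT helper74; prefix `pvxt_`)

Design of helper74 (msg 09:10Z): the deterministic core DET of `exit_pv_ext` uses NO circuits, NO winding numbers, NO discrete disc.      Its topological inputs are
* HEX  (helper285, helper288)   closed cover of `closure D` by `B ∪ W`: a connected crossing in `B` or a compact connected dual crossing in `W`;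
* **TOPG** (here)   a PATH of `closure D` from the arc `ψ⁻¹[0,x]` to the arc `{d} ∪ ψ⁻¹[1,∞)` meets every preconnected subset of `closure D` which joins the arc `ψ⁻¹[x,1]` to the arc `{d} ∪ ψ⁻¹(-∞,0]`
                    (= `pvend_top` of helper212 in the rotated chart `pvendRot`, path reversed);
* **BUMP** (here)   boundary bumping: `S` compact connected, `A ⊆ S` closed, `p ∈ A`, `A ≠ S`: the component of `p` in `A` meets `closure (S \ A)`.

## Exits
* sec. 1  `pvxt_clopen_sep` (component = intersection of the clopen neighbourhoods, compactness), **`pvxt_bump`**, `pvxt_bump_cover` (`S ⊆ A ∪ B` closed: `S ⊆ A` or the component of `p` in `S ∩ A` meets `B`: the form used by DET-MAIN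
          with `A` = unexplored thick white cells, `B` = explored thick white cells)
* sec. 2  `pvxt_cut_wire`, `pvxt_cut_wire_set` (no component meets both `A` and `B` ⟹ separation by disjoint closed sets: the first step of HEX), `pvxt_comp_closed`, `pvxt_comp_compact`, `pvxt_comp_connected`
* sec. 3  `pvxt_joined_path`, `pvxt_path_joined` : `JoinedIn F a b` ⟷ a path `σ : ℝ → ℂ`, `ContinuousOn σ (Icc 0 1)` (format of `End.lean`)
* sec. 4  `pvxt_zero`, `pvxt_rot_re`, `pvxt_rot_re_pole`, **`pvxt_topg`**, `pvxt_topg_joined`, `pvxt_top_joined`, `pvxt_topg_union` (two preconnected pieces which meet), `pvxt_topg_chain` (a family of pieces)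
* sec. 5  `pvxt_main_abs` (MAIN in component form)
-/

set_option autoImplicit false
set_option linter.unusedSectionVars false

namespace Claimed.Agent.R289

open Set Filter Topology

/-! ## 1. boundary bumping -/

/-- **BUMP, space form**: in a compact Hausdorff space, a closed set `F` disjoint from the component of `x` is disjoint from a clopen neighbourhood of `x` -/
theorem pvxt_clopen_sep {X : Type*} [TopologicalSpace X] [CompactSpace X] [T2Space X] (x : X) {F : Set X} (hF : IsClosed F)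
    (hd : Disjoint (connectedComponent x) F) : ∃ K : Set X, IsClopen K ∧ x ∈ K ∧ Disjoint K F := by
  have hne : Nonempty {s : Set X // IsClopen s ∧ x ∈ s} := ⟨⟨univ, isClopen_univ, mem_univ x⟩⟩
  have hdir : Directed (· ⊇ ·) (fun s : {s : Set X // IsClopen s ∧ x ∈ s} => (s : Set X)) := by
    intro a b
    exact ⟨⟨a.1 ∩ b.1, a.2.1.inter b.2.1, a.2.2, b.2.2⟩, inter_subset_left, inter_subset_right⟩
  obtain ⟨K, hK⟩ := exists_subset_nhds_of_compactSpace hdir (fun s => s.2.1.isClosed) (U := Fᶜ) (by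
    intro y hy
    rw [← connectedComponent_eq_iInter_isClopen] at hy
    exact hF.isOpen_compl.mem_nhds (fun hyF => (Set.disjoint_left.1 hd) hy hyF))
  exact ⟨K.1, K.2.1, K.2.2, Set.disjoint_left.2 fun y hy hyF => hK hy hyF⟩

/-- **BUMP (boundary bumping)**: `S` compact connected, `A ⊆ S` closed, `p ∈ A`, `A ≠ S`: the component of `p` in `A` meets `closure (S \ A)` -/
theorem pvxt_bump {E : Type*} [TopologicalSpace E] [T2Space E] {S A : Set E} (hS : IsCompact S) (hSc : IsPreconnected S) (hAS : A ⊆ S) (hA : IsClosed A)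
    {p : E} (hp : p ∈ A) (hne : A ≠ S) : (connectedComponentIn A p ∩ closure (S \ A)).Nonempty := by
  by_contra hcon
  rw [Set.not_nonempty_iff_eq_empty] at hcon
  have hAc : IsCompact A := hS.of_isClosed_subset hA hAS
  have : CompactSpace ↥A := isCompact_iff_compactSpace.1 hAc
  set F : Set ↥A := Subtype.val ⁻¹' closure (S \ A) with hF
  have hFc : IsClosed F := isClosed_closure.preimage continuous_subtype_val
  have hdis : Disjoint (connectedComponent (⟨p, hp⟩ : ↥A)) F := by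
    rw [Set.disjoint_left]
    intro y hy hyF
    have : (y : E) ∈ connectedComponentIn A p ∩ closure (S \ A) := by
      refine ⟨?_, hyF⟩
      rw [connectedComponentIn_eq_image hp]
      exact ⟨y, hy, rfl⟩
    rw [hcon] at this
    exact this
  obtain ⟨K, hK, hpK, hKF⟩ := pvxt_clopen_sep (⟨p, hp⟩ : ↥A) hFc hdis
  -- `K' = val '' K` is closed, and relatively open in `S`
  set K' : Set E := Subtype.val '' K with hK'
  have hK'c : IsClosed K' := (hA.isClosedEmbedding_subtypeVal).isClosedMap _ hK.isClosed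
  obtain ⟨O, hO, hOK⟩ := isOpen_induced_iff.1 hK.isOpen
  have hK'A : K' ⊆ A := by rintro _ ⟨y, -, rfl⟩; exact y.2
  have hK'd : ∀ z ∈ K', z ∉ closure (S \ A) := by
    rintro _ ⟨y, hy, rfl⟩ hz
    exact (Set.disjoint_left.1 hKF) hy hz
  have hK'eq : S ∩ K' = S ∩ (O ∩ (closure (S \ A))ᶜ) := by
    ext z
    constructor
    · rintro ⟨hzS, hz⟩
      refine ⟨hzS, ?_, hK'd z hz⟩
      obtain ⟨y, hy, rfl⟩ := hz
      have : y ∈ Subtype.val ⁻¹' O := by rw [hOK]; exact hy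
      exact this
    · rintro ⟨hzS, hzO, hzc⟩
      have hzA : z ∈ A := by
        by_contra h
        exact hzc (subset_closure ⟨hzS, h⟩)
      refine ⟨hzS, ⟨z, hzA⟩, ?_, rfl⟩
      rw [← hOK]
      exact hzO
  -- `S` is covered by the two disjoint open sets `O ∩ (closure (S \ A))ᶜ` and `K'ᶜ`
  have hU : IsOpen (O ∩ (closure (S \ A))ᶜ) := hO.inter isClosed_closure.isOpen_compl
  have hV : IsOpen K'ᶜ := hK'c.isOpen_compl
  obtain ⟨q, hqS, hqA⟩ : ∃ q ∈ S, q ∉ A := by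
    by_contra h
    push Not at h
    exact hne (Subset.antisymm hAS h)
  have hcov : S ⊆ (O ∩ (closure (S \ A))ᶜ) ∪ K'ᶜ := by
    intro z hz
    by_cases hzK : z ∈ K'
    · left
      have : z ∈ S ∩ K' := ⟨hz, hzK⟩
      rw [hK'eq] at this
      exact this.2
    · right; exact hzK
  have hpK' : p ∈ K' := ⟨⟨p, hp⟩, hpK, rfl⟩
  have h1 : (S ∩ (O ∩ (closure (S \ A))ᶜ)).Nonempty := by
    rw [← hK'eq]; exact ⟨p, hAS hp, hpK'⟩
  have h2 : (S ∩ K'ᶜ).Nonempty := ⟨q, hqS, fun h => hqA (hK'A h)⟩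
  obtain ⟨z, hzS, hz1, hz2⟩ := hSc _ _ hU hV hcov h1 h2
  have : z ∈ S ∩ K' := by rw [hK'eq]; exact ⟨hzS, hz1⟩
  exact hz2 this.2

/-- **BUMP, cover form**: `S` compact connected, `S ⊆ A ∪ B`, `A B` closed, `p ∈ S ∩ A`: either `S ⊆ A` or the component of `p` in `S ∩ A` meets `B` -/
theorem pvxt_bump_cover {E : Type*} [TopologicalSpace E] [T2Space E] {S A B : Set E} (hS : IsCompact S) (hSc : IsPreconnected S) (hA : IsClosed A) (hB : IsClosed B)
    (hcov : S ⊆ A ∪ B) {p : E} (hpS : p ∈ S) (hpA : p ∈ A) : S ⊆ A ∨ (connectedComponentIn (S ∩ A) p ∩ B).Nonempty := by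
  by_cases hSA : S ⊆ A
  · exact Or.inl hSA
  right
  obtain ⟨z, hz1, hz2⟩ := pvxt_bump hS hSc (inter_subset_left : S ∩ A ⊆ S) (hS.isClosed.inter hA) ⟨hpS, hpA⟩
    (fun e => hSA (by rw [← e]; exact inter_subset_right))
  refine ⟨z, hz1, ?_⟩
  refine closure_minimal ?_ hB hz2
  rintro w ⟨hwS, hw⟩
  rcases hcov hwS with h | h
  · exact absurd ⟨hwS, h⟩ hw
  · exact h

/-! ## 2. cut wire, components -/

/-- **CUT WIRE, space form**: `A`, `B` closed in a compact Hausdorff space, no component meets both: a clopen set contains `A` and misses `B` -/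
theorem pvxt_cut_wire {X : Type*} [TopologicalSpace X] [CompactSpace X] [T2Space X] {A B : Set X} (hA : IsClosed A) (hB : IsClosed B)
    (h : ∀ x ∈ A, Disjoint (connectedComponent x) B) : ∃ K : Set X, IsClopen K ∧ A ⊆ K ∧ Disjoint K B := by
  classical
  choose! K hK1 hK2 hK3 using fun x (hx : x ∈ A) => pvxt_clopen_sep x hB (h x hx)
  obtain ⟨t, ht, hcov⟩ := hA.isCompact.elim_nhds_subcover K (fun x hx => (hK1 x hx).isOpen.mem_nhds (hK2 x hx))
  refine ⟨⋃ x ∈ t, K x, ?_, hcov, ?_⟩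
  · exact t.finite_toSet.isClopen_biUnion fun x hx => hK1 x (ht x hx)
  · rw [Set.disjoint_left]
    intro y hy hyB
    obtain ⟨x, hx, hyx⟩ := mem_iUnion₂.1 hy
    exact (Set.disjoint_left.1 (hK3 x (ht x hx))) hyx hyB

/-- **CUT WIRE, set form**: `S` compact, `A B ⊆ S` closed, no component of `S` meets both: `S` splits into two disjoint closed sets, `A ⊆ S₁`, `B ⊆ S₂` -/
theorem pvxt_cut_wire_set {E : Type*} [TopologicalSpace E] [T2Space E] {S A B : Set E} (hS : IsCompact S) (hA : IsClosed A) (hB : IsClosed B)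
    (hAS : A ⊆ S) (h : ∀ x ∈ A, Disjoint (connectedComponentIn S x) B) :
    ∃ S₁ S₂ : Set E, IsClosed S₁ ∧ IsClosed S₂ ∧ S₁ ∪ S₂ = S ∧ Disjoint S₁ S₂ ∧ A ⊆ S₁ ∧ B ∩ S ⊆ S₂ := by
  have : CompactSpace ↥S := isCompact_iff_compactSpace.1 hS
  have hSc : IsClosed S := hS.isClosed
  obtain ⟨K, hK, hAK, hKB⟩ := pvxt_cut_wire (X := ↥S) (A := Subtype.val ⁻¹' A) (B := Subtype.val ⁻¹' B)
    (hA.preimage continuous_subtype_val) (hB.preimage continuous_subtype_val) (by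
      intro x hx
      rw [Set.disjoint_left]
      intro y hy hyB
      refine (Set.disjoint_left.1 (h x hx)) ?_ hyB
      rw [connectedComponentIn_eq_image x.2]
      exact ⟨y, hy, rfl⟩)
  refine ⟨Subtype.val '' K, Subtype.val '' Kᶜ, (hSc.isClosedEmbedding_subtypeVal).isClosedMap _ hK.isClosed,
    (hSc.isClosedEmbedding_subtypeVal).isClosedMap _ hK.compl.isClosed, ?_, ?_, ?_, ?_⟩
  · rw [← image_union, union_compl_self, image_univ, Subtype.range_coe]
  · rw [Set.disjoint_left]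
    rintro _ ⟨y, hy, rfl⟩ ⟨z, hz, hzy⟩
    exact hz (by rw [Subtype.ext hzy]; exact hy)
  · intro z hz
    exact ⟨⟨z, hAS hz⟩, hAK hz, rfl⟩
  · rintro z ⟨hzB, hzS⟩
    exact ⟨⟨z, hzS⟩, fun hzK => (Set.disjoint_left.1 hKB) hzK hzB, rfl⟩

/-- the component of a point in a closed set is closed -/
theorem pvxt_comp_closed {E : Type*} [TopologicalSpace E] {A : Set E} (hA : IsClosed A) (p : E) : IsClosed (connectedComponentIn A p) := by
  by_cases hp : p ∈ A
  · rw [connectedComponentIn_eq_image hp]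
    exact (hA.isClosedEmbedding_subtypeVal).isClosedMap _ isClosed_connectedComponent
  · rw [connectedComponentIn_eq_empty hp]
    exact isClosed_empty

theorem pvxt_comp_compact {E : Type*} [TopologicalSpace E] [T2Space E] {A : Set E} (hA : IsCompact A) (p : E) : IsCompact (connectedComponentIn A p) :=
  hA.of_isClosed_subset (pvxt_comp_closed hA.isClosed p) (connectedComponentIn_subset A p)

theorem pvxt_comp_connected {E : Type*} [TopologicalSpace E] {A : Set E} {p : E} (hp : p ∈ A) : IsConnected (connectedComponentIn A p) :=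
  ⟨⟨p, mem_connectedComponentIn hp⟩, isPreconnected_connectedComponentIn⟩

/-! ## 3. paths -/

/-- a `JoinedIn` as a path on `[0,1]` in the format of `End.lean` -/
theorem pvxt_joined_path {F : Set ℂ} {a b : ℂ} (h : JoinedIn F a b) :
    ∃ σ : ℝ → ℂ, ContinuousOn σ (Icc 0 1) ∧ (∀ t ∈ Icc (0 : ℝ) 1, σ t ∈ F) ∧ σ 0 = a ∧ σ 1 = b := by
  obtain ⟨γ, hγ⟩ := h
  refine ⟨γ.extend, γ.continuous_extend.continuousOn, fun t ht => ?_, γ.extend_zero, γ.extend_one⟩
  rw [γ.extend_apply ht]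
  exact hγ _

/-- the converse -/
theorem pvxt_path_joined {F : Set ℂ} {σ : ℝ → ℂ} (hσ : ContinuousOn σ (Icc 0 1)) (hF : ∀ t ∈ Icc (0 : ℝ) 1, σ t ∈ F) : JoinedIn F (σ 0) (σ 1) :=
  JoinedIn.ofLine hσ rfl rfl (by rintro _ ⟨t, ht, rfl⟩; exact hF t ht)

/-! ## 4. TOPG -/

section topg

variable {D : Set ℂ} {d : ℂ} {ψ : ℂ → ℂ}

/-- the point `a = ψ⁻¹ 0` of a chart -/
theorem pvxt_zero (h : PvChart D d ψ) : ∃ a, a ∈ frontier D ∧ a ≠ d ∧ ψ a = 0 := by
  have : (0 : ℂ) ∈ ψ '' (frontier D \ {d}) := by rw [h.imgB]; simp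
  obtain ⟨a, ⟨ha, had⟩, hψa⟩ := this
  exact ⟨a, ha, fun e => had (by simp [e]), hψa⟩

/-- real part of the rotated chart on the frontier -/
theorem pvxt_rot_re (h : PvChart D d ψ) (x : ℝ) {z : ℂ} (hz : z ∈ frontier D) (hzd : z ≠ d) :
    (pvendRot d ψ x z).re = 1 - x / (ψ z).re := by
  unfold pvendRot
  rw [if_neg hzd, pvend_real h hz hzd]
  have := pvend_inv_re (ψ z).re 0
  rw [Complex.ofReal_zero] at this
  simp only [Complex.add_re, Complex.re_ofReal_mul, Complex.ofReal_re, this]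
  rw [zero_sub, one_div, inv_neg]
  ring

theorem pvxt_rot_re_pole (x : ℝ) : (pvendRot d ψ x d).re = 1 := by
  unfold pvendRot
  rw [if_pos rfl]; simp

/-- **TOPG**: a path in `closure D` from the arc `ψ⁻¹[0,x]` to the arc `{d} ∪ ψ⁻¹[1,∞)` meets every preconnected subset of `closure D` which joins
the arc `ψ⁻¹[x,1]` to the arc `{d} ∪ ψ⁻¹(-∞,0]` -/
theorem pvxt_topg (h : PvChart D d ψ) {x : ℝ} (hx0 : 0 < x) (hx1 : x < 1)
    {σ : ℝ → ℂ} (hσ : ContinuousOn σ (Icc 0 1)) (hσK : ∀ t ∈ Icc (0 : ℝ) 1, σ t ∈ closure D)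
    (h0 : σ 0 ∈ pvArcL D d ψ x) (h1 : σ 1 ∈ pvArcR D d ψ)
    {S : Set ℂ} (hS : IsPreconnected S) (hSK : S ⊆ closure D)
    (hB : ∃ z ∈ S, z ∈ frontier D ∧ z ≠ d ∧ x ≤ (ψ z).re ∧ (ψ z).re ≤ 1)
    (hT : ∃ z ∈ S, z = d ∨ (z ∈ frontier D ∧ z ≠ d ∧ (ψ z).re ≤ 0)) : ∃ t ∈ Icc (0 : ℝ) 1, σ t ∈ S := by
  obtain ⟨a, ha, had, hψa⟩ := pvxt_zero h
  have h' := pvend_rot h ha had hψa hx0
  have hmap : ∀ t ∈ Icc (0 : ℝ) 1, 1 - t ∈ Icc (0 : ℝ) 1 := fun t ht => ⟨by linarith [ht.2], by linarith [ht.1]⟩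
  have hσ' : ContinuousOn (fun t => σ (1 - t)) (Icc 0 1) := hσ.comp (by fun_prop) hmap
  have hne : ∀ z, 0 < (ψ z).re → z ≠ a := fun z hz e => by rw [e, hψa] at hz; simp at hz
  obtain ⟨t, ht, htS⟩ := pvend_top h' (x := 1 - x) (by linarith) (by linarith) hS hSK (by
      obtain ⟨z, hzS, hzF, hzd, z1, z2⟩ := hB
      have hpos : 0 < (ψ z).re := by linarith
      refine ⟨z, hzS, hzF, hne z hpos, ?_, ?_⟩
      · rw [pvxt_rot_re h x hzF hzd]
        have : x / (ψ z).re ≤ 1 := (div_le_one hpos).2 z1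
        linarith
      · rw [pvxt_rot_re h x hzF hzd]
        have : x ≤ x / (ψ z).re := by rw [le_div_iff₀ hpos]; nlinarith
        linarith) (by
      obtain ⟨z, hzS, hz⟩ := hT
      refine ⟨z, hzS, ?_⟩
      rcases hz with rfl | ⟨hzF, hzd, z1⟩
      · exact Or.inr ⟨h.hd, fun e => had e.symm, by rw [pvxt_rot_re_pole]⟩
      · by_cases c : z = a
        · exact Or.inl c
        · refine Or.inr ⟨hzF, c, ?_⟩
          rw [pvxt_rot_re h x hzF hzd]
          have : x / (ψ z).re ≤ 0 := div_nonpos_of_nonneg_of_nonpos hx0.le z1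
          linarith) hσ' (fun t ht => hσK _ (hmap t ht)) (by
      simp only [sub_zero]
      rcases h1 with e | ⟨a1, a2, a3⟩
      · rw [e]
        exact ⟨h.hd, fun e => had e.symm, by rw [pvxt_rot_re_pole]; linarith, by rw [pvxt_rot_re_pole]⟩
      · have hpos : 0 < (ψ (σ 1)).re := by linarith
        refine ⟨a1, hne _ hpos, ?_, ?_⟩
        · rw [pvxt_rot_re h x a1 a2]
          have : x / (ψ (σ 1)).re ≤ x := by rw [div_le_iff₀ hpos]; nlinarith
          linarith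
        · rw [pvxt_rot_re h x a1 a2]
          have : 0 ≤ x / (ψ (σ 1)).re := by positivity
          linarith) (by
      simp only [sub_self]
      obtain ⟨a1, a2, a3, a4⟩ := h0
      by_cases c : σ 0 = a
      · exact Or.inl c
      · refine Or.inr ⟨a1, c, ?_⟩
        have hpos : 0 < (ψ (σ 0)).re := by
          rcases a3.lt_or_eq with h3 | h3
          · exact h3
          · exfalso
            apply c
            refine h.inj ⟨frontier_subset_closure a1, by simpa using a2⟩ ⟨frontier_subset_closure ha, by simpa using had⟩ ?_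
            rw [pvend_real h a1 a2, ← h3, hψa]; simp
        rw [pvxt_rot_re h x a1 a2]
        have : 1 ≤ x / (ψ (σ 0)).re := (one_le_div hpos).2 a4
        linarith)
  exact ⟨1 - t, hmap t ht, htS⟩


/-- **TOPG, `JoinedIn` form**: `G ⊆ closure D` joins a point of `ψ⁻¹[0,x]` to a point of `{d} ∪ ψ⁻¹[1,∞)` -/
theorem pvxt_topg_joined (h : PvChart D d ψ) {x : ℝ} (hx0 : 0 < x) (hx1 : x < 1) {G : Set ℂ} {p q : ℂ} (hj : JoinedIn G p q) (hG : G ⊆ closure D)
    (hp : p ∈ pvArcL D d ψ x) (hq : q ∈ pvArcR D d ψ) {S : Set ℂ} (hS : IsPreconnected S) (hSK : S ⊆ closure D)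
    (hB : ∃ z ∈ S, z ∈ frontier D ∧ z ≠ d ∧ x ≤ (ψ z).re ∧ (ψ z).re ≤ 1)
    (hT : ∃ z ∈ S, z = d ∨ (z ∈ frontier D ∧ z ≠ d ∧ (ψ z).re ≤ 0)) : (G ∩ S).Nonempty := by
  obtain ⟨σ, hσ, hσG, rfl, rfl⟩ := pvxt_joined_path hj
  obtain ⟨t, ht, htS⟩ := pvxt_topg h hx0 hx1 hσ (fun t ht => hG (hσG t ht)) hp hq hS hSK hB hT
  exact ⟨σ t, hσG t ht, htS⟩

/-- **TOP, `JoinedIn` form** (`pvend_top`): `G ⊆ closure D` joins a point of `ψ⁻¹[x,1]` to a point of `{d} ∪ ψ⁻¹(-∞,0]` -/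
theorem pvxt_top_joined (h : PvChart D d ψ) {x : ℝ} (hx0 : 0 < x) (hx1 : x < 1) {G : Set ℂ} {p q : ℂ} (hj : JoinedIn G p q) (hG : G ⊆ closure D)
    (hp : p ∈ frontier D ∧ p ≠ d ∧ x ≤ (ψ p).re ∧ (ψ p).re ≤ 1) (hq : q = d ∨ (q ∈ frontier D ∧ q ≠ d ∧ (ψ q).re ≤ 0))
    {S : Set ℂ} (hS : IsPreconnected S) (hSK : S ⊆ closure D) (hL : ∃ z ∈ S, z ∈ pvArcL D d ψ x) (hR : ∃ z ∈ S, z ∈ pvArcR D d ψ) : (G ∩ S).Nonempty := by
  obtain ⟨σ, hσ, hσG, rfl, rfl⟩ := pvxt_joined_path hj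
  obtain ⟨t, ht, htS⟩ := pvend_top h hx0 hx1 hS hSK hL hR hσ (fun t ht => hG (hσG t ht)) hp hq
  exact ⟨σ t, hσG t ht, htS⟩

/-- **TOPG for two pieces**: `S₁` reaches the top arc, `S₂` reaches the bottom arc, they meet: the path meets one of them -/
theorem pvxt_topg_union (h : PvChart D d ψ) {x : ℝ} (hx0 : 0 < x) (hx1 : x < 1) {G : Set ℂ} {p q : ℂ} (hj : JoinedIn G p q) (hG : G ⊆ closure D)
    (hp : p ∈ pvArcL D d ψ x) (hq : q ∈ pvArcR D d ψ) {S₁ S₂ : Set ℂ} (h1 : IsPreconnected S₁) (h2 : IsPreconnected S₂) (h12 : (S₁ ∩ S₂).Nonempty)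
    (h1K : S₁ ⊆ closure D) (h2K : S₂ ⊆ closure D)
    (hB : ∃ z ∈ S₂, z ∈ frontier D ∧ z ≠ d ∧ x ≤ (ψ z).re ∧ (ψ z).re ≤ 1)
    (hT : ∃ z ∈ S₁, z = d ∨ (z ∈ frontier D ∧ z ≠ d ∧ (ψ z).re ≤ 0)) : (G ∩ S₁).Nonempty ∨ (G ∩ S₂).Nonempty := by
  obtain ⟨w, hw1, hw2⟩ := h12
  obtain ⟨zB, hzB, hB'⟩ := hB
  obtain ⟨zT, hzT, hT'⟩ := hT
  obtain ⟨z, hzG, hz⟩ := pvxt_topg_joined h hx0 hx1 hj hG hp hq (h1.union w hw1 hw2 h2) (union_subset h1K h2K)
    ⟨zB, Or.inr hzB, hB'⟩ ⟨zT, Or.inl hzT, hT'⟩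
  rcases hz with hz | hz
  · exact Or.inl ⟨z, hzG, hz⟩
  · exact Or.inr ⟨z, hzG, hz⟩

/-- **TOPG for a chain of pieces**: preconnected pieces `C i ⊆ closure D`, `i ∈ I`, any two of them linked by a chain of pieces which meet consecutively;
one piece reaches the bottom arc, one the top arc: the path meets a piece -/
theorem pvxt_topg_chain (h : PvChart D d ψ) {x : ℝ} (hx0 : 0 < x) (hx1 : x < 1) {G : Set ℂ} {p q : ℂ} (hj : JoinedIn G p q) (hG : G ⊆ closure D)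
    (hp : p ∈ pvArcL D d ψ x) (hq : q ∈ pvArcR D d ψ) {ι : Type*} {I : Set ι} {C : ι → Set ℂ} (hC : ∀ i ∈ I, IsPreconnected (C i)) (hCK : ∀ i ∈ I, C i ⊆ closure D)
    (hlink : ∀ i ∈ I, ∀ j ∈ I, Relation.ReflTransGen (fun a b => (C a ∩ C b).Nonempty ∧ a ∈ I) i j)
    (hB : ∃ i ∈ I, ∃ z ∈ C i, z ∈ frontier D ∧ z ≠ d ∧ x ≤ (ψ z).re ∧ (ψ z).re ≤ 1)
    (hT : ∃ i ∈ I, ∃ z ∈ C i, z = d ∨ (z ∈ frontier D ∧ z ≠ d ∧ (ψ z).re ≤ 0)) : ∃ i ∈ I, (G ∩ C i).Nonempty := by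
  obtain ⟨iB, hiB, zB, hzB, hB'⟩ := hB
  obtain ⟨iT, hiT, zT, hzT, hT'⟩ := hT
  obtain ⟨z, hzG, hz⟩ := pvxt_topg_joined h hx0 hx1 hj hG hp hq (IsPreconnected.biUnion_of_reflTransGen hC hlink) (iUnion₂_subset hCK)
    ⟨zB, mem_iUnion₂.2 ⟨iB, hiB, hzB⟩, hB'⟩ ⟨zT, mem_iUnion₂.2 ⟨iT, hiT, hzT⟩, hT'⟩
  obtain ⟨i, hi, hzi⟩ := mem_iUnion₂.1 hz
  exact ⟨i, hi, z, hzG, hzi⟩

end topg

/-! ## 5. MAIN, abstract form (component form; chain form = `pvxm_main` of helper4 in `Ext/DetTop`) -/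

section mainabs

variable {D : Set ℂ} {d : ℂ} {ψ : ℂ → ℂ}

/-- **MAIN, abstract form** (design of helper74).   `G = Sl ∪ P` carries a path from the arc `ψ⁻¹[0,x]` to the arc `{d} ∪ ψ⁻¹[1,∞)` (`Sl` = the two slits, `P` = the strict polygon of the bank);
`S` = the compact connected dual crossing given by HEX, covered by the closed sets `U` (unexplored white thick cells) and `E` (explored white thick cells);   `P` misses `U`;
every point of `E ∩ S` lies on a preconnected set `Q ⊆ closure D` which reaches the bottom arc and misses `G` (explored white cells + a cell of `NB` + the zone `ZB`).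
Then the component `C` of the top end `zT` in `S ∩ U` meets a slit. -/
theorem pvxt_main_abs (h : PvChart D d ψ) {x : ℝ} (hx0 : 0 < x) (hx1 : x < 1) {Sl P : Set ℂ} {p q : ℂ} (hj : JoinedIn (Sl ∪ P) p q) (hG : Sl ∪ P ⊆ closure D)
    (hp : p ∈ pvArcL D d ψ x) (hq : q ∈ pvArcR D d ψ) {S U E : Set ℂ} (hS : IsCompact S) (hSc : IsPreconnected S) (hSK : S ⊆ closure D)
    (hU : IsClosed U) (hE : IsClosed E) (hcov : S ⊆ U ∪ E) (hPU : Disjoint P U)
    (hB : ∃ z ∈ S, z ∈ frontier D ∧ z ≠ d ∧ x ≤ (ψ z).re ∧ (ψ z).re ≤ 1)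
    {zT : ℂ} (hzS : zT ∈ S) (hzU : zT ∈ U) (hzT : zT = d ∨ (zT ∈ frontier D ∧ zT ≠ d ∧ (ψ zT).re ≤ 0))
    (hQ : ∀ z ∈ S ∩ E, ∃ Q : Set ℂ, IsPreconnected Q ∧ z ∈ Q ∧ Q ⊆ closure D ∧ Disjoint (Sl ∪ P) Q ∧
      ∃ b ∈ Q, b ∈ frontier D ∧ b ≠ d ∧ x ≤ (ψ b).re ∧ (ψ b).re ≤ 1) :
    (connectedComponentIn (S ∩ U) zT ∩ Sl).Nonempty := by
  have hz : zT ∈ S ∩ U := ⟨hzS, hzU⟩
  have hCsub : connectedComponentIn (S ∩ U) zT ⊆ S ∩ U := connectedComponentIn_subset _ _
  have hCc : IsPreconnected (connectedComponentIn (S ∩ U) zT) := isPreconnected_connectedComponentIn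
  have hzC : zT ∈ connectedComponentIn (S ∩ U) zT := mem_connectedComponentIn hz
  have fin : (((Sl ∪ P) ∩ connectedComponentIn (S ∩ U) zT).Nonempty) → (connectedComponentIn (S ∩ U) zT ∩ Sl).Nonempty := by
    rintro ⟨y, hy | hy, hyC⟩
    · exact ⟨y, hyC, hy⟩
    · exact absurd (hCsub hyC).2 (Set.disjoint_left.1 hPU hy)
  rcases pvxt_bump_cover hS hSc hU hE hcov hzS hzU with hSU | ⟨z, hzC', hzE⟩
  · -- `S ⊆ U`: the component is `S`
    have e : S ∩ U = S := inter_eq_left.2 hSU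
    have hSC : S ⊆ connectedComponentIn (S ∩ U) zT := by
      rw [e]
      exact hSc.subset_connectedComponentIn hzS subset_rfl
    obtain ⟨b, hbS, hb⟩ := hB
    exact fin (pvxt_topg_joined h hx0 hx1 hj hG hp hq hCc (hCsub.trans (inter_subset_left.trans hSK)) ⟨b, hSC hbS, hb⟩ ⟨zT, hzC, hzT⟩)
  · obtain ⟨Q, hQc, hzQ, hQK, hQG, b, hbQ, hb⟩ := hQ z ⟨(hCsub hzC').1, hzE⟩
    rcases pvxt_topg_union h hx0 hx1 hj hG hp hq hCc hQc ⟨z, hzC', hzQ⟩ (hCsub.trans (inter_subset_left.trans hSK)) hQK ⟨b, hbQ, hb⟩ ⟨zT, hzC, hzT⟩ with h1 | ⟨y, hyG, hyQ⟩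
    · exact fin h1
    · exact absurd hyQ (Set.disjoint_left.1 hQG hyG)

end mainabs

end Claimed.Agent.R289
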