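import Claimed.Agent.R289.Defs.Top
import Claimed.Agent.R289.Rsw.Topo
import Claimed.Agent.R289.Ext.Hex
import Claimed.Agent.R289.Ext.Top
import Claimed.Agent.R289.Arm.Stop
import Claimed.Agent.R289.Ext.Defs

/-!
# Row 289 (S0537), unit EXT, block DET-BANK      (helper290, post of helper74; prefix `pvxb_`, types `Pvxb*`)

MODEL FREE.      1. Poincare-Miranda on the unit square (`pvxb_pm`, from `Shared.bk_brouwer_cube`) and HEX on the square in PATH form (`pvxb_rect`): two disjoint closed sets, one containing the top side,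
the other the bottom side: a path from the left side to the right side avoids both.   No grid, no discrete Hex.
2. the abstract exploration: finite family of closed connected cells, classes `NL NR NB NT V` (left, right, bottom, top, free), seeds = free sites touching a bottom site,
`pvxbW` = white free sites joined to a white seed by white free sites, `pvxbB` = black free sites which are seeds or touch `pvxbW`;   the record `PvxbGeo` of the deterministic geometry (four closed zones).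
3. BLOCK (`pvxb_block`): a path from the left arc to the right arc avoiding the bottom / top zones and sites and the white free cells (= slit + strict polygon of the crossing of `PvNice` + slit)
keeps `pvxbW` away from the top sites   (contract `PvxbTopG` = TOPG of helper51).
4. `Ybot`, `Ytop` closed and disjoint; HEX (contract `PvxbHex` = `pvxh_hex` of helper285) gives a connected subset of `Yk ∩ closure D` from the left arc to the right arc (`pvxb_black`).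
6. the two contracts are theorems: `pvxb_bank_path` (no contract left).      7. `W(c) ∪ B(c)` is a STOPPING SET: `pvxb_stop_W`, `pvxb_stop_B`, `pvxbS`, `pvxb_stop : PvaStop`, `pvxb_meas : PvaMeas`, `pvxb_mix`.
8. THE INSTANCE on `Ext/Defs` (helper74): `pvxb_inst : PvxGeo + PvxOk → PvxbGeo`, `pvxb_i_path` (slit + `pvxk_polygon` + slit), **`pvxb_main` = the leaf `pvx_bank` of `Ext/Cut.lean`**.
5. the nerve of the finite closed cover (`rsw_chain_of_connected`): THE BANK `pvxb_bank`: a chain inside `pvxbB` from a site touching a left site to a site touching a right site.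
-/

set_option autoImplicit false

namespace Claimed.Agent.R289

open Set Filter Topology Metric

/-! ## 1. Poincare-Miranda on the unit square, and the rectangle HEX lemma in path form -/

/-- **Poincare-Miranda** on the unit square, from Brouwer -/
theorem pvxb_pm (f g : (Fin 2 → ℝ) → ℝ) (hf : ContinuousOn f (Icc 0 1)) (hg : ContinuousOn g (Icc 0 1))
    (g0 : ∀ p ∈ Icc (0 : Fin 2 → ℝ) 1, p 0 = 0 → g p < 0) (g1 : ∀ p ∈ Icc (0 : Fin 2 → ℝ) 1, p 0 = 1 → 0 < g p)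
    (f0 : ∀ p ∈ Icc (0 : Fin 2 → ℝ) 1, p 1 = 0 → f p < 0) (f1 : ∀ p ∈ Icc (0 : Fin 2 → ℝ) 1, p 1 = 1 → 0 < f p) :
    ∃ p ∈ Icc (0 : Fin 2 → ℝ) 1, f p = 0 ∧ g p = 0 := by
  by_contra hcon
  push Not at hcon
  set N : (Fin 2 → ℝ) → ℝ := fun p => max |g p| |f p| with hN
  have hNpos : ∀ p ∈ Icc (0 : Fin 2 → ℝ) 1, 0 < N p := by
    intro p hp
    by_contra h0'
    have hle : N p ≤ 0 := not_lt.1 h0'
    have e1 : g p = 0 := abs_eq_zero.1 (le_antisymm ((le_max_left _ _).trans hle) (abs_nonneg _))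
    have e2 : f p = 0 := abs_eq_zero.1 (le_antisymm ((le_max_right _ _).trans hle) (abs_nonneg _))
    exact hcon p hp e2 e1
  have cN : ContinuousOn N (Icc 0 1) := ContinuousOn.sup hg.abs hf.abs
  set F : (Fin 2 → ℝ) → (Fin 2 → ℝ) := fun p => ![1 / 2 + (-g p) / (2 * N p), 1 / 2 + (-f p) / (2 * N p)] with hF
  have cF : ContinuousOn F (Icc 0 1) := by
    rw [continuousOn_pi]
    intro i
    have hne : ∀ p ∈ Icc (0 : Fin 2 → ℝ) 1, 2 * N p ≠ 0 := fun p hp => by have := hNpos p hp; positivity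
    fin_cases i
    · exact continuousOn_const.add (hg.neg.div (continuousOn_const.mul cN) hne)
    · exact continuousOn_const.add (hf.neg.div (continuousOn_const.mul cN) hne)
  have hb : ∀ p ∈ Icc (0 : Fin 2 → ℝ) 1, ∀ x : ℝ, |x| ≤ N p → 0 ≤ 1 / 2 + x / (2 * N p) ∧ 1 / 2 + x / (2 * N p) ≤ 1 := by
    intro p hp x hx
    have hp' := hNpos p hp
    obtain ⟨x1, x2⟩ := abs_le.1 hx
    have e : 1 / 2 + x / (2 * N p) = (N p + x) / (2 * N p) := by field_simp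
    rw [e]
    exact ⟨div_nonneg (by linarith) (by positivity), by rw [div_le_one (by positivity)]; linarith⟩
  have mF : MapsTo F (Icc 0 1) (Icc 0 1) := by
    intro p hp
    refine ⟨fun i => ?_, fun i => ?_⟩ <;> fin_cases i
    · exact (hb p hp _ (by rw [abs_neg]; exact le_max_left _ _)).1
    · exact (hb p hp _ (by rw [abs_neg]; exact le_max_right _ _)).1
    · exact (hb p hp _ (by rw [abs_neg]; exact le_max_left _ _)).2
    · exact (hb p hp _ (by rw [abs_neg]; exact le_max_right _ _)).2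
  obtain ⟨p, hp, hfix⟩ := Claimed.Agent.Shared.bk_brouwer_cube 2 F cF mF
  have hp' := hNpos p hp
  have e0 : 1 / 2 + (-g p) / (2 * N p) = p 0 := congrFun hfix 0
  have e1 : 1 / 2 + (-f p) / (2 * N p) = p 1 := congrFun hfix 1
  have key : ∀ x : ℝ, x = N p → 1 / 2 + x / (2 * N p) = 1 := fun x hx => by rw [hx]; field_simp; norm_num
  have key' : ∀ x : ℝ, x = -N p → 1 / 2 + x / (2 * N p) = 0 := fun x hx => by rw [hx]; field_simp; norm_num
  rcases max_choice |g p| |f p| with hm | hm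
  · have hm' : |g p| = N p := hm.symm
    rcases abs_choice (g p) with ha | ha
    · rw [ha] at hm'
      have e := key' (-g p) (by linarith)
      rw [e0] at e
      have := g0 p hp e
      linarith
    · rw [ha] at hm'
      have e := key (-g p) hm'
      rw [e0] at e
      have := g1 p hp e
      linarith
  · have hm' : |f p| = N p := hm.symm
    rcases abs_choice (f p) with ha | ha
    · rw [ha] at hm'
      have e := key' (-f p) (by linarith)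
      rw [e1] at e
      have := f0 p hp e
      linarith
    · rw [ha] at hm'
      have e := key (-f p) hm'
      rw [e1] at e
      have := f1 p hp e
      linarith

/-- **HEX on the unit square, path form**: two disjoint closed sets, one containing the top side, the other the bottom side: a path from the left side to the right side avoids both -/
theorem pvxb_rect {Au Al : Set (Fin 2 → ℝ)} (hAu : IsClosed Au) (hAl : IsClosed Al)
    (hdis : ∀ p ∈ Icc (0 : Fin 2 → ℝ) 1, p ∈ Au → p ∉ Al)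
    (htop : ∀ p ∈ Icc (0 : Fin 2 → ℝ) 1, p 1 = 1 → p ∈ Au) (hbot : ∀ p ∈ Icc (0 : Fin 2 → ℝ) 1, p 1 = 0 → p ∈ Al) :
    ∃ p q : Fin 2 → ℝ, p 0 = 0 ∧ q 0 = 1 ∧ JoinedIn (Icc (0 : Fin 2 → ℝ) 1 \ (Au ∪ Al)) p q := by
  by_contra hcon
  push Not at hcon
  set Q : Set (Fin 2 → ℝ) := Icc 0 1 with hQ
  set O : Set (Fin 2 → ℝ) := Q \ (Au ∪ Al) with hO
  have hQc : IsClosed Q := isClosed_Icc
  have hQconv : Convex ℝ Q := convex_Icc _ _
  -- local joining
  have hloc : ∀ q ∈ O, ∃ δ > 0, ∀ q' ∈ Q, dist q' q < δ → JoinedIn O q q' := by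
    intro q hq
    have hopen : IsOpen (Au ∪ Al)ᶜ := (hAu.union hAl).isOpen_compl
    obtain ⟨δ, hδ, hball⟩ := Metric.isOpen_iff.1 hopen q hq.2
    refine ⟨δ, hδ, fun q' hq' hd => JoinedIn.of_segment_subset fun z hz => ⟨hQconv.segment_subset hq.1 hq' hz, ?_⟩⟩
    exact hball ((convex_ball q δ).segment_subset (mem_ball_self hδ) hd hz)
  set ZB : Set (Fin 2 → ℝ) := {q | ∃ p ∈ O, p 0 = 0 ∧ JoinedIn O p q} with hZB
  have hAune : Au.Nonempty := ⟨fun _ => 1, htop _ ⟨fun _ => zero_le_one, fun _ => le_rfl⟩ rfl⟩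
  have hAlne : Al.Nonempty := ⟨fun _ => 0, hbot _ ⟨fun _ => le_rfl, fun _ => zero_le_one⟩ rfl⟩
  set f : (Fin 2 → ℝ) → ℝ := fun p => infDist p Al - infDist p Au with hf
  have cf : Continuous f := (continuous_infDist_pt _).sub (continuous_infDist_pt _)
  have fAu : ∀ p ∈ Q, p ∈ Au → 0 < f p := by
    intro p hp hpa
    have h1 : infDist p Au = 0 := infDist_zero_of_mem hpa
    have h2 : 0 < infDist p Al := (hAl.notMem_iff_infDist_pos hAlne).1 (hdis p hp hpa)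
    simp only [hf]; linarith
  have fAl : ∀ p ∈ Q, p ∈ Al → f p < 0 := by
    intro p hp hpa
    have h1 : infDist p Al = 0 := infDist_zero_of_mem hpa
    have h2 : 0 < infDist p Au := (hAu.notMem_iff_infDist_pos hAune).1 fun h => hdis p hp h hpa
    simp only [hf]; linarith
  set N0 : Set (Fin 2 → ℝ) := {p | p ∈ Q ∧ f p = 0} with hN0
  have hN0c : IsClosed N0 := hQc.inter (isClosed_eq cf continuous_const)
  have hN0O : N0 ⊆ O := by
    intro p hp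
    refine ⟨hp.1, ?_⟩
    rintro (h | h)
    · have := fAu p hp.1 h; rw [hp.2] at this; exact lt_irrefl _ this
    · have := fAl p hp.1 h; rw [hp.2] at this; exact lt_irrefl _ this
  set Lf : Set (Fin 2 → ℝ) := {p | p ∈ Q ∧ p 0 = 0} with hLf
  set Rt : Set (Fin 2 → ℝ) := {p | p ∈ Q ∧ p 0 = 1} with hRt
  have hLfc : IsClosed Lf := hQc.inter (isClosed_eq (continuous_apply 0) continuous_const)
  have hRtc : IsClosed Rt := hQc.inter (isClosed_eq (continuous_apply 0) continuous_const)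
  have c1 : IsClosed (N0 ∩ ZB) := by
    refine isClosed_of_closure_subset fun x hx => ?_
    have hxN : x ∈ N0 := hN0c.closure_subset_iff.2 inter_subset_left hx
    obtain ⟨δ, hδ, hj⟩ := hloc x (hN0O hxN)
    obtain ⟨y, hy, hyd⟩ := Metric.mem_closure_iff.1 hx δ hδ
    obtain ⟨p, hpO, hp0, hpj⟩ := hy.2
    exact ⟨hxN, p, hpO, hp0, hpj.trans (hj y hy.1.1 (by rwa [dist_comm])).symm⟩
  have c2 : IsClosed (N0 \ ZB) := by
    refine isClosed_of_closure_subset fun x hx => ?_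
    have hxN : x ∈ N0 := hN0c.closure_subset_iff.2 sdiff_subset hx
    obtain ⟨δ, hδ, hj⟩ := hloc x (hN0O hxN)
    obtain ⟨y, hy, hyd⟩ := Metric.mem_closure_iff.1 hx δ hδ
    refine ⟨hxN, fun hxZ => hy.2 ?_⟩
    obtain ⟨p, hpO, hp0, hpj⟩ := hxZ
    exact ⟨p, hpO, hp0, hpj.trans (hj y hy.1.1 (by rwa [dist_comm]))⟩
  set Pm : Set (Fin 2 → ℝ) := (N0 ∩ ZB) ∪ Lf with hPm
  set Pp : Set (Fin 2 → ℝ) := (N0 \ ZB) ∪ Rt with hPp
  have hPmc : IsClosed Pm := c1.union hLfc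
  have hPpc : IsClosed Pp := c2.union hRtc
  have hPmne : Pm.Nonempty := ⟨fun _ => 0, Or.inr ⟨⟨fun _ => le_rfl, fun _ => zero_le_one⟩, rfl⟩⟩
  have hPpne : Pp.Nonempty := ⟨fun _ => 1, Or.inr ⟨⟨fun _ => zero_le_one, fun _ => le_rfl⟩, rfl⟩⟩
  have hdisP : ∀ p, p ∈ Pm → p ∉ Pp := by
    rintro p (⟨hpN, hpZ⟩ | hpL) (⟨_, hpZ'⟩ | hpR)
    · exact hpZ' hpZ
    · obtain ⟨p', hpO, hp0, hpj⟩ := hpZ
      exact hcon p' p hp0 hpR.2 hpj
    · exact hpZ' ⟨p, hN0O ‹_›, hpL.2, JoinedIn.refl (hN0O ‹_›)⟩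
    · have := hpL.2.symm.trans hpR.2
      norm_num at this
  set g : (Fin 2 → ℝ) → ℝ := fun p => infDist p Pm - infDist p Pp with hg
  have cg : Continuous g := (continuous_infDist_pt _).sub (continuous_infDist_pt _)
  have gm : ∀ p ∈ Pm, g p < 0 := by
    intro p hp
    have h1 : infDist p Pm = 0 := infDist_zero_of_mem hp
    have h2 : 0 < infDist p Pp := (hPpc.notMem_iff_infDist_pos hPpne).1 (hdisP p hp)
    simp only [hg]; linarith
  have gp : ∀ p ∈ Pp, 0 < g p := by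
    intro p hp
    have h1 : infDist p Pp = 0 := infDist_zero_of_mem hp
    have h2 : 0 < infDist p Pm := (hPmc.notMem_iff_infDist_pos hPmne).1 fun h => hdisP p h hp
    simp only [hg]; linarith
  obtain ⟨p, hp, hfp, hgp⟩ := pvxb_pm f g cf.continuousOn cg.continuousOn
    (fun p hp h0 => gm p (Or.inr ⟨hp, h0⟩)) (fun p hp h1 => gp p (Or.inr ⟨hp, h1⟩))
    (fun p hp h0 => fAl p hp (hbot p hp h0)) (fun p hp h1 => fAu p hp (htop p hp h1))
  have hpN : p ∈ N0 := ⟨hp, hfp⟩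
  by_cases hpZ : p ∈ ZB
  · have := gm p (Or.inl ⟨hpN, hpZ⟩); rw [hgp] at this; exact lt_irrefl _ this
  · have := gp p (Or.inl ⟨hpN, hpZ⟩); rw [hgp] at this; exact lt_irrefl _ this

/-! ## 2. the abstract exploration and the record of the geometry -/

/-- the bottom arc `ψ⁻¹ [x, 1]` -/
def pvxbBot (D : Set ℂ) (d : ℂ) (ψ : ℂ → ℂ) (x : ℝ) : Set ℂ := {z | z ∈ frontier D ∧ z ≠ d ∧ x ≤ (ψ z).re ∧ (ψ z).re ≤ 1}

/-- the top arc `{d} ∪ ψ⁻¹ (-∞, 0]` -/
def pvxbTop (D : Set ℂ) (d : ℂ) (ψ : ℂ → ℂ) : Set ℂ := {z | z = d ∨ (z ∈ frontier D ∧ z ≠ d ∧ (ψ z).re ≤ 0)}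

/-- contract HEX (helper285): closed sets `B`, `W` covering `closure D` -/
def PvxbHex (D : Set ℂ) (d : ℂ) (ψ : ℂ → ℂ) (x : ℝ) : Prop :=
  ∀ B W : Set ℂ, IsClosed B → IsClosed W → closure D ⊆ B ∪ W →
    (∃ S ⊆ B ∩ closure D, IsConnected S ∧ (S ∩ pvArcL D d ψ x).Nonempty ∧ (S ∩ pvArcR D d ψ).Nonempty) ∨
    (∃ S ⊆ W ∩ closure D, IsCompact S ∧ IsConnected S ∧ (S ∩ pvxbBot D d ψ x).Nonempty ∧ (S ∩ pvxbTop D d ψ).Nonempty)

/-- contract TOPG (helper51): a path from the left arc to the right arc meets every preconnected set joining the two other arcs -/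
def PvxbTopG (D : Set ℂ) (d : ℂ) (ψ : ℂ → ℂ) (x : ℝ) : Prop :=
  ∀ σ : ℝ → ℂ, ContinuousOn σ (Icc 0 1) → (∀ t ∈ Icc (0 : ℝ) 1, σ t ∈ closure D) → σ 0 ∈ pvArcL D d ψ x → σ 1 ∈ pvArcR D d ψ →
    ∀ S : Set ℂ, IsPreconnected S → S ⊆ closure D → (S ∩ pvxbBot D d ψ x).Nonempty → (S ∩ pvxbTop D d ψ).Nonempty → ∃ t ∈ Icc (0 : ℝ) 1, σ t ∈ S

variable {ι : Type*}

/-- a seed: a free site whose cell touches the cell of a bottom site -/
def pvxbSeed (cell : ι → Set ℂ) (V NB : Set ι) (s : ι) : Prop := s ∈ V ∧ ∃ u ∈ NB, (cell s ∩ cell u).Nonempty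

/-- the explored white cluster -/
def pvxbW (cell : ι → Set ℂ) (V NB : Set ι) (c : ι → Bool) : Set ι :=
  {w | ∃ s, pvxbSeed cell V NB s ∧ c s = false ∧ Relation.ReflTransGen (fun a b => b ∈ V ∧ c b = false ∧ (cell a ∩ cell b).Nonempty) s w}

/-- its black boundary (the BANK lives here) -/
def pvxbB (cell : ι → Set ℂ) (V NB : Set ι) (c : ι → Bool) : Set ι :=
  {b | b ∈ V ∧ c b = true ∧ (pvxbSeed cell V NB b ∨ ∃ w ∈ pvxbW cell V NB c, (cell b ∩ cell w).Nonempty)}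

/-- the record of the deterministic geometry: four closed zones, five finite classes of sites -/
structure PvxbGeo (D : Set ℂ) (d : ℂ) (ψ : ℂ → ℂ) (x : ℝ) (Ab At ZL ZR ZB ZT : Set ℂ) (cell : ι → Set ℂ) (NL NR NB NT V : Set ι) : Prop where
  arcs : (Ab = pvxbBot D d ψ x ∧ At = pvxbTop D d ψ) ∨ (Ab = pvxbTop D d ψ ∧ At = pvxbBot D d ψ x)
  fin : (NL ∪ NR ∪ NB ∪ NT ∪ V).Finite
  cellClosed : ∀ i, IsClosed (cell i)
  cellConn : ∀ i, IsPreconnected (cell i)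
  zLc : IsClosed ZL
  zRc : IsClosed ZR
  zBc : IsClosed ZB
  zTc : IsClosed ZT
  zBconn : IsPreconnected ZB
  zTconn : IsPreconnected ZT
  zBsub : ZB ⊆ closure D
  zTsub : ZT ⊆ closure D
  cover : closure D ⊆ ZL ∪ ZR ∪ ZB ∪ ZT ∪ ⋃ i ∈ NL ∪ NR ∪ NB ∪ NT ∪ V, cell i
  freeSub : ∀ v ∈ V, cell v ⊆ D
  freeZone : ∀ v ∈ V, Disjoint (cell v) (ZL ∪ ZR ∪ ZB ∪ ZT)
  nbMeets : ∀ u ∈ NB, (cell u ∩ ZB).Nonempty
  ntMeets : ∀ u ∈ NT, (cell u ∩ ZT).Nonempty
  nbSub : ∀ u ∈ NB, (∃ v ∈ V, (cell v ∩ cell u).Nonempty) → cell u ⊆ closure D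
  ntSub : ∀ u ∈ NT, (∃ v ∈ V, (cell v ∩ cell u).Nonempty) → cell u ⊆ closure D
  sepBT : Disjoint (ZB ∪ ⋃ u ∈ NB, cell u) (ZT ∪ ⋃ u ∈ NT, cell u)
  botIn : (ZB ∩ Ab).Nonempty
  topIn : (ZT ∩ At).Nonempty
  botY : Disjoint (ZT ∪ ⋃ u ∈ NT, cell u) Ab
  topY : Disjoint (ZB ∪ ⋃ u ∈ NB, cell u) At
  sepLR : Disjoint (ZL ∪ ⋃ u ∈ NL, cell u) (ZR ∪ ⋃ u ∈ NR, cell u)
  arcLR : Disjoint (ZR ∪ ⋃ u ∈ NR, cell u) (pvArcL D d ψ x)
  arcRL : Disjoint (ZL ∪ ⋃ u ∈ NL, cell u) (pvArcR D d ψ)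

theorem pvxb_eqns_cite : True := by
  have := @pvxbBot.eq_1; have := @pvxbTop.eq_1; have := @PvxbHex.eq_1; have := @PvxbTopG.eq_1
  have := @pvxbSeed.eq_1.{0}; have := @pvxbW.eq_1.{0}; have := @pvxbB.eq_1.{0}
  trivial

variable {D : Set ℂ} {d : ℂ} {ψ : ℂ → ℂ} {x : ℝ} {Ab At ZL ZR ZB ZT : Set ℂ} {cell : ι → Set ℂ} {NL NR NB NT V : Set ι}

theorem pvxb_W_sub (c : ι → Bool) {w : ι} (hw : w ∈ pvxbW cell V NB c) : w ∈ V ∧ c w = false := by
  obtain ⟨s, hs, hcs, hch⟩ := hw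
  rcases Relation.ReflTransGen.cases_tail hch with h | ⟨b, _, hb⟩
  · subst h; exact ⟨hs.1, hcs⟩
  · exact ⟨hb.1, hb.2.1⟩

/-- a free site touching the explored white cluster is explored -/
theorem pvxb_W_nbr (c : ι → Bool) {w v : ι} (hw : w ∈ pvxbW cell V NB c) (hv : v ∈ V) (hwv : (cell w ∩ cell v).Nonempty) :
    v ∈ pvxbW cell V NB c ∪ pvxbB cell V NB c := by
  cases hc : c v
  · obtain ⟨s, hs, hcs, hch⟩ := hw
    exact Or.inl ⟨s, hs, hcs, hch.tail ⟨hv, hc, hwv⟩⟩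
  · exact Or.inr ⟨hv, hc, Or.inr ⟨w, hw, by rwa [inter_comm]⟩⟩

/-- a seed is explored -/
theorem pvxb_seed_mem (c : ι → Bool) {v : ι} (hv : pvxbSeed cell V NB v) : v ∈ pvxbW cell V NB c ∪ pvxbB cell V NB c := by
  cases hc : c v
  · exact Or.inl ⟨v, hv, hc, Relation.ReflTransGen.refl⟩
  · exact Or.inr ⟨hv.1, hc, Or.inl hv⟩

/-! ## 3. BLOCK -/

/-- the connected set swept by the explored white cluster -/
theorem pvxb_block_aux (G : PvxbGeo D d ψ x Ab At ZL ZR ZB ZT cell NL NR NB NT V) (c : ι → Bool)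
    {σ : ℝ → ℂ} (hZ : ∀ t ∈ Icc (0 : ℝ) 1, σ t ∉ ZB ∪ ZT) (hN : ∀ t ∈ Icc (0 : ℝ) 1, ∀ u ∈ NB ∪ NT, σ t ∉ cell u)
    (hW : ∀ t ∈ Icc (0 : ℝ) 1, ∀ v ∈ V, c v = false → σ t ∉ cell v)
    {w : ι} (hw : w ∈ pvxbW cell V NB c) :
    ∃ S : Set ℂ, IsPreconnected S ∧ S ⊆ closure D ∧ ZB ⊆ S ∧ cell w ⊆ S ∧ ∀ t ∈ Icc (0 : ℝ) 1, σ t ∉ S := by
  obtain ⟨s, ⟨hsV, uB, huB, hsu⟩, hcs, hch⟩ := hw
  induction hch with
  | refl =>
    refine ⟨ZB ∪ cell uB ∪ cell s, ?_, ?_, ?_, subset_union_right, ?_⟩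
    · obtain ⟨y, hy1, hy2⟩ := G.nbMeets uB huB
      obtain ⟨y', hy1', hy2'⟩ := hsu
      exact (G.zBconn.union y hy2 hy1 (G.cellConn uB)).union y' (Or.inr hy2') hy1' (G.cellConn s)
    · exact union_subset (union_subset G.zBsub (G.nbSub uB huB ⟨s, hsV, hsu⟩)) ((G.freeSub s hsV).trans subset_closure)
    · exact fun z hz => Or.inl (Or.inl hz)
    · rintro t ht ((h | h) | h)
      · exact hZ t ht (Or.inl h)
      · exact hN t ht uB (Or.inl huB) h
      · exact hW t ht s hsV hcs h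
  | @tail a b _ hab ih =>
    obtain ⟨S, hS1, hS2, hS3, hS4, hS5⟩ := ih
    obtain ⟨y, hy1, hy2⟩ := hab.2.2
    refine ⟨S ∪ cell b, hS1.union y (hS4 hy1) hy2 (G.cellConn b), union_subset hS2 ((G.freeSub b hab.1).trans subset_closure),
      hS3.trans subset_union_left, subset_union_right, ?_⟩
    rintro t ht (h | h)
    · exact hS5 t ht h
    · exact hW t ht b hab.1 hab.2.1 h

/-- **BLOCK**: a path from the left arc to the right arc which avoids the bottom and top zones, the cells of the bottom and top sites and the white free cells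
prevents the explored white cluster from touching the top sites -/
theorem pvxb_block (G : PvxbGeo D d ψ x Ab At ZL ZR ZB ZT cell NL NR NB NT V) (hT : PvxbTopG D d ψ x) (c : ι → Bool)
    {σ : ℝ → ℂ} (hσ : ContinuousOn σ (Icc 0 1)) (hσK : ∀ t ∈ Icc (0 : ℝ) 1, σ t ∈ closure D) (h0 : σ 0 ∈ pvArcL D d ψ x) (h1 : σ 1 ∈ pvArcR D d ψ)
    (hZ : ∀ t ∈ Icc (0 : ℝ) 1, σ t ∉ ZB ∪ ZT) (hN : ∀ t ∈ Icc (0 : ℝ) 1, ∀ u ∈ NB ∪ NT, σ t ∉ cell u)
    (hW : ∀ t ∈ Icc (0 : ℝ) 1, ∀ v ∈ V, c v = false → σ t ∉ cell v)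
    {w u : ι} (hw : w ∈ pvxbW cell V NB c) (hu : u ∈ NT) : ¬ (cell w ∩ cell u).Nonempty := by
  intro hwu
  obtain ⟨S, hS1, hS2, hS3, hS4, hS5⟩ := pvxb_block_aux G c hZ hN hW hw
  obtain ⟨y, hy1, hy2⟩ := hwu
  obtain ⟨y', hy1', hy2'⟩ := G.ntMeets u hu
  have hS' : IsPreconnected (S ∪ cell u ∪ ZT) := (hS1.union y (hS4 hy1) hy2 (G.cellConn u)).union y' (Or.inr hy1') hy2' G.zTconn
  have hsub : S ∪ cell u ∪ ZT ⊆ closure D :=
    union_subset (union_subset hS2 (G.ntSub u hu ⟨w, (pvxb_W_sub c hw).1, y, hy1, hy2⟩)) G.zTsub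
  obtain ⟨b, hb1, hb2⟩ := G.botIn
  obtain ⟨a, ha1, ha2⟩ := G.topIn
  have hmeet : ∃ t ∈ Icc (0 : ℝ) 1, σ t ∈ S ∪ cell u ∪ ZT := by
    rcases G.arcs with ⟨e1, e2⟩ | ⟨e1, e2⟩
    · rw [e1] at hb2; rw [e2] at ha2
      exact hT σ hσ hσK h0 h1 _ hS' hsub ⟨b, Or.inl (Or.inl (hS3 hb1)), hb2⟩ ⟨a, Or.inr ha1, ha2⟩
    · rw [e1] at hb2; rw [e2] at ha2
      exact hT σ hσ hσK h0 h1 _ hS' hsub ⟨a, Or.inr ha1, ha2⟩ ⟨b, Or.inl (Or.inl (hS3 hb1)), hb2⟩
  obtain ⟨t, ht, hts⟩ := hmeet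
  rcases hts with (h | h) | h
  · exact hS5 t ht h
  · exact hN t ht u (Or.inr hu) h
  · exact hZ t ht (Or.inr h)

/-! ## 4. the two closed sets `Ybot`, `Ytop` -/

/-- bottom zone, cells of the bottom sites, cells of the explored white cluster -/
def pvxbYb (ZB : Set ℂ) (cell : ι → Set ℂ) (V NB : Set ι) (c : ι → Bool) : Set ℂ :=
  ZB ∪ (⋃ u ∈ NB, cell u) ∪ ⋃ w ∈ pvxbW cell V NB c, cell w

/-- top zone, cells of the top sites, cells of the unexplored free sites -/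
def pvxbYt (ZT : Set ℂ) (cell : ι → Set ℂ) (V NB NT : Set ι) (c : ι → Bool) : Set ℂ :=
  ZT ∪ (⋃ u ∈ NT, cell u) ∪ ⋃ v ∈ V \ (pvxbW cell V NB c ∪ pvxbB cell V NB c), cell v

/-- left and right zones, cells of their sites, cells of the black boundary -/
def pvxbYk (ZL ZR : Set ℂ) (cell : ι → Set ℂ) (V NL NR NB : Set ι) (c : ι → Bool) : Set ℂ :=
  (ZL ∪ ⋃ u ∈ NL, cell u) ∪ (ZR ∪ ⋃ u ∈ NR, cell u) ∪ ⋃ b ∈ pvxbB cell V NB c, cell b

theorem pvxb_eqns_cite2 : True := by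
  have := @pvxbYb.eq_1.{0}; have := @pvxbYt.eq_1.{0}; have := @pvxbYk.eq_1.{0}
  trivial

theorem pvxb_fin_sub (G : PvxbGeo D d ψ x Ab At ZL ZR ZB ZT cell NL NR NB NT V) {A : Set ι} (hA : A ⊆ NL ∪ NR ∪ NB ∪ NT ∪ V) :
    IsClosed (⋃ i ∈ A, cell i) := (G.fin.subset hA).isClosed_biUnion fun i _ => G.cellClosed i

theorem pvxb_Yb_closed (G : PvxbGeo D d ψ x Ab At ZL ZR ZB ZT cell NL NR NB NT V) (c : ι → Bool) : IsClosed (pvxbYb ZB cell V NB c) :=
  (G.zBc.union (pvxb_fin_sub G fun _ hi => Or.inl (Or.inl (Or.inr hi)))).union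
    (pvxb_fin_sub G fun _ hi => Or.inr (pvxb_W_sub c hi).1)

theorem pvxb_Yt_closed (G : PvxbGeo D d ψ x Ab At ZL ZR ZB ZT cell NL NR NB NT V) (c : ι → Bool) : IsClosed (pvxbYt ZT cell V NB NT c) :=
  (G.zTc.union (pvxb_fin_sub G fun _ hi => Or.inl (Or.inr hi))).union (pvxb_fin_sub G fun _ hi => Or.inr hi.1)

theorem pvxb_Yk_closed (G : PvxbGeo D d ψ x Ab At ZL ZR ZB ZT cell NL NR NB NT V) (c : ι → Bool) : IsClosed (pvxbYk ZL ZR cell V NL NR NB c) :=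
  ((G.zLc.union (pvxb_fin_sub G fun _ hi => Or.inl (Or.inl (Or.inl (Or.inl hi))))).union
    (G.zRc.union (pvxb_fin_sub G fun _ hi => Or.inl (Or.inl (Or.inl (Or.inr hi)))))).union (pvxb_fin_sub G fun _ hi => Or.inr hi.1)

theorem pvxb_cover (G : PvxbGeo D d ψ x Ab At ZL ZR ZB ZT cell NL NR NB NT V) (c : ι → Bool) :
    closure D ⊆ pvxbYk ZL ZR cell V NL NR NB c ∪ (pvxbYb ZB cell V NB c ∪ pvxbYt ZT cell V NB NT c) := by
  intro z hz
  rcases G.cover hz with (((h | h) | h) | h) | h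
  · exact Or.inl (Or.inl (Or.inl (Or.inl h)))
  · exact Or.inl (Or.inl (Or.inr (Or.inl h)))
  · exact Or.inr (Or.inl (Or.inl (Or.inl h)))
  · exact Or.inr (Or.inr (Or.inl (Or.inl h)))
  · obtain ⟨i, hi, hzi⟩ := mem_iUnion₂.1 h
    rcases hi with (((hi | hi) | hi) | hi) | hi
    · exact Or.inl (Or.inl (Or.inl (Or.inr (mem_iUnion₂.2 ⟨i, hi, hzi⟩))))
    · exact Or.inl (Or.inl (Or.inr (Or.inr (mem_iUnion₂.2 ⟨i, hi, hzi⟩))))
    · exact Or.inr (Or.inl (Or.inl (Or.inr (mem_iUnion₂.2 ⟨i, hi, hzi⟩))))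
    · exact Or.inr (Or.inr (Or.inl (Or.inr (mem_iUnion₂.2 ⟨i, hi, hzi⟩))))
    · by_cases h1 : i ∈ pvxbW cell V NB c
      · exact Or.inr (Or.inl (Or.inr (mem_iUnion₂.2 ⟨i, h1, hzi⟩)))
      · by_cases h2 : i ∈ pvxbB cell V NB c
        · exact Or.inl (Or.inr (mem_iUnion₂.2 ⟨i, h2, hzi⟩))
        · exact Or.inr (Or.inr (Or.inr (mem_iUnion₂.2 ⟨i, ⟨hi, fun h => h.elim h1 h2⟩, hzi⟩)))

/-- `Ybot` and `Ytop` are disjoint as soon as the explored white cluster does not touch the top sites -/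
theorem pvxb_disj (G : PvxbGeo D d ψ x Ab At ZL ZR ZB ZT cell NL NR NB NT V) (c : ι → Bool)
    (hbl : ∀ w ∈ pvxbW cell V NB c, ∀ u ∈ NT, ¬ (cell w ∩ cell u).Nonempty) :
    Disjoint (pvxbYb ZB cell V NB c) (pvxbYt ZT cell V NB NT c) := by
  rw [Set.disjoint_left]
  rintro z (hb | hb) (ht | ht)
  · exact Set.disjoint_left.1 G.sepBT hb ht
  · obtain ⟨v, hv, hzv⟩ := mem_iUnion₂.1 ht
    rcases hb with hb | hb
    · exact Set.disjoint_left.1 (G.freeZone v hv.1) hzv (Or.inl (Or.inr hb))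
    · obtain ⟨u, hu, hzu⟩ := mem_iUnion₂.1 hb
      exact hv.2 (pvxb_seed_mem c ⟨hv.1, u, hu, z, hzv, hzu⟩)
  · obtain ⟨w, hw, hzw⟩ := mem_iUnion₂.1 hb
    rcases ht with ht | ht
    · exact Set.disjoint_left.1 (G.freeZone w (pvxb_W_sub c hw).1) hzw (Or.inr ht)
    · obtain ⟨u, hu, hzu⟩ := mem_iUnion₂.1 ht
      exact hbl w hw u hu ⟨z, hzw, hzu⟩
  · obtain ⟨w, hw, hzw⟩ := mem_iUnion₂.1 hb
    obtain ⟨v, hv, hzv⟩ := mem_iUnion₂.1 ht
    exact hv.2 (pvxb_W_nbr c hw hv.1 ⟨z, hzw, hzv⟩)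

theorem pvxb_free_frontier (hD : IsOpen D) (G : PvxbGeo D d ψ x Ab At ZL ZR ZB ZT cell NL NR NB NT V) {v : ι} (hv : v ∈ V) {z : ℂ} (hz : z ∈ cell v) :
    z ∉ frontier D := fun h => by
  have h1 := G.freeSub v hv hz
  rw [hD.frontier_eq] at h
  exact h.2 h1

/-- **the black connected set**: by HEX, a connected subset of `Yk ∩ closure D` joins the left arc to the right arc -/
theorem pvxb_black (h : PvChart D d ψ) (G : PvxbGeo D d ψ x Ab At ZL ZR ZB ZT cell NL NR NB NT V) (hH : PvxbHex D d ψ x) (c : ι → Bool)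
    (hbl : ∀ w ∈ pvxbW cell V NB c, ∀ u ∈ NT, ¬ (cell w ∩ cell u).Nonempty) :
    ∃ S ⊆ pvxbYk ZL ZR cell V NL NR NB c ∩ closure D, IsConnected S ∧ (S ∩ pvArcL D d ψ x).Nonempty ∧ (S ∩ pvArcR D d ψ).Nonempty := by
  rcases hH _ _ (pvxb_Yk_closed G c) ((pvxb_Yb_closed G c).union (pvxb_Yt_closed G c)) (pvxb_cover G c) with h1 | ⟨S, hS, _, hSc, ⟨b, hbS, hb⟩, ⟨a, haS, ha⟩⟩
  · exact h1
  · exfalso
    have hfr : ∀ z, z ∈ pvxbTop D d ψ → z ∈ frontier D := by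
      rintro z (rfl | hz)
      · exact h.hd
      · exact hz.1
    obtain ⟨b', hbS', hb', hbf, a', haS', ha', haf⟩ : ∃ b', b' ∈ S ∧ b' ∈ Ab ∧ b' ∈ frontier D ∧ ∃ a', a' ∈ S ∧ a' ∈ At ∧ a' ∈ frontier D := by
      rcases G.arcs with ⟨e1, e2⟩ | ⟨e1, e2⟩
      · exact ⟨b, hbS, e1 ▸ hb, hb.1, a, haS, e2 ▸ ha, hfr a ha⟩
      · exact ⟨a, haS, e1 ▸ ha, hfr a ha, b, hbS, e2 ▸ hb, hb.1⟩
    rcases isPreconnected_iff_subset_of_disjoint_closed.1 hSc.isPreconnected _ _ (pvxb_Yb_closed G c) (pvxb_Yt_closed G c)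
      (fun z hz => (hS hz).1) (by rw [(pvxb_disj G c hbl).inter_eq, inter_empty]) with h2 | h2
    · rcases h2 haS' with h3 | h3
      · exact Set.disjoint_left.1 G.topY h3 ha'
      · obtain ⟨w, hw, hzw⟩ := mem_iUnion₂.1 h3
        exact pvxb_free_frontier h.isOpen G (pvxb_W_sub c hw).1 hzw haf
    · rcases h2 hbS' with h3 | h3
      · exact Set.disjoint_left.1 G.botY h3 hb'
      · obtain ⟨v, hv, hzv⟩ := mem_iUnion₂.1 h3
        exact pvxb_free_frontier h.isOpen G hv.1 hzv hbf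

/-! ## 5. the nerve: THE BANK -/

/-- the closed cover of the black connected set: left block, right block, cells of the black boundary -/
def pvxbCov (ZL ZR : Set ℂ) (cell : ι → Set ℂ) (NL NR : Set ι) (Bc : Set ι) : Bool ⊕ Bc → Set ℂ
  | Sum.inl true => ZL ∪ ⋃ u ∈ NL, cell u
  | Sum.inl false => ZR ∪ ⋃ u ∈ NR, cell u
  | Sum.inr b => cell b.1

theorem pvxb_eqns_cite3 : True := by
  have := @pvxbCov.eq_1.{0}; have := @pvxbCov.eq_2.{0}; have := @pvxbCov.eq_3.{0}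
  trivial

/-- **THE BANK** (abstract form): a chain inside the black boundary `B(c)` of the explored white cluster, from a site touching a left site to a site touching a right site -/
theorem pvxb_bank (h : PvChart D d ψ) (G : PvxbGeo D d ψ x Ab At ZL ZR ZB ZT cell NL NR NB NT V) (hH : PvxbHex D d ψ x) (c : ι → Bool)
    (hbl : ∀ w ∈ pvxbW cell V NB c, ∀ u ∈ NT, ¬ (cell w ∩ cell u).Nonempty) :
    ∃ eL eR : ι, eL ∈ pvxbB cell V NB c ∧ (∃ u ∈ NL, (cell eL ∩ cell u).Nonempty) ∧ (∃ u ∈ NR, (cell eR ∩ cell u).Nonempty) ∧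
      Relation.ReflTransGen (fun a b => b ∈ pvxbB cell V NB c ∧ (cell a ∩ cell b).Nonempty) eL eR := by
  obtain ⟨S, hS, hSc, ⟨p, hpS, hp⟩, ⟨q, hqS, hq⟩⟩ := pvxb_black h G hH c hbl
  set Bc := pvxbB cell V NB c with hBc
  have hBfin : Bc.Finite := G.fin.subset fun i hi => Or.inr hi.1
  have : Finite Bc := hBfin.to_subtype
  set C := pvxbCov ZL ZR cell NL NR Bc with hC
  have hCc : ∀ i, IsClosed (C i) := by
    rintro (b | b)
    · cases b
      · exact G.zRc.union (pvxb_fin_sub G fun _ hi => Or.inl (Or.inl (Or.inl (Or.inr hi))))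
      · exact G.zLc.union (pvxb_fin_sub G fun _ hi => Or.inl (Or.inl (Or.inl (Or.inl hi))))
    · exact G.cellClosed _
  have hSs : S ⊆ (⋃ i, C i) ∩ univ := by
    intro z hz
    refine ⟨?_, mem_univ _⟩
    rcases (hS hz).1 with (h1 | h1) | h1
    · exact mem_iUnion.2 ⟨Sum.inl true, h1⟩
    · exact mem_iUnion.2 ⟨Sum.inl false, h1⟩
    · obtain ⟨b, hb, hzb⟩ := mem_iUnion₂.1 h1
      exact mem_iUnion.2 ⟨Sum.inr ⟨b, hb⟩, hzb⟩
  obtain ⟨i, j, hi, hj, hch⟩ := rsw_chain_of_connected hCc hSc.isPreconnected hSs hpS hqS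
  have hfrR : ∀ z, z ∈ pvArcR D d ψ → z ∈ frontier D := by
    rintro z (rfl | hz)
    · exact h.hd
    · exact hz.1
  have hi' : i = Sum.inl true := by
    rcases i with (b | b)
    · cases b
      · exact absurd hp (Set.disjoint_left.1 G.arcLR hi.1)
      · rfl
    · exact absurd hp.1 (pvxb_free_frontier h.isOpen G b.2.1 hi.1)
  have hj' : j = Sum.inl false := by
    rcases j with (b | b)
    · cases b
      · rfl
      · exact absurd hq (Set.disjoint_left.1 G.arcRL hj.1)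
    · exact absurd (hfrR q hq) (pvxb_free_frontier h.isOpen G b.2.1 hj.1)
  subst hi' hj'
  set R : ι → ι → Prop := fun a b => b ∈ Bc ∧ (cell a ∩ cell b).Nonempty with hR
  set Goal : Prop := ∃ eL eR : ι, eL ∈ Bc ∧ (cell eL ∩ (ZL ∪ ⋃ u ∈ NL, cell u)).Nonempty ∧ (cell eR ∩ (ZR ∪ ⋃ u ∈ NR, cell u)).Nonempty ∧
    Relation.ReflTransGen R eL eR with hGoal
  have inv : ∀ k : Bool ⊕ Bc, Relation.ReflTransGen (fun i j => (C i ∩ C j ∩ univ).Nonempty) (Sum.inl true) k →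
      Goal ∨ (match k with
        | Sum.inl true => True
        | Sum.inl false => False
        | Sum.inr b => ∃ eL : ι, eL ∈ Bc ∧ (cell eL ∩ (ZL ∪ ⋃ u ∈ NL, cell u)).Nonempty ∧ Relation.ReflTransGen R eL b.1) := by
    intro k hk
    induction hk with
    | refl => exact Or.inr trivial
    | @tail a b _ hab ih =>
      rcases ih with ih | ih
      · exact Or.inl ih
      · obtain ⟨z, ⟨hza, hzb⟩, _⟩ := hab
        rcases b with (b | b)
        · cases b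
          · rcases a with (a | a)
            · cases a
              · exact ih.elim
              · exact absurd hzb (Set.disjoint_left.1 G.sepLR hza)
            · obtain ⟨eL, h1, h2, h3⟩ := ih
              exact Or.inl ⟨eL, a.1, h1, h2, ⟨z, hza, hzb⟩, h3⟩
          · exact Or.inr trivial
        · rcases a with (a | a)
          · cases a
            · exact ih.elim
            · exact Or.inr ⟨b.1, b.2, ⟨z, hzb, hza⟩, Relation.ReflTransGen.refl⟩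
          · obtain ⟨eL, h1, h2, h3⟩ := ih
            exact Or.inr ⟨eL, h1, h2, h3.tail ⟨b.2, z, hza, hzb⟩⟩
  have hG : Goal := by
    rcases inv _ hch with h1 | h1
    · exact h1
    · exact h1.elim
  obtain ⟨eL, eR, h1, ⟨z, hz1, hz2⟩, ⟨z', hz1', hz2'⟩, h4⟩ := hG
  have heR : eR ∈ Bc := by
    rcases Relation.ReflTransGen.cases_tail h4 with h5 | ⟨b, _, hb⟩
    · rw [h5]; exact h1
    · exact hb.1
  refine ⟨eL, eR, h1, ?_, ?_, h4⟩
  · rcases hz2 with hz2 | hz2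
    · exact absurd (Or.inl (Or.inl (Or.inl hz2))) (Set.disjoint_left.1 (G.freeZone eL h1.1) hz1)
    · obtain ⟨u, hu, hzu⟩ := mem_iUnion₂.1 hz2
      exact ⟨u, hu, z, hz1, hzu⟩
  · rcases hz2' with hz2' | hz2'
    · exact absurd (Or.inl (Or.inl (Or.inr hz2'))) (Set.disjoint_left.1 (G.freeZone eR heR.1) hz1')
    · obtain ⟨u, hu, hzu⟩ := mem_iUnion₂.1 hz2'
      exact ⟨u, hu, z', hz1', hzu⟩

/-! ## 6. the two contracts are theorems (helper285, helper257) -/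

theorem pvxb_hex_of (h : PvChart D d ψ) (hx0 : 0 < x) (hx1 : x < 1) : PvxbHex D d ψ x := by
  intro B W hB hW hcov
  rcases pvxh_hex h hx0 hx1 hB hW hcov with ⟨S, hS, hc, ⟨z, hz, hz'⟩, ⟨w, hw, hw'⟩⟩ | ⟨S, hS, hk, hc, ⟨z, hz, hz'⟩, ⟨w, hw, hw'⟩⟩
  · exact Or.inl ⟨S, hS, hc, ⟨z, hz, hz'⟩, ⟨w, hw, hw'⟩⟩
  · exact Or.inr ⟨S, hS, hk, hc, ⟨z, hz, hz'⟩, ⟨w, hw, hw'⟩⟩

theorem pvxb_topg_of (h : PvChart D d ψ) (hx0 : 0 < x) (hx1 : x < 1) : PvxbTopG D d ψ x := by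
  rintro σ hσ hσK h0 h1 S hS hSK ⟨z, hz, hz'⟩ ⟨w, hw, hw'⟩
  exact pvxt_topg h hx0 hx1 hσ hσK h0 h1 hS hSK ⟨z, hz, hz'⟩ ⟨w, hw, hw'⟩

/-- **THE BANK**, no contract left: the record of the geometry and ONE path from the left arc to the right arc off the bottom / top zones and sites and off the white free cells -/
theorem pvxb_bank_path (h : PvChart D d ψ) (hx0 : 0 < x) (hx1 : x < 1) (G : PvxbGeo D d ψ x Ab At ZL ZR ZB ZT cell NL NR NB NT V) (c : ι → Bool)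
    {σ : ℝ → ℂ} (hσ : ContinuousOn σ (Icc 0 1)) (hσK : ∀ t ∈ Icc (0 : ℝ) 1, σ t ∈ closure D) (h0 : σ 0 ∈ pvArcL D d ψ x) (h1 : σ 1 ∈ pvArcR D d ψ)
    (hZ : ∀ t ∈ Icc (0 : ℝ) 1, σ t ∉ ZB ∪ ZT) (hN : ∀ t ∈ Icc (0 : ℝ) 1, ∀ u ∈ NB ∪ NT, σ t ∉ cell u)
    (hW : ∀ t ∈ Icc (0 : ℝ) 1, ∀ v ∈ V, c v = false → σ t ∉ cell v) :
    ∃ eL eR : ι, eL ∈ pvxbB cell V NB c ∧ (∃ u ∈ NL, (cell eL ∩ cell u).Nonempty) ∧ (∃ u ∈ NR, (cell eR ∩ cell u).Nonempty) ∧
      Relation.ReflTransGen (fun a b => b ∈ pvxbB cell V NB c ∧ (cell a ∩ cell b).Nonempty) eL eR :=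
  pvxb_bank h G (pvxb_hex_of h hx0 hx1) c fun _ hw _ hu => pvxb_block G (pvxb_topg_of h hx0 hx1) c hσ hσK h0 h1 hZ hN hW hw hu

/-! ## 7. the explored set `W(c) ∪ B(c)` is a STOPPING SET -/

theorem pvxb_B_sub (c : ι → Bool) {b : ι} (hb : b ∈ pvxbB cell V NB c) : b ∈ V ∧ c b = true := ⟨hb.1, hb.2.1⟩

theorem pvxb_stop_W_le {c c' : ι → Bool} (hag : ∀ v ∈ pvxbW cell V NB c ∪ pvxbB cell V NB c, c' v = c v) :
    pvxbW cell V NB c ⊆ pvxbW cell V NB c' := by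
  rintro w ⟨s, hs, hcs, hch⟩
  induction hch with
  | refl => exact ⟨s, hs, by rw [hag s (Or.inl ⟨s, hs, hcs, Relation.ReflTransGen.refl⟩), hcs], Relation.ReflTransGen.refl⟩
  | @tail a b hsa hab ih =>
    obtain ⟨s', hs', hcs', hch'⟩ := ih
    exact ⟨s', hs', hcs', hch'.tail ⟨hab.1, by rw [hag b (Or.inl ⟨s, hs, hcs, hsa.tail hab⟩), hab.2.1], hab.2.2⟩⟩

theorem pvxb_stop_W_ge {c c' : ι → Bool} (hag : ∀ v ∈ pvxbW cell V NB c ∪ pvxbB cell V NB c, c' v = c v) :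
    pvxbW cell V NB c' ⊆ pvxbW cell V NB c := by
  have key : ∀ v, v ∈ pvxbW cell V NB c ∪ pvxbB cell V NB c → c' v = false → v ∈ pvxbW cell V NB c := by
    intro v hv hc'
    rcases hv with h | h
    · exact h
    · have h1 := hag v (Or.inr h)
      rw [hc', (pvxb_B_sub c h).2] at h1
      exact absurd h1 (by simp)
  rintro w ⟨s, hs, hcs, hch⟩
  induction hch with
  | refl => exact key s (pvxb_seed_mem c hs) hcs
  | @tail a b _ hab ih => exact key b (pvxb_W_nbr c ih hab.1 hab.2.2) hab.2.1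

theorem pvxb_stop_W {c c' : ι → Bool} (hag : ∀ v ∈ pvxbW cell V NB c ∪ pvxbB cell V NB c, c' v = c v) :
    pvxbW cell V NB c' = pvxbW cell V NB c := Subset.antisymm (pvxb_stop_W_ge hag) (pvxb_stop_W_le hag)

theorem pvxb_stop_B {c c' : ι → Bool} (hag : ∀ v ∈ pvxbW cell V NB c ∪ pvxbB cell V NB c, c' v = c v) :
    pvxbB cell V NB c' = pvxbB cell V NB c := by
  have hW := pvxb_stop_W hag
  ext b
  constructor
  · rintro ⟨hbV, hcb, hb⟩
    rw [hW] at hb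
    have hmem : b ∈ pvxbW cell V NB c ∪ pvxbB cell V NB c := by
      rcases hb with hb | ⟨w, hw, hbw⟩
      · exact pvxb_seed_mem c hb
      · exact pvxb_W_nbr c hw hbV (by rwa [inter_comm])
    rcases hmem with h | h
    · have h1 := hag b (Or.inl h)
      rw [hcb, (pvxb_W_sub c h).2] at h1
      exact absurd h1 (by simp)
    · exact h
  · intro hb
    refine ⟨hb.1, by rw [hag b (Or.inr hb), hb.2.1], ?_⟩
    rw [hW]
    exact hb.2.2

open Classical in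
/-- the explored set as a `Finset` -/
noncomputable def pvxbS (cell : ι → Set ℂ) (V NB : Set ι) (hV : V.Finite) (c : ι → Bool) : Finset ι :=
  hV.toFinset.filter fun v => v ∈ pvxbW cell V NB c ∪ pvxbB cell V NB c

theorem pvxb_eqns_cite4 : True := by
  have := @pvxbS.eq_1.{0}
  trivial

theorem pvxb_mem_S (hV : V.Finite) (c : ι → Bool) {v : ι} : v ∈ pvxbS cell V NB hV c ↔ v ∈ pvxbW cell V NB c ∪ pvxbB cell V NB c := by
  classical
  rw [pvxbS, Finset.mem_filter, Set.Finite.mem_toFinset]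
  exact ⟨fun h => h.2, fun h => ⟨h.elim (fun h => (pvxb_W_sub c h).1) fun h => h.1, h⟩⟩

end Claimed.Agent.R289

namespace Claimed.Agent.R289

open Set

variable {ι : Type} {cell : ι → Set ℂ} {NL NR NB NT V : Set ι}

/-- **stopping set** -/
theorem pvxb_stop (hV : V.Finite) : PvaStop (pvxbS cell V NB hV) := by
  intro c c' hag
  have hag' : ∀ v ∈ pvxbW cell V NB c ∪ pvxbB cell V NB c, c' v = c v := fun v hv => hag v ((pvxb_mem_S hV c).2 hv)
  ext v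
  rw [pvxb_mem_S, pvxb_mem_S, pvxb_stop_W hag', pvxb_stop_B hag']

/-- every function of the two sets `W(c)`, `B(c)` is determined by the exploration -/
theorem pvxb_meas (hV : V.Finite) {β : Type} (F : Set ι → Set ι → β) :
    PvaMeas (pvxbS cell V NB hV) fun c => F (pvxbW cell V NB c) (pvxbB cell V NB c) := by
  intro c c' hag
  have hag' : ∀ v ∈ pvxbW cell V NB c ∪ pvxbB cell V NB c, c' v = c v := fun v hv => hag v ((pvxb_mem_S hV c).2 hv)
  simp only [pvxb_stop_W hag', pvxb_stop_B hag']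

/-- after mixing with ANY colouring off the explored set, the explored sets are the same -/
theorem pvxb_mix [DecidableEq ι] (hV : V.Finite) (c c₂ : ι → Bool) :
    pvxbW cell V NB (pvaMix (pvxbS cell V NB hV c) c c₂) = pvxbW cell V NB c ∧ pvxbB cell V NB (pvaMix (pvxbS cell V NB hV c) c c₂) = pvxbB cell V NB c := by
  have hag' : ∀ v ∈ pvxbW cell V NB c ∪ pvxbB cell V NB c, pvaMix (pvxbS cell V NB hV c) c c₂ v = c v := fun v hv => by
    rw [pvaMix, if_pos ((pvxb_mem_S hV c).2 hv)]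
  exact ⟨pvxb_stop_W hag', pvxb_stop_B hag'⟩

end Claimed.Agent.R289

namespace Claimed.Agent.R289

open Set Filter Topology Metric

/-! ## 8. THE INSTANCE on the vocabulary of `Ext/Defs` (helper74): frame `F`, site set `Y`, record `PvxGeo` -/

variable {D : Set ℂ} {d : ℂ} {ψ : ℂ → ℂ} {x : ℝ} {F : PvxFr} {W' AL' AR' : Set ℂ} {z1 z2 : ℂ} {τ ρ0 μ : ℝ} {Y : Set ℂ}

/-- the sites whose cell meets the left zone -/
def pvxbNL (F : PvxFr) (Y : Set ℂ) : Set ℂ := {u | u ∈ Y ∧ (vorCell Y u ∩ F.ZL).Nonempty}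

/-- the sites whose cell meets the right zone -/
def pvxbNR (F : PvxFr) (Y : Set ℂ) : Set ℂ := {u | u ∈ Y ∧ (vorCell Y u ∩ F.ZR).Nonempty}

theorem pvxb_eqns_cite5 : True := by
  have := @pvxbNL.eq_1; have := @pvxbNR.eq_1
  trivial

theorem pvxb_i_diam (hY : PvxOk Y (closure D) μ) {v : ℂ} (hv : v ∈ Y) (hm : (vorCell Y v ∩ closure D).Nonempty) {a b : ℂ}
    (ha : a ∈ vorCell Y v) (hb : b ∈ vorCell Y v) : dist a b ≤ 2 * μ := by
  have h1 := hY.mesh v hv hm ha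
  have h2 := hY.mesh v hv hm hb
  rw [mem_closedBall] at h1 h2
  have := dist_triangle_right a b v
  linarith

theorem pvxb_i_D2 (G : PvxGeo D d ψ x F W' AL' AR' z1 z2 τ ρ0 μ) : F.D2 ⊆ D := fun z hz =>
  G.D2_in z hz (mem_closedBall_self (by have := G.mu_pos; positivity))

/-- two sets at distance `> 4 μ`: the blocks (set + cells meeting it) are disjoint -/
theorem pvxb_i_sep (hY : PvxOk Y (closure D) μ) (hμ : 0 < μ) {A B : Set ℂ} (hA : A ⊆ closure D) (hB : B ⊆ closure D) (hAB : ∀ y ∈ A, ∀ z ∈ B, 4 * μ < dist y z)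
    {NA NBs : Set ℂ} (hNA : ∀ u ∈ NA, u ∈ Y ∧ (vorCell Y u ∩ A).Nonempty) (hNB : ∀ u ∈ NBs, u ∈ Y ∧ (vorCell Y u ∩ B).Nonempty) :
    Disjoint (A ∪ ⋃ u ∈ NA, vorCell Y u) (B ∪ ⋃ u ∈ NBs, vorCell Y u) := by
  rw [Set.disjoint_left]
  rintro z (hzA | hzA) (hzB | hzB)
  · have := hAB z hzA z hzB
    rw [dist_self] at this
    linarith
  · obtain ⟨u, hu, hzu⟩ := mem_iUnion₂.1 hzB
    obtain ⟨huY, y, hy1, hy2⟩ := hNB u hu
    have h1 := pvxb_i_diam hY huY ⟨y, hy1, hB hy2⟩ hzu hy1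
    have := hAB z hzA y hy2
    linarith
  · obtain ⟨u, hu, hzu⟩ := mem_iUnion₂.1 hzA
    obtain ⟨huY, y, hy1, hy2⟩ := hNA u hu
    have h1 := pvxb_i_diam hY huY ⟨y, hy1, hA hy2⟩ hy1 hzu
    have := hAB y hy2 z hzB
    linarith
  · obtain ⟨u, hu, hzu⟩ := mem_iUnion₂.1 hzA
    obtain ⟨huY, y, hy1, hy2⟩ := hNA u hu
    obtain ⟨u', hu', hzu'⟩ := mem_iUnion₂.1 hzB
    obtain ⟨huY', y', hy1', hy2'⟩ := hNB u' hu'
    have h1 := pvxb_i_diam hY huY ⟨y, hy1, hA hy2⟩ hy1 hzu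
    have h2 := pvxb_i_diam hY huY' ⟨y', hy1', hB hy2'⟩ hzu' hy1'
    have := hAB y hy2 y' hy2'
    have := dist_triangle y z y'
    linarith

/-- a set and an arc at distance `> 2 μ`: the block misses the arc -/
theorem pvxb_i_sep1 (hY : PvxOk Y (closure D) μ) (hμ : 0 < μ) {A B : Set ℂ} (hA : A ⊆ closure D) (hAB : ∀ y ∈ A, ∀ z ∈ B, 2 * μ < dist y z)
    {NA : Set ℂ} (hNA : ∀ u ∈ NA, u ∈ Y ∧ (vorCell Y u ∩ A).Nonempty) : Disjoint (A ∪ ⋃ u ∈ NA, vorCell Y u) B := by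
  rw [Set.disjoint_left]
  rintro z (hzA | hzA) hzB
  · have := hAB z hzA z hzB
    rw [dist_self] at this
    linarith
  · obtain ⟨u, hu, hzu⟩ := mem_iUnion₂.1 hzA
    obtain ⟨huY, y, hy1, hy2⟩ := hNA u hu
    have h1 := pvxb_i_diam hY huY ⟨y, hy1, hA hy2⟩ hy1 hzu
    have := hAB y hy2 z hzB
    linarith

theorem pvxb_i_frontier_zone (h : PvChart D d ψ) (G : PvxGeo D d ψ x F W' AL' AR' z1 z2 τ ρ0 μ) {p : ℂ} (hp : p ∈ frontier D) :
    p ∈ F.ZL ∪ F.ZR ∪ F.ZB ∪ F.ZT := by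
  refine G.cover ⟨frontier_subset_closure hp, fun h2 => ?_⟩
  have h3 := pvxb_i_D2 G h2
  rw [h.isOpen.frontier_eq] at hp
  exact hp.2 h3

/-- a cell which meets `D2` and none of the four zones lies in `D2` -/
theorem pvxb_i_free (G : PvxGeo D d ψ x F W' AL' AR' z1 z2 τ ρ0 μ) {v z : ℂ} (hz : z ∈ vorCell Y v) (hz2 : z ∈ F.D2)
    (hdis : Disjoint (vorCell Y v) (F.ZL ∪ F.ZR ∪ F.ZB ∪ F.ZT)) : vorCell Y v ⊆ F.D2 := by
  refine (vor_convex_cell Y v).isPreconnected.subset_left_of_subset_union G.D2_open isClosed_closure.isOpen_compl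
    (Set.disjoint_left.2 fun y hy hy' => hy' (subset_closure hy)) (fun y hy => ?_) ⟨z, hz, hz2⟩
  by_cases h1 : y ∈ F.D2
  · exact Or.inl h1
  · refine Or.inr fun h2 => ?_
    exact Set.disjoint_left.1 hdis hy (G.cover ⟨closure_mono (pvxb_i_D2 G) h2, h1⟩)

/-- **the record of `Ext/Defs` gives the abstract record** -/
theorem pvxb_inst (h : PvChart D d ψ) (G : PvxGeo D d ψ x F W' AL' AR' z1 z2 τ ρ0 μ) (hY : PvxOk Y (closure D) μ) :
    PvxbGeo D d ψ x (pvxmBot D d ψ) (pvxmTop D d ψ x) F.ZL F.ZR F.ZB F.ZT (vorCell Y) (pvxbNL F Y) (pvxbNR F Y) (F.nb Y) (F.nt Y) (F.free Y) := by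
  have hμ := G.mu_pos
  have hμρ := G.mu_small
  have hfreeD : ∀ v ∈ F.free Y, vorCell Y v ⊆ D := fun v hv => hv.2.1.trans (pvxb_i_D2 G)
  have hnb : ∀ u ∈ F.nb Y, u ∈ Y ∧ (vorCell Y u ∩ F.ZB).Nonempty := fun u hu => ⟨hu.1, hu.2.2⟩
  have hnt : ∀ u ∈ F.nt Y, u ∈ Y ∧ (vorCell Y u ∩ F.ZT).Nonempty := fun u hu => ⟨hu.1, hu.2.2⟩
  have hsub : ∀ u ∈ Y, (∃ v ∈ F.free Y, (vorCell Y v ∩ vorCell Y u).Nonempty) → vorCell Y u ⊆ closure D := by
    rintro u hu ⟨v, hv, y, hy1, hy2⟩ z hz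
    have hyD2 : y ∈ F.D2 := hv.2.1 hy1
    have h1 := pvxb_i_diam hY hu ⟨y, hy2, subset_closure (pvxb_i_D2 G hyD2)⟩ hz hy2
    exact subset_closure (G.D2_in y hyD2 (mem_closedBall.2 (by linarith)))
  refine
    { arcs := Or.inr ⟨rfl, rfl⟩
      fin := ?_
      cellClosed := vor_isClosed_cell Y
      cellConn := fun i => (vor_convex_cell Y i).isPreconnected
      zLc := G.ZL_closed
      zRc := G.ZR_closed
      zBc := G.ZB_closed
      zTc := G.ZT_closed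
      zBconn := G.ZB_conn
      zTconn := G.ZT_conn
      zBsub := G.ZB_sub
      zTsub := G.ZT_sub
      cover := ?_
      freeSub := hfreeD
      freeZone := ?_
      nbMeets := fun u hu => hu.2.2
      ntMeets := fun u hu => hu.2.2
      nbSub := fun u hu => hsub u hu.1
      ntSub := fun u hu => hsub u hu.1
      sepBT := pvxb_i_sep hY hμ G.ZB_sub G.ZT_sub (fun y hy z hz => by have := G.far_BT y hy z hz; linarith) hnb hnt
      botIn := G.ZB_arc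
      topIn := G.ZT_arc
      botY := ?_
      topY := ?_
      sepLR := pvxb_i_sep hY hμ G.ZL_sub G.ZR_sub (fun y hy z hz => by have := G.far_LR y hy z hz; linarith) (fun u hu => hu) (fun u hu => hu)
      arcLR := pvxb_i_sep1 hY hμ G.ZR_sub (fun y hy z hz => by have := G.far_arcL y hy z hz; linarith) (fun u hu => hu)
      arcRL := pvxb_i_sep1 hY hμ G.ZL_sub (fun y hy z hz => by have := G.far_arcR y hy z hz; linarith) (fun u hu => hu) }
  · refine (vor_finite_meet hY.lf h.bdd.closure).subset ?_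
    rintro u ((((hu | hu) | hu) | hu) | hu)
    · exact ⟨hu.1, hu.2.mono (inter_subset_inter_right _ G.ZL_sub)⟩
    · exact ⟨hu.1, hu.2.mono (inter_subset_inter_right _ G.ZR_sub)⟩
    · exact ⟨hu.1, hu.2.2.mono (inter_subset_inter_right _ G.ZB_sub)⟩
    · exact ⟨hu.1, hu.2.2.mono (inter_subset_inter_right _ G.ZT_sub)⟩
    · exact ⟨hu.1, u, vor_self_mem Y u, subset_closure (hfreeD u hu (vor_self_mem Y u))⟩
  · intro z hz
    by_cases hz2 : z ∈ F.D2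
    · obtain ⟨v, hv, hzv⟩ := hY.cov z
      refine Or.inr (mem_iUnion₂.2 ⟨v, ?_, hzv⟩)
      by_cases h1 : (vorCell Y v ∩ F.ZL).Nonempty
      · exact Or.inl (Or.inl (Or.inl (Or.inl ⟨hv, h1⟩)))
      by_cases h2 : (vorCell Y v ∩ F.ZR).Nonempty
      · exact Or.inl (Or.inl (Or.inl (Or.inr ⟨hv, h2⟩)))
      have h12 : Disjoint (vorCell Y v) (F.ZL ∪ F.ZR) := by
        rw [Set.disjoint_left]
        rintro y hy (hy' | hy')
        · exact h1 ⟨y, hy, hy'⟩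
        · exact h2 ⟨y, hy, hy'⟩
      by_cases h3 : (vorCell Y v ∩ F.ZB).Nonempty
      · exact Or.inl (Or.inl (Or.inr ⟨hv, h12, h3⟩))
      by_cases h4 : (vorCell Y v ∩ F.ZT).Nonempty
      · exact Or.inl (Or.inr ⟨hv, h12, h4⟩)
      refine Or.inr ⟨hv, pvxb_i_free G hzv hz2 ?_, h12⟩
      rw [Set.disjoint_left]
      rintro y hy ((hy' | hy') | hy')
      · exact Set.disjoint_left.1 h12 hy hy'
      · exact h3 ⟨y, hy, hy'⟩
      · exact h4 ⟨y, hy, hy'⟩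
    · exact Or.inl (G.cover ⟨hz, hz2⟩)
  · intro v hv
    rw [Set.disjoint_left]
    rintro y hy ((hy' | hy') | hy')
    · exact Set.disjoint_left.1 hv.2.2 hy hy'
    · exact Set.disjoint_left.1 G.ZB_D2 hy' (hv.2.1 hy)
    · exact Set.disjoint_left.1 G.ZT_D2 hy' (hv.2.1 hy)
  · -- the top block misses the bottom arc
    rw [Set.disjoint_left]
    rintro p (hp | hp) hpb
    · exact Set.disjoint_left.1 G.bot_ZT hpb hp
    · obtain ⟨u, hu, hpu⟩ := mem_iUnion₂.1 hp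
      have hpf : p ∈ frontier D := by
        rcases hpb with rfl | hpb
        · exact h.hd
        · exact hpb.1
      rcases pvxb_i_frontier_zone h G hpf with (h1 | h1) | h1
      · exact Set.disjoint_left.1 hu.2.1 hpu h1
      · obtain ⟨y, hy1, hy2⟩ := hu.2.2
        have h2 := pvxb_i_diam hY hu.1 ⟨y, hy1, G.ZT_sub hy2⟩ hpu hy1
        have := G.far_BT p h1 y hy2
        linarith
      · exact Set.disjoint_left.1 G.bot_ZT hpb h1
  · rw [Set.disjoint_left]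
    rintro p (hp | hp) hpb
    · exact Set.disjoint_left.1 G.top_ZB hpb hp
    · obtain ⟨u, hu, hpu⟩ := mem_iUnion₂.1 hp
      rcases pvxb_i_frontier_zone h G hpb.1 with (h1 | h1) | h1
      · exact Set.disjoint_left.1 hu.2.1 hpu h1
      · exact Set.disjoint_left.1 G.top_ZB hpb h1
      · obtain ⟨y, hy1, hy2⟩ := hu.2.2
        have h2 := pvxb_i_diam hY hu.1 ⟨y, hy1, G.ZB_sub hy2⟩ hy1 hpu
        have := G.far_BT y hy2 p h1
        linarith

/-- the points allowed to the path of BLOCK -/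
def pvxbOk (D : Set ℂ) (F : PvxFr) (Y : Set ℂ) (s : ℂ → Bool) : Set ℂ :=
  {z | z ∈ closure D ∧ z ∉ F.ZB ∪ F.ZT ∧ (∀ u ∈ F.nb Y ∪ F.nt Y, z ∉ vorCell Y u) ∧ ∀ v ∈ F.free Y, s v = false → z ∉ vorCell Y v}

theorem pvxb_eqns_cite6 : True := by
  have := @pvxbOk.eq_1
  trivial

/-- a slit which starts deep inside a side zone is allowed -/
theorem pvxb_i_slit (G : PvxGeo D d ψ x F W' AL' AR' z1 z2 τ ρ0 μ) (s : ℂ → Bool) {y : ℂ} (hy : y ∈ AL' ∪ AR') :
    (F.ZL ∪ F.ZR) ∩ closedBall y τ ⊆ pvxbOk D F Y s := by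
  rintro z ⟨hz, hzb⟩
  refine ⟨hz.elim (fun h => G.ZL_sub h) fun h => G.ZR_sub h, fun h => Set.disjoint_left.1 (G.deep y hy) hzb h, ?_, ?_⟩
  · rintro u (hu | hu) hzu
    · exact Set.disjoint_left.1 hu.2.1 hzu hz
    · exact Set.disjoint_left.1 hu.2.1 hzu hz
  · intro v hv _ hzv
    exact Set.disjoint_left.1 hv.2.2 hzv hz

/-- the strict region of the black sites of `W'` is allowed -/
theorem pvxb_i_strict (G : PvxGeo D d ψ x F W' AL' AR' z1 z2 τ ρ0 μ) (hY : PvxOk Y (closure D) μ) (s : ℂ → Bool) :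
    vorStrict Y (pvxK Y s ∩ W') ⊆ pvxbOk D F Y s := by
  have hcell : ∀ v ∈ pvxK Y s ∩ W', vorCell Y v ⊆ F.D2 := by
    intro v hv
    have hvD : v ∈ closure D := subset_closure (pvxb_i_D2 G (G.W_in v hv.2 (mem_closedBall_self G.mu_pos.le)))
    exact (hY.mesh v hv.1.1 ⟨v, vor_self_mem Y v, hvD⟩).trans (G.W_in v hv.2)
  rintro z ⟨⟨v, hv, hzv⟩, hz2⟩
  have hzD2 : z ∈ F.D2 := hcell v hv hzv
  refine ⟨subset_closure (pvxb_i_D2 G hzD2), ?_, ?_, ?_⟩
  · rintro (h | h)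
    · exact Set.disjoint_left.1 G.ZB_D2 h hzD2
    · exact Set.disjoint_left.1 G.ZT_D2 h hzD2
  · rintro u hu hzu
    refine hz2 ⟨u, ⟨hu.elim (fun h => h.1) fun h => h.1, fun huS => ?_⟩, hzu⟩
    rcases hu with hu | hu
    · obtain ⟨y, hy1, hy2⟩ := hu.2.2
      exact Set.disjoint_left.1 G.ZB_D2 hy2 (hcell u huS hy1)
    · obtain ⟨y, hy1, hy2⟩ := hu.2.2
      exact Set.disjoint_left.1 G.ZT_D2 hy2 (hcell u huS hy1)
  · intro v' hv' hs hzv'
    refine hz2 ⟨v', ⟨hv'.1, fun hS => ?_⟩, hzv'⟩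
    have := hS.1.2
    rw [hs] at this
    exact absurd this (by simp)

/-- **the path of BLOCK**: slit + strict polygon of the crossing of `PvNice` + slit -/
theorem pvxb_i_path (G : PvxGeo D d ψ x F W' AL' AR' z1 z2 τ ρ0 μ) (hY : PvxOk Y (closure D) μ) (s : ℂ → Bool)
    (hvc : PvxVC Y (pvxK Y s ∩ W') AL' AR') : ∃ p ∈ pvArcL D d ψ x, ∃ q ∈ pvArcR D d ψ, JoinedIn (pvxbOk D F Y s) p q := by
  obtain ⟨u, v, hu, hv, huS, hch⟩ := hvc
  obtain ⟨p, hp, hjp⟩ := G.slitL u (G.AL_sub hu)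
  obtain ⟨q, hq, hjq⟩ := G.slitR v (G.AR_sub hv)
  have hbd : ∀ w ∈ pvxK Y s ∩ W', Bornology.IsBounded (vorCell Y w) := by
    intro w hw
    have hwD : w ∈ closure D := subset_closure (pvxb_i_D2 G (G.W_in w hw.2 (mem_closedBall_self G.mu_pos.le)))
    exact isBounded_closedBall.subset (hY.mesh w hw.1.1 ⟨w, vor_self_mem Y w, hwD⟩)
  obtain ⟨G0, _, hj, hG0, _⟩ := pvxk_polygon hY.lf hY.gp (fun w hw => hw.1.1) hbd huS hch
  refine ⟨p, hp, q, hq, ?_⟩
  have j1 : JoinedIn (pvxbOk D F Y s) u p :=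
    hjp.mono ((inter_subset_inter_left _ subset_union_left).trans (pvxb_i_slit G s (Or.inl hu)))
  have j2 : JoinedIn (pvxbOk D F Y s) u v := hj.mono (hG0.trans (pvxb_i_strict G hY s))
  have j3 : JoinedIn (pvxbOk D F Y s) v q :=
    hjq.mono ((inter_subset_inter_left _ subset_union_right).trans (pvxb_i_slit G s (Or.inr hv)))
  exact (j1.symm.trans j2).trans j3

theorem pvxb_i_W (F : PvxFr) (Y : Set ℂ) (s : ℂ → Bool) : pvxbW (vorCell Y) (F.free Y) (F.nb Y) s = F.W Y s := by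
  ext w
  constructor
  · rintro ⟨a, ⟨haV, u, hu, hau⟩, hsa, hch⟩
    exact ⟨a, haV, ⟨u, hu, by rwa [pvxAdj, inter_comm]⟩, hsa, hch⟩
  · rintro ⟨a, haV, ⟨u, hu, hau⟩, hsa, hch⟩
    exact ⟨a, ⟨haV, u, hu, by rwa [pvxAdj, inter_comm] at hau⟩, hsa, hch⟩

theorem pvxb_i_B (F : PvxFr) (Y : Set ℂ) (s : ℂ → Bool) : pvxbB (vorCell Y) (F.free Y) (F.nb Y) s = F.B Y s := by
  ext b
  constructor
  · rintro ⟨hbV, hsb, hb⟩
    refine ⟨hbV, hsb, ?_⟩
    rcases hb with ⟨_, u, hu, hbu⟩ | ⟨w, hw, hbw⟩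
    · exact Or.inl ⟨u, hu, by rwa [pvxAdj, inter_comm]⟩
    · rw [pvxb_i_W] at hw
      exact Or.inr ⟨w, hw, by rwa [pvxAdj, inter_comm]⟩
  · rintro ⟨hbV, hsb, hb⟩
    refine ⟨hbV, hsb, ?_⟩
    rcases hb with ⟨u, hu, hbu⟩ | ⟨w, hw, hbw⟩
    · exact Or.inl ⟨hbV, u, hu, by rwa [pvxAdj, inter_comm] at hbu⟩
    · refine Or.inr ⟨w, by rw [pvxb_i_W]; exact hw, by rwa [pvxAdj, inter_comm] at hbw⟩

/-- **BANK** (contract `pvx_bank` of helper74, `Ext/Cut.lean`) -/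
theorem pvxb_main (h : PvChart D d ψ) (hx0 : 0 < x) (hx1 : x < 1) (G : PvxGeo D d ψ x F W' AL' AR' z1 z2 τ ρ0 μ) (hY : PvxOk Y (closure D) μ)
    (s : ℂ → Bool) (hvc : PvxVC Y (pvxK Y s ∩ W') AL' AR') : ∃ eL eR, PvxBank F Y (F.B Y s) eL eR := by
  obtain ⟨p, hp, q, hq, hj⟩ := pvxb_i_path G hY s hvc
  obtain ⟨σ, hσ, hσm, h0, h1⟩ := pvxt_joined_path hj
  obtain ⟨eL, eR, h2, ⟨u, hu, hLu⟩, ⟨u', hu', hRu⟩, hch⟩ := pvxb_bank_path h hx0 hx1 (pvxb_inst h G hY) s hσ (fun t ht => (hσm t ht).1)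
    (h0 ▸ hp) (h1 ▸ hq) (fun t ht => (hσm t ht).2.1) (fun t ht => (hσm t ht).2.2.1) (fun t ht => (hσm t ht).2.2.2)
  rw [pvxb_i_B] at h2 hch
  exact ⟨eL, eR, h2, ⟨u, hu.1, hu.2, by rwa [pvxAdj, inter_comm]⟩, ⟨u', hu'.1, hu'.2, by rwa [pvxAdj, inter_comm]⟩, hch⟩

end Claimed.Agent.R289
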