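-- KEEP CAPOK
import Claimed.Agent.R289.Ext.Defs

/-!
# Row 289 (S0537), unit EXT, file Ext/Core : (C4) THE ASSEMBLY OF THE DETERMINISTIC CORE      (helper4, with helper74; prefix `pvxn_`, defs `Pvxn…`, `pvxn…`)

Vocabulary `Ext/Defs` (74).      Inputs: `pvxm_det` (`Ext/DetTop`: HEX + thick cells + bumping + TOP), `pvx_tie` (255, (C2)), (C1) GAMMA in the form `PvxnGam` (204 + 285).      (C3) is not needed.
* `PvxnGam D d ψ x F Y s eL eR r`   (C1): a path `σ` in `closure D` from `pvArcL` to `pvArcR`, each point of which lies in `closedBall eL r ∪ closedBall eR r` or in a compact `P ⊆ vorStrict Y (F.B Y s)`;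
                                  `σ` misses `ZB` and the cells of the sites of `F.W Y s ∪ F.nb Y`
* `pvxnTie F Y s X`                 the GLOBAL tie `ZB ∪ ⋃_{w ∈ F.W Y s} X w`;   `pvxn_tie`: preconnected, in `closure D`, contains the explored white cells, touches the bottom arc, lies in `ZB ∪` cells of `F.W ∪ F.nb`
* `PvxnNo D d ψ x Y s`              the sample is NOT in the target: no preconnected subset of `closure D ∩ Bk_t`, `t > 0`, joins the two arcs (criterion of `pvxg_tgt`, 49)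
* **`pvxn_core`**                   bank + GAMMA + not in the target ⟹ an arm of UNEXPLORED white sites from `closedBall eL (r + μ)` to distance `ρ0 - 4 μ` of `eL`, or the same at `eR`
* `pvxn_arm_paint`                  the arm is white for the PAINTED colouring `F.paint Y s`, and for every colouring which agrees with `s` off the explored set
-/

set_option autoImplicit false

namespace Claimed.Agent.R289

open Set Metric Filter Topology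
open Claims.C0465

/-- **(C1) GAMMA** -/
def PvxnGam (D : Set ℂ) (d : ℂ) (ψ : ℂ → ℂ) (x : ℝ) (F : PvxFr) (Y : Set ℂ) (s : ℂ → Bool) (eL eR : ℂ) (r : ℝ) : Prop :=
  ∃ (σ : ℝ → ℂ) (P : Set ℂ), ContinuousOn σ (Icc 0 1) ∧ (∀ t ∈ Icc (0 : ℝ) 1, σ t ∈ closure D) ∧ σ 0 ∈ pvArcL D d ψ x ∧ σ 1 ∈ pvArcR D d ψ ∧
    IsCompact P ∧ P ⊆ vorStrict Y (F.B Y s) ∧ (∀ t ∈ Icc (0 : ℝ) 1, σ t ∈ closedBall eL r ∪ closedBall eR r ∨ σ t ∈ P) ∧
    (∀ t ∈ Icc (0 : ℝ) 1, σ t ∉ F.ZB) ∧ ∀ v ∈ F.W Y s ∪ F.nb Y, ∀ t ∈ Icc (0 : ℝ) 1, σ t ∉ vorCell Y v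

/-- the sample is not in the target -/
def PvxnNo (D : Set ℂ) (d : ℂ) (ψ : ℂ → ℂ) (x : ℝ) (Y : Set ℂ) (s : ℂ → Bool) : Prop :=
  ∀ t : ℝ, 0 < t → ∀ S : Set ℂ, IsPreconnected S → S ⊆ closure D ∩ pvxkFat (pvxK Y s) (pvxH Y s) (-t) → (S ∩ pvArcL D d ψ x).Nonempty →
    (S ∩ pvArcR D d ψ).Nonempty → False

theorem pvxn_eqns_cite : True := by
  have := @PvxnGam.eq_1; have := @PvxnNo.eq_1
  trivial

variable {D : Set ℂ} {d : ℂ} {ψ : ℂ → ℂ} {x : ℝ} {F : PvxFr} {W' AL' AR' : Set ℂ} {z1 z2 : ℂ} {τ ρ0 μ : ℝ} {Y : Set ℂ}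

/-! ## 1. colour classes -/

theorem pvxn_union (Y : Set ℂ) (s : ℂ → Bool) : Y = pvxH Y s ∪ pvxK Y s := by
  ext v
  constructor
  · intro hv
    cases hs : s v
    · exact Or.inl ⟨hv, hs⟩
    · exact Or.inr ⟨hv, hs⟩
  · rintro (hv | hv) <;> exact hv.1

theorem pvxn_W_sub_H (F : PvxFr) (Y : Set ℂ) (s : ℂ → Bool) : F.W Y s ⊆ pvxH Y s := fun _ hw =>
  ⟨(pvx_W_sub hw).1.1, (pvx_W_sub hw).2⟩

theorem pvxn_W_free {s : ℂ → Bool} {w : ℂ} (hw : w ∈ F.W Y s) : w ∈ F.free Y := (pvx_W_sub hw).1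

theorem pvxn_B_free {s : ℂ → Bool} {b : ℂ} (hb : b ∈ F.B Y s) : b ∈ F.free Y := (pvx_B_sub hb).1

theorem pvxn_H_notMem_B {s : ℂ → Bool} {w : ℂ} (hw : w ∈ pvxH Y s) : w ∉ F.B Y s := fun hb => by
  have h1 := (pvx_B_sub hb).2
  rw [hw.2] at h1
  exact Bool.false_ne_true h1

/-- the right end of a bank lies in the bank -/
theorem pvxn_bank_right {Bs : Set ℂ} {eL eR : ℂ} (hb : PvxBank F Y Bs eL eR) : eR ∈ Bs := by
  obtain ⟨h1, -, -, h4⟩ := hb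
  rcases Relation.ReflTransGen.cases_tail h4 with e | ⟨c, -, hc⟩
  · exact e ▸ h1
  · exact hc.1

/-- the bottom arc misses `D` -/
theorem pvxn_bot_notMem (h : PvChart D d ψ) {z : ℂ} (hz : z ∈ pvxmBot D d ψ) : z ∉ D := by
  have hF : z ∈ frontier D := by
    rcases hz with rfl | hz
    · exact h.hd
    · exact hz.1
  rw [h.isOpen.frontier_eq] at hF
  exact hF.2

/-! ## 2. the global tie -/

/-- **the global tie** -/
theorem pvxn_tie (h : PvChart D d ψ) (G : PvxGeo D d ψ x F W' AL' AR' z1 z2 τ ρ0 μ) (hY : PvxOk Y (closure D) μ) (s : ℂ → Bool) :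
    ∃ T0 : Set ℂ, IsPreconnected T0 ∧ T0 ⊆ closure D ∧ (∀ w ∈ F.W Y s, vorCell Y w ⊆ T0 ∩ D) ∧ (∃ z ∈ T0, z ∈ pvxmBot D d ψ) ∧
      T0 ⊆ F.ZB ∪ vorUn Y (F.W Y s) ∪ vorUn Y (F.nb Y) := by
  classical
  choose! X hX1 hX2 hX3 hX4 hX5 using fun w (hw : w ∈ F.W Y s) => pvx_tie G hY s hw
  obtain ⟨zB, hzB, hzB'⟩ := G.ZB_arc
  -- every `X w` meets `ZB`
  have hmeet : ∀ w ∈ F.W Y s, (F.ZB ∩ X w).Nonempty := by
    intro w hw
    obtain ⟨z, hzX, hzb⟩ := hX4 w hw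
    rcases hX5 w hw hzX with (hz | ⟨v, hv, hz⟩) | ⟨u, ⟨hu, v, hv, huv⟩, hz⟩
    · exact ⟨z, hz, hzX⟩
    · exact absurd (pvx_tie_free G (pvxn_W_free hv) hz) (pvxn_bot_notMem h hzb)
    · exact absurd (pvx_tie_nbr G hY hu.1 hv huv hz) (pvxn_bot_notMem h hzb)
  refine ⟨⋃₀ (insert F.ZB ((fun w => F.ZB ∪ X w) '' F.W Y s)), ?_, ?_, ?_, ⟨zB, ⟨F.ZB, Or.inl rfl, hzB⟩, hzB'⟩, ?_⟩
  · refine isPreconnected_sUnion zB _ ?_ ?_
    · rintro t (rfl | ⟨w, hw, rfl⟩)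
      · exact hzB
      · exact Or.inl hzB
    · rintro t (rfl | ⟨w, hw, rfl⟩)
      · exact G.ZB_conn
      · obtain ⟨z, hz1, hz2⟩ := hmeet w hw
        exact G.ZB_conn.union z hz1 hz2 (hX1 w hw)
  · rintro z ⟨t, rfl | ⟨w, hw, rfl⟩, hz⟩
    · exact G.ZB_sub hz
    · rcases hz with hz | hz
      · exact G.ZB_sub hz
      · exact hX2 w hw hz
  · intro w hw z hz
    exact ⟨⟨_, Or.inr ⟨w, hw, rfl⟩, Or.inr (hX3 w hw hz)⟩, pvx_tie_free G (pvxn_W_free hw) hz⟩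
  · rintro z ⟨t, rfl | ⟨w, hw, rfl⟩, hz⟩
    · exact Or.inl (Or.inl hz)
    · rcases hz with hz | hz
      · exact Or.inl (Or.inl hz)
      · rcases hX5 w hw hz with (hz | hz) | ⟨u, ⟨hu, -⟩, hz⟩
        · exact Or.inl (Or.inl hz)
        · exact Or.inl (Or.inr hz)
        · exact Or.inr ⟨u, hu, hz⟩

/-! ## 3. distances -/

/-- an end of a bank is within `3 μ` of its zone -/
theorem pvxn_end_near (G : PvxGeo D d ψ x F W' AL' AR' z1 z2 τ ρ0 μ) (hY : PvxOk Y (closure D) μ) {e u y : ℂ} (he : e ∈ F.free Y) (hu : u ∈ Y)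
    (hy : y ∈ vorCell Y u) (hue : pvxAdj Y u e) : dist e y ≤ 3 * μ := by
  obtain ⟨m, hmu, hme⟩ := hue
  have hmD : m ∈ closure D := subset_closure (pvx_tie_free G he hme)
  have h1 := hY.mesh e he.1 ⟨m, hme, hmD⟩ hme
  have h2 := hY.mesh u hu ⟨m, hmu, hmD⟩ hmu
  have h3 := hY.mesh u hu ⟨m, hmu, hmD⟩ hy
  rw [mem_closedBall] at h1 h2 h3
  have h4 := dist_triangle e m y
  have h5 := dist_triangle_right m y u
  rw [dist_comm] at h1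
  linarith

/-- a site whose cell touches the top arc is far from an end of a bank -/
theorem pvxn_far (G : PvxGeo D d ψ x F W' AL' AR' z1 z2 τ ρ0 μ) (hY : PvxOk Y (closure D) μ) {e u y b p : ℂ} (he : e ∈ F.free Y) (hu : u ∈ Y)
    (hy : y ∈ vorCell Y u) (hyZ : y ∈ F.ZL ∪ F.ZR) (hue : pvxAdj Y u e) (hb : b ∈ Y) (hp : p ∈ vorCell Y b) (hpT : p ∈ pvxmTop D d ψ x) :
    ρ0 - 4 * μ ≤ ‖b - e‖ := by
  have h1 := pvxn_end_near G hY he hu hy hue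
  have h2 := G.far_T y hyZ p hpT
  have h3 := hY.mesh b hb ⟨p, hp, frontier_subset_closure hpT.1⟩ hp
  rw [mem_closedBall] at h3
  have h4 := dist_triangle y e p
  have h5 := dist_triangle e b p
  rw [dist_comm y e] at h4
  rw [dist_comm b p] at h5
  rw [← dist_eq_norm, dist_comm b e]
  linarith

/-! ## 4. THE CORE -/

/-- **CORE** -/
theorem pvxn_core (h : PvChart D d ψ) (hx0 : 0 < x) (hx1 : x < 1) (G : PvxGeo D d ψ x F W' AL' AR' z1 z2 τ ρ0 μ) (hY : PvxOk Y (closure D) μ)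
    (s : ℂ → Bool) {eL eR : ℂ} (hb : PvxBank F Y (F.B Y s) eL eR) {r : ℝ} (hΓ : PvxnGam D d ψ x F Y s eL eR r) (hno : PvxnNo D d ψ x Y s) :
    PvxArm Y (pvxH Y s \ F.W Y s) eL (r + μ) (ρ0 - 4 * μ) ∨ PvxArm Y (pvxH Y s \ F.W Y s) eR (r + μ) (ρ0 - 4 * μ) := by
  obtain ⟨σ, P, hσ, hσD, h0, h1, hP, hPs, hcov, hσB, hσc⟩ := hΓ
  obtain ⟨T0, hT1, hT2, hT3, hT4, hT5⟩ := pvxn_tie h G hY s
  have heL : eL ∈ F.free Y := pvxn_B_free hb.1
  have heR : eR ∈ F.free Y := pvxn_B_free (pvxn_bank_right hb)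
  obtain ⟨a, ha, b, hbb, ⟨ya, hya, hyG, hyD⟩, ⟨p, hp, hpT⟩, hch⟩ := pvxm_det h hx0 hx1 (pvxn_union Y s) hY.lf ⟨eL, heL.1⟩ (pvxn_W_sub_H F Y s) hno hσ hσD h0 h1
    ((isCompact_closedBall eL r).union (isCompact_closedBall eR r)) hP hcov (fun w hw => by
      rw [disjoint_left]
      intro z hz hzw
      exact (hPs hz).2 ⟨w, ⟨hw.1, pvxn_H_notMem_B hw⟩, hzw⟩) hT1 hT2 hT3 hT4 (fun t ht hm => by
      rcases hT5 hm with (hz | ⟨v, hv, hz⟩) | ⟨v, hv, hz⟩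
      · exact hσB t ht hz
      · exact hσc v (Or.inl hv) t ht hz
      · exact hσc v (Or.inr hv) t ht hz)
  have hch' : Relation.ReflTransGen (fun u v => v ∈ pvxH Y s \ F.W Y s ∧ pvxAdj Y u v) a b :=
    Relation.ReflTransGen.mono (fun u v huv => ⟨huv.1, huv.2.mono inter_subset_left⟩) _ _ hch
  have hay := hY.mesh a ha.1.1 ⟨ya, hya, hyD⟩ hya
  rw [mem_closedBall] at hay
  obtain ⟨-, ⟨uL, huL, ⟨yL, hyL, hyLZ⟩, hadjL⟩, ⟨uR, huR, ⟨yR, hyR, hyRZ⟩, hadjR⟩, -⟩ := hb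
  rcases hyG with hyG | hyG
  · refine Or.inl ⟨a, b, ha, ?_, pvxn_far G hY heL huL hyL (Or.inl hyLZ) hadjL hbb.1.1 hp hpT, hch'⟩
    rw [mem_closedBall] at hyG
    rw [← dist_eq_norm]
    have := dist_triangle a ya eL
    rw [dist_comm a ya] at this
    linarith
  · refine Or.inr ⟨a, b, ha, ?_, pvxn_far G hY heR huR hyR (Or.inr hyRZ) hadjR hbb.1.1 hp hpT, hch'⟩
    rw [mem_closedBall] at hyG
    rw [← dist_eq_norm]
    have := dist_triangle a ya eR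
    rw [dist_comm a ya] at this
    linarith

/-! ## 5. the arm in the painted colouring and in a mixed colouring -/

theorem PvxArm.mono {Wh Wh' : Set ℂ} {e : ℂ} {r R : ℝ} (h : PvxArm Y Wh e r R) (hW : Wh ⊆ Wh') : PvxArm Y Wh' e r R := by
  obtain ⟨a, b, ha, h1, h2, h3⟩ := h
  exact ⟨a, b, hW ha, h1, h2, Relation.ReflTransGen.mono (fun _ _ huv => ⟨hW huv.1, huv.2⟩) _ _ h3⟩

/-- the unexplored white sites are the white sites of the painted colouring -/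
theorem pvxn_paint_H (F : PvxFr) (Y : Set ℂ) (s : ℂ → Bool) : pvxH Y s \ F.W Y s = pvxH Y (F.paint Y s) := by
  ext v
  constructor
  · rintro ⟨hv, hvW⟩
    refine ⟨hv.1, ?_⟩
    have : v ∉ pvxW (F.free Y) (pvxAdj Y) (F.seed Y) s ∪ pvxB (F.free Y) (pvxAdj Y) (F.seed Y) s := by
      rintro (h1 | h1)
      · exact hvW h1
      · exact pvxn_H_notMem_B hv h1
    exact (pvx_paint_of_notMem this).trans hv.2
  · rintro ⟨hv, hp⟩
    obtain ⟨h1, h2⟩ := pvx_paint_white hp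
    exact ⟨⟨hv, h1⟩, fun hw => h2 (Or.inl hw)⟩

/-- the unexplored white sites are white for every colouring which agrees with `s` off the explored set -/
theorem pvxn_mix_H (F : PvxFr) (Y : Set ℂ) {s s₂ : ℂ → Bool} (h : ∀ v, v ∉ F.W Y s ∪ F.B Y s → s₂ v = s v) : pvxH Y s \ F.W Y s ⊆ pvxH Y s₂ := by
  rintro v ⟨hv, hvW⟩
  refine ⟨hv.1, ?_⟩
  rw [h v]
  · exact hv.2
  · rintro (h1 | h1)
    · exact hvW h1
    · exact pvxn_H_notMem_B hv h1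

/-- **CORE, painted form** -/
theorem pvxn_core_paint (h : PvChart D d ψ) (hx0 : 0 < x) (hx1 : x < 1) (G : PvxGeo D d ψ x F W' AL' AR' z1 z2 τ ρ0 μ) (hY : PvxOk Y (closure D) μ)
    (s : ℂ → Bool) {eL eR : ℂ} (hb : PvxBank F Y (F.B Y s) eL eR) {r : ℝ} (hΓ : PvxnGam D d ψ x F Y s eL eR r) (hno : PvxnNo D d ψ x Y s) :
    PvxArm Y (pvxH Y (F.paint Y s)) eL (r + μ) (ρ0 - 4 * μ) ∨ PvxArm Y (pvxH Y (F.paint Y s)) eR (r + μ) (ρ0 - 4 * μ) := by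
  rw [← pvxn_paint_H]
  exact pvxn_core h hx0 hx1 G hY s hb hΓ hno

/-! ## 6. the form cited by `Ext/Cut` -/

theorem PvxArm.mono_rad {Wh : Set ℂ} {e : ℂ} {r R r' R' : ℝ} (h : PvxArm Y Wh e r R) (hr : r ≤ r') (hR : R' ≤ R) : PvxArm Y Wh e r' R' := by
  obtain ⟨a, b, ha, h1, h2, h3⟩ := h
  exact ⟨a, b, ha, h1.trans hr, hR.trans h2, h3⟩

/-- **CORE, form of the leaf `pvx_det` of `Ext/Cut`**: `hΓ` is the conclusion of `pvx_gamma` -/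
theorem pvxn_det (h : PvChart D d ψ) (hx0 : 0 < x) (hx1 : x < 1) (G : PvxGeo D d ψ x F W' AL' AR' z1 z2 τ ρ0 μ) (hY : PvxOk Y (closure D) μ) (σ : ℂ → Bool)
    {eL eR : ℂ} (hb : PvxBank F Y (F.B Y σ) eL eR)
    (hΓ : ∃ (γ : ℝ → ℂ) (P : Set ℂ), ContinuousOn γ (Icc 0 1) ∧ (∀ t ∈ Icc (0 : ℝ) 1, γ t ∈ closure D) ∧ γ 0 ∈ pvArcL D d ψ x ∧ γ 1 ∈ pvArcR D d ψ ∧
      IsCompact P ∧ P ⊆ vorStrict Y (F.B Y σ) ∧
      (∀ t ∈ Icc (0 : ℝ) 1, γ t ∈ closedBall eL (τ + 3 * μ) ∪ closedBall eR (τ + 3 * μ) ∨ γ t ∈ P) ∧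
      (∀ t ∈ Icc (0 : ℝ) 1, γ t ∉ F.ZB) ∧ (∀ t ∈ Icc (0 : ℝ) 1, ∀ v ∈ F.W Y σ ∪ F.nb Y, γ t ∉ vorCell Y v))
    (hno : ∀ t : ℝ, 0 < t → ¬ ∃ S : Set ℂ, IsPreconnected S ∧ S ⊆ pvxkFat (pvxK Y σ) (pvxH Y σ) (-t) ∩ closure D ∧
      (S ∩ pvArcL D d ψ x).Nonempty ∧ (S ∩ pvArcR D d ψ).Nonempty) :
    PvxArm Y (pvxH Y σ \ F.W Y σ) eL (τ + 5 * μ) (ρ0 - 5 * μ) ∨ PvxArm Y (pvxH Y σ \ F.W Y σ) eR (τ + 5 * μ) (ρ0 - 5 * μ) := by
  obtain ⟨γ, P, g1, g2, g3, g4, g5, g6, g7, g8, g9⟩ := hΓ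
  have hΓ' : PvxnGam D d ψ x F Y σ eL eR (τ + 3 * μ) := ⟨γ, P, g1, g2, g3, g4, g5, g6, g7, g8, fun v hv t ht => g9 t ht v hv⟩
  have hno' : PvxnNo D d ψ x Y σ := fun t ht S hS hSs hL hR => hno t ht ⟨S, hS, fun z hz => ⟨(hSs hz).2, (hSs hz).1⟩, hL, hR⟩
  have hμ := G.mu_pos
  rcases pvxn_core h hx0 hx1 G hY σ hb hΓ' hno' with ha | ha
  · exact Or.inl (ha.mono_rad (by linarith) (by linarith))
  · exact Or.inr (ha.mono_rad (by linarith) (by linarith))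

end Claimed.Agent.R289
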