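import Claimed.Agent.R289.Ext.Defs

/-!
# Row 289 (S0537), unit EXT, file Ext/Corner : CORNER, deterministic part      (helper27, post of helper74; prefix `pvxo_`)

* `pvxo_vc_of`      dictionary, the direction used here: a chain of black sites of the colouring `pvgColAt g c` of `pvgSites g` is a `PvVC` of the sample `pvMerge (g, c)`
* `pvxo_rev`        a chain inside `S` can be reversed
* `pvxo_near`       a site of `Bs ⊆ free` adjacent to a cell meeting a zone `Z ⊆ closure D` is within `3 μ` of `Z`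
* `pvxo_corner`     a bank one of whose ends is within `t` of its corner gives a black vertex chain from the box of radius `t` round the corner to the outside of the box of radius `ρ0 / 4`
-/

set_option autoImplicit false

namespace Claimed.Agent.R289

open Set Metric Filter Topology MeasureTheory
open Claims.C0465

/-- dictionary: set form ⟹ sample form -/
theorem pvxo_vc_of {g : PvGeoT} (hg : PvgOk g) (c : PvColT) {W A B : Set ℂ}
    (h : PvxVC (pvgSites g) (pvxK (pvgSites g) (pvgColAt g c) ∩ W) A B) : PvVC (pvConf (pvMerge (g, c))) W A B := by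
  obtain ⟨u, v, hu, hv, huS, hch⟩ := h
  have hbk : ∀ b, b ∈ pvxK (pvgSites g) (pvgColAt g c) ∩ W → PvBk (pvConf (pvMerge (g, c))) W b := by
    rintro b ⟨⟨hbY, hbc⟩, hbW⟩
    refine ⟨?_, hbW⟩
    rw [hg.conf_eq c]
    exact cfOf_mem.2 ⟨hbY, hbc.symm⟩
  refine ⟨u, v, hu, hv, hbk u huS, ?_⟩
  refine Relation.ReflTransGen.mono (fun a b hab => ⟨hbk b hab.1, ?_⟩) _ _ hch
  rw [cfCell_eq_vor, cfCell_eq_vor, pvqu_cfSites]
  exact hab.2

/-- a chain inside `S` can be reversed -/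
theorem pvxo_rev {Y S : Set ℂ} {a b : ℂ} (ha : a ∈ S) (h : Relation.ReflTransGen (fun u v => v ∈ S ∧ pvxAdj Y u v) a b) :
    b ∈ S ∧ Relation.ReflTransGen (fun u v => v ∈ S ∧ pvxAdj Y u v) b a := by
  induction h with
  | refl => exact ⟨ha, Relation.ReflTransGen.refl⟩
  | @tail p q _ hpq ih =>
    refine ⟨hpq.1, Relation.ReflTransGen.head ⟨ih.1, ?_⟩ ih.2⟩
    obtain ⟨z, hz1, hz2⟩ := hpq.2
    exact ⟨z, hz2, hz1⟩

/-- a free site adjacent to a cell which meets `Z ⊆ closure D` is within `3 μ` of a point of `Z` -/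
theorem pvxo_near {D : Set ℂ} {d : ℂ} {ψ : ℂ → ℂ} {x : ℝ} {F : PvxFr} {W' AL' AR' : Set ℂ} {z1 z2 : ℂ} {τ ρ0 μ : ℝ} {Y : Set ℂ}
    (G : PvxGeo D d ψ x F W' AL' AR' z1 z2 τ ρ0 μ) (hY : PvxOk Y (closure D) μ) {Z : Set ℂ} (hZ : Z ⊆ closure D) {e : ℂ} (he : e ∈ F.free Y)
    (h : ∃ u ∈ Y, (vorCell Y u ∩ Z).Nonempty ∧ pvxAdj Y u e) : ∃ y ∈ Z, dist e y ≤ 3 * μ := by
  obtain ⟨u, hu, ⟨y, hyu, hyZ⟩, ⟨p, hpu, hpe⟩⟩ := h
  have hbu := hY.mesh u hu ⟨y, hyu, hZ hyZ⟩
  have hbe := hY.mesh e he.1 ⟨p, hpe, subset_closure (pvx_tie_free G he hpe)⟩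
  refine ⟨y, hyZ, ?_⟩
  have h1 := hbe hpe
  have h2 := hbu hpu
  have h3 := hbu hyu
  rw [mem_closedBall] at h1 h2 h3
  have h4 : dist e y ≤ dist e p + dist p u + dist u y := dist_triangle4 e p u y
  rw [dist_comm e p, dist_comm u y] at h4
  linarith

/-- a point within `t` of `z` lies in the closed box of radius `t` -/
theorem pvxo_box_in {e z : ℂ} {t : ℝ} (h : dist e z ≤ t) : e ∈ rswRect (z.re - t) (z.re + t) (z.im - t) (z.im + t) := by
  rw [Complex.dist_eq] at h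
  have h1 := (Complex.abs_re_le_norm (e - z)).trans h
  have h2 := (Complex.abs_im_le_norm (e - z)).trans h
  rw [Complex.sub_re, abs_le] at h1
  rw [Complex.sub_im, abs_le] at h2
  exact ⟨by linarith [h1.1], by linarith [h1.2], by linarith [h2.1], by linarith [h2.2]⟩

/-- a point at distance `≥ 2 r` of `z` lies outside of the open box of radius `r` -/
theorem pvxo_box_out {e z : ℂ} {r : ℝ} (h : 2 * r ≤ dist e z) : e ∈ {b : ℂ | ¬ (z.re - r < b.re ∧ b.re < z.re + r ∧ z.im - r < b.im ∧ b.im < z.im + r)} := by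
  rintro ⟨h1, h2, h3, h4⟩
  rw [Complex.dist_eq] at h
  have h5 := Complex.norm_le_abs_re_add_abs_im (e - z)
  have h6 : |(e - z).re| < r := by rw [Complex.sub_re, abs_lt]; constructor <;> linarith
  have h7 : |(e - z).im| < r := by rw [Complex.sub_im, abs_lt]; constructor <;> linarith
  linarith

/-- **CORNER, deterministic**: if no black vertex chain goes from the box of radius `t` round `z1` (`z2`) to the outside of the box of radius `ρ0 / 4`, the ends of a bank are at distance `> t` from the corners -/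
theorem pvxo_corner {D : Set ℂ} {d : ℂ} {ψ : ℂ → ℂ} {x : ℝ} {F : PvxFr} {W' AL' AR' : Set ℂ} {z1 z2 : ℂ} {τ ρ0 μ : ℝ}
    (G : PvxGeo D d ψ x F W' AL' AR' z1 z2 τ ρ0 μ) {g : PvGeoT} (hg : PvgOk g)
    (hY : PvxOk (pvgSites g) (closure D) μ) (c : PvColT) {eL eR : ℂ} (hb : PvxBank F (pvgSites g) (F.B (pvgSites g) (pvgColAt g c)) eL eR) {t : ℝ}
    (h1 : ¬ PvVC (pvConf (pvMerge (g, c))) univ (rswRect (z1.re - t) (z1.re + t) (z1.im - t) (z1.im + t))
      {b | ¬ (z1.re - ρ0 / 4 < b.re ∧ b.re < z1.re + ρ0 / 4 ∧ z1.im - ρ0 / 4 < b.im ∧ b.im < z1.im + ρ0 / 4)})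
    (h2 : ¬ PvVC (pvConf (pvMerge (g, c))) univ (rswRect (z2.re - t) (z2.re + t) (z2.im - t) (z2.im + t))
      {b | ¬ (z2.re - ρ0 / 4 < b.re ∧ b.re < z2.re + ρ0 / 4 ∧ z2.im - ρ0 / 4 < b.im ∧ b.im < z2.im + ρ0 / 4)}) :
    t < dist eL z1 ∧ t < dist eR z2 := by
  obtain ⟨hL, hLu, hRu, hch⟩ := hb
  obtain ⟨hR, hrev⟩ := pvxo_rev hL hch
  have hsub : ∀ b, b ∈ F.B (pvgSites g) (pvgColAt g c) → b ∈ pvxK (pvgSites g) (pvgColAt g c) ∩ univ := fun b hb' =>
    ⟨⟨(pvx_B_sub hb').1.1, (pvx_B_sub hb').2⟩, mem_univ _⟩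
  obtain ⟨yL, hyL, hdL⟩ := pvxo_near G hY G.ZL_sub (pvx_B_sub hL).1 hLu
  obtain ⟨yR, hyR, hdR⟩ := pvxo_near G hY G.ZR_sub (pvx_B_sub hR).1 hRu
  have hμ := G.mu_small
  have hμ0 := G.mu_pos
  constructor
  · by_contra hlt
    refine h1 (pvxo_vc_of hg c ⟨eL, eR, pvxo_box_in (not_lt.1 hlt), pvxo_box_out ?_, hsub _ hL, ?_⟩)
    · have h3 := G.far_LR z1 G.z1_mem yR hyR
      have h4 := dist_triangle z1 eR yR
      rw [dist_comm z1 eR] at h4
      linarith
    · exact Relation.ReflTransGen.mono (fun a b hab => ⟨hsub b hab.1, hab.2⟩) _ _ hch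
  · by_contra hlt
    refine h2 (pvxo_vc_of hg c ⟨eR, eL, pvxo_box_in (not_lt.1 hlt), pvxo_box_out ?_, hsub _ hR, ?_⟩)
    · have h3 := G.far_LR yL hyL z2 G.z2_mem
      have h4 := dist_triangle_left yL z2 eL
      linarith
    · exact Relation.ReflTransGen.mono (fun a b hab => ⟨hsub b hab.1, hab.2⟩) _ _ hrev

end Claimed.Agent.R289
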