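-- CAPOK (leaf file C1 of EXT, contract of Ext/Cut.lean)
import Claimed.Agent.R289.Ext.Defs

/-!
# Row 289 (S0537), unit EXT, leaf (C1) GAMMA, file Ext/Gamma : THE CURVE OF THE BANK      (helper204, head helper74; prefix `pvxy_`)

From a bank `PvxBank F Y (F.B Y s) eL eR` whose two ends are off the two bottom corners: a path `σ` in `closure D` from `pvArcL` to `pvArcR`, each point of which lies in one of the two balls
`closedBall eL (τ + 3 μ)`, `closedBall eR (τ + 3 μ)` or in a compact `P ⊆ vorStrict Y (F.B Y s)`;  `σ` misses `ZB` and every cell of `F.W Y s ∪ F.nb Y`.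

* `pvxy_FW_mem`, `pvxy_FB_mem`      explored white sites are free and white, explored black sites are free and black
* `pvxy_open_seg`                   `m ∈ vorSide Y e u`, `y ∈ vorCell Y u \ vorCell Y e` : the open segment `(m, y)` lies in `vorOpen Y u`
* `pvxy_end`                        THE END: `e` free, `u` adjacent to `e` with a cell meeting the zone `Z`: `e → m → y → slit → arc`
* **`pvxy_joined`**                 GAMMA in `JoinedIn` form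
* **`pvxy_gamma`**                  GAMMA in the form consumed by `pvxm_chain` (helper4, `Ext/DetTop`)
* `pvxy_cut`                        the literal statement of the leaf `pvx_gamma` of `Ext/Cut.lean`
* `pvxy_det`                        the form consumed by `pvxm_det` (helper4): `G0` = the two balls, `G1 = P` off every cell of `Y \ F.B Y s`, `σ` misses `pvxT0 F Y s`
-/

set_option autoImplicit false

namespace Claimed.Agent.R289

open Set Metric Filter Topology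
open Claims.C0465

/-! ## 1. the explored sets -/

theorem pvxy_FW_mem {F : PvxFr} {Y : Set ℂ} {s : ℂ → Bool} {w : ℂ} (h : w ∈ F.W Y s) : w ∈ F.free Y ∧ s w = false := pvx_W_sub h

theorem pvxy_FB_mem {F : PvxFr} {Y : Set ℂ} {s : ℂ → Bool} {b : ℂ} (h : b ∈ F.B Y s) : b ∈ F.free Y ∧ s b = true := pvx_B_sub h

/-! ## 2. the open segment from a side into the neighbour cell -/

theorem pvxy_open_seg {Y : Set ℂ} {e u m y : ℂ} (hm : m ∈ vorSide Y e u) (hy : y ∈ vorCell Y u) (hye : y ∉ vorCell Y e) :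
    openSegment ℝ m y ⊆ vorOpen Y u := by
  rintro _ ⟨α, β, hα, hβ, hαβ, rfl⟩ v hv hvu
  rw [dels_lt_iff, dels_gap_lin u v m y hαβ]
  have hm' := dels_side_symm hm
  have g2 : 0 ≤ delsGap u v y := (dels_le_iff u v y).1 (hy v hv)
  by_cases hve : v = e
  · subst hve
    have g1 : 0 ≤ delsGap u v m := (dels_le_iff u v m).1 hm'.1.le
    have g3 : 0 < delsGap u v y := by
      rw [← dels_lt_iff]
      have : ¬ ∀ w ∈ Y, ‖y - v‖ ≤ ‖y - w‖ := hye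
      push Not at this
      obtain ⟨w, hw, hlt⟩ := this
      exact lt_of_le_of_lt (hy w hw) hlt
    have := mul_nonneg hα.le g1
    have := mul_pos hβ g3
    linarith
  · have g1 : 0 < delsGap u v m := (dels_lt_iff u v m).1 (hm'.2 v hv hvu hve)
    have := mul_pos hα g1
    have := mul_nonneg hβ.le g2
    linarith

/-! ## 3. the end -/

/-- **THE END**: `e` a free site, `u` a site adjacent to `e` whose cell meets the zone `Z ⊆ ZL ∪ ZR`, `e` off the corner `z0` of `Z` with `ZB`:      `e → m ∈ vorSide Y e u → y ∈ vorCell Y u ∩ Z → slit → A` -/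
theorem pvxy_end {D : Set ℂ} {F : PvxFr} {Y : Set ℂ} {μ τ : ℝ} (hμ : 0 < μ) (hτ : 0 < τ) (hY : PvxOk Y (closure D) μ)
    (hD2 : ∀ z ∈ F.D2, closedBall z (4 * μ) ⊆ D) (hZBD2 : Disjoint F.ZB F.D2)
    {Z A : Set ℂ} (hZ : Z ⊆ F.ZL ∪ F.ZR) (hZD : Z ⊆ closure D) (hslit : ∀ y ∈ Z, ∃ p ∈ A, JoinedIn (Z ∩ closedBall y τ) y p) {z0 : ℂ}
    (hcorner : ∀ y ∈ Z, ∀ z ∈ F.ZB, dist y z ≤ 2 * μ → dist y z0 ≤ 2 * τ)
    {e u : ℂ} (he : e ∈ F.free Y) (hu : u ∈ Y) (hmeet : (vorCell Y u ∩ Z).Nonempty) (hadj : pvxAdj Y u e) (hfar : 3 * τ + 3 * μ < dist e z0) :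
    ∃ p ∈ A, JoinedIn (closure D ∩ closedBall e (τ + 3 * μ) ∩ F.ZBᶜ ∩ {z | ∀ v ∈ Y, z ∈ vorCell Y v → v = e ∨ (vorCell Y v ∩ (F.ZL ∪ F.ZR)).Nonempty}) e p := by
  obtain ⟨heY, heD2, hedis⟩ := he
  have hD2D : F.D2 ⊆ D := fun z hz => hD2 z hz (mem_closedBall_self (by positivity))
  have hee : e ∈ vorCell Y e := vor_self_mem Y e
  have hbe : vorCell Y e ⊆ closedBall e μ := hY.mesh e heY ⟨e, hee, subset_closure (hD2D (heD2 hee))⟩
  obtain ⟨y, hyu, hyZ⟩ := hmeet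
  have hye : y ∉ vorCell Y e := fun h => Set.disjoint_left.1 hedis h (hZ hyZ)
  have hne : e ≠ u := by
    rintro rfl
    exact hye hyu
  have hab : DelAdj Y e u := ⟨heY, hu, hne, by rw [inter_comm]; exact hadj⟩
  obtain ⟨m, hm⟩ := dels_side_nonempty hY.lf hY.gp (isBounded_closedBall.subset hbe) hab
  have hme : m ∈ vorCell Y e := dels_side_subset_left Y e u hm
  have hmu : m ∈ vorCell Y u := dels_side_subset_right Y e u hm
  have hmD2 := heD2 hme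
  have hbu : vorCell Y u ⊆ closedBall u μ := hY.mesh u hu ⟨m, hmu, subset_closure (hD2D hmD2)⟩
  have d1 : dist m e ≤ μ := hbe hme
  have d2 : dist m u ≤ μ := hbu hmu
  have d3 : ∀ z ∈ vorCell Y u, dist z e ≤ 3 * μ := by
    intro z hz
    have h1 : dist z u ≤ μ := hbu hz
    have h2 := dist_triangle z u e
    have h3 := dist_triangle u m e
    rw [dist_comm u m] at h3
    linarith
  have d4 : ∀ z ∈ vorCell Y u, ∀ z' ∈ vorCell Y u, dist z z' ≤ 2 * μ := by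
    intro z hz z' hz'
    have h1 : dist z u ≤ μ := hbu hz
    have h2 : dist z' u ≤ μ := hbu hz'
    have h3 := dist_triangle z u z'
    rw [dist_comm u z'] at h3
    linarith
  have hum : (vorCell Y u ∩ (F.ZL ∪ F.ZR)).Nonempty := ⟨y, hyu, hZ hyZ⟩
  have cm : ∀ v ∈ Y, m ∈ vorCell Y v → v = e ∨ (vorCell Y v ∩ (F.ZL ∪ F.ZR)).Nonempty := by
    intro v hv hmv
    by_cases h1 : v = e
    · exact Or.inl h1
    · by_cases h2 : v = u
      · rw [h2]; exact Or.inr hum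
      · exact absurd hmv (dels_side_notMem heY hm hv h1 h2)
  -- step 1
  have s1 : JoinedIn (closure D ∩ closedBall e (τ + 3 * μ) ∩ F.ZBᶜ ∩ {z | ∀ v ∈ Y, z ∈ vorCell Y v → v = e ∨ (vorCell Y v ∩ (F.ZL ∪ F.ZR)).Nonempty}) e m := by
    refine JoinedIn.of_segment_subset fun z hz => ?_
    have hzc : z ∈ vorCell Y e := dels_seg_cell hme hz
    refine ⟨⟨⟨subset_closure (hD2D (heD2 hzc)), ?_⟩, fun hB => Set.disjoint_left.1 hZBD2 hB (heD2 hzc)⟩, ?_⟩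
    · have : dist z e ≤ μ := hbe hzc
      rw [mem_closedBall]; linarith
    · rcases dels_seg_open hme hz with h | h
      · intro v hv hzv
        by_contra hcon
        push Not at hcon
        exact dels_open_notMem heY h hv hcon.1 hzv
      · rw [mem_singleton_iff.1 h]; exact cm
  -- step 2
  have s2 : JoinedIn (closure D ∩ closedBall e (τ + 3 * μ) ∩ F.ZBᶜ ∩ {z | ∀ v ∈ Y, z ∈ vorCell Y v → v = e ∨ (vorCell Y v ∩ (F.ZL ∪ F.ZR)).Nonempty}) m y := by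
    refine JoinedIn.of_segment_subset fun z hz => ?_
    have hzc : z ∈ vorCell Y u := (vor_convex_cell Y u).segment_subset hmu hyu hz
    refine ⟨⟨⟨subset_closure (hD2 m hmD2 ?_), ?_⟩, fun hB => ?_⟩, ?_⟩
    · have := d4 z hzc m hmu
      rw [mem_closedBall]; linarith
    · have := d3 z hzc
      rw [mem_closedBall]; linarith
    · have h1 := hcorner y hyZ z hB (d4 y hyu z hzc)
      have h2 := d3 y hyu
      have h3 := dist_triangle e y z0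
      rw [dist_comm e y] at h3
      linarith
    · rw [← insert_endpoints_openSegment] at hz
      rcases hz with h | h | h
      · rw [h]; exact cm
      · rw [h]
        intro v _ hyv
        exact Or.inr ⟨y, hyv, hZ hyZ⟩
      · have ho := pvxy_open_seg hm hyu hye h
        intro v hv hzv
        by_cases h2 : v = u
        · rw [h2]; exact Or.inr hum
        · exact absurd hzv (dels_open_notMem hu ho hv h2)
  -- step 3
  obtain ⟨p, hpA, hj⟩ := hslit y hyZ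
  refine ⟨p, hpA, s1.trans (s2.trans (hj.mono ?_))⟩
  rintro z ⟨hzZ, hzy⟩
  rw [mem_closedBall] at hzy
  have h2 := d3 y hyu
  refine ⟨⟨⟨hZD hzZ, ?_⟩, fun hB => ?_⟩, fun v _ hzv => Or.inr ⟨z, hzv, hZ hzZ⟩⟩
  · have h3 := dist_triangle z y e
    rw [mem_closedBall]; linarith
  · have h1 := hcorner z hzZ z hB (by rw [dist_self]; positivity)
    have h3 := dist_triangle e y z0
    have h4 := dist_triangle y z z0
    rw [dist_comm e y] at h3
    rw [dist_comm y z] at h4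
    linarith

/-! ## 4. GAMMA -/

section gamma

variable {D : Set ℂ} {d : ℂ} {ψ : ℂ → ℂ} {x : ℝ} {F : PvxFr} {W' AL' AR' : Set ℂ} {z1 z2 : ℂ} {τ ρ0 μ : ℝ}

/-- free cells are small -/
theorem pvxy_free_ball (G : PvxGeo D d ψ x F W' AL' AR' z1 z2 τ ρ0 μ) {Y : Set ℂ} (hY : PvxOk Y (closure D) μ) {v : ℂ} (hv : v ∈ F.free Y) :
    vorCell Y v ⊆ closedBall v μ :=
  hY.mesh v hv.1 ⟨v, vor_self_mem Y v, subset_closure (G.D2_in v (hv.2.1 (vor_self_mem Y v)) (mem_closedBall_self (by have := G.mu_pos; positivity)))⟩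

/-- **GAMMA**, `JoinedIn` form -/
theorem pvxy_joined (G : PvxGeo D d ψ x F W' AL' AR' z1 z2 τ ρ0 μ) {Y : Set ℂ} (hY : PvxOk Y (closure D) μ) (s : ℂ → Bool) {eL eR : ℂ}
    (hb : PvxBank F Y (F.B Y s) eL eR) (hL : 3 * τ + 3 * μ < dist eL z1) (hR : 3 * τ + 3 * μ < dist eR z2) :
    ∃ P : Set ℂ, IsCompact P ∧ P ⊆ vorStrict Y (F.B Y s) ∧ ∃ p ∈ pvArcL D d ψ x, ∃ q ∈ pvArcR D d ψ,
      JoinedIn (closure D ∩ (closedBall eL (τ + 3 * μ) ∪ closedBall eR (τ + 3 * μ) ∪ P) ∩ F.ZBᶜ ∩ {z | ∀ v ∈ F.W Y s ∪ F.nb Y, z ∉ vorCell Y v}) p q := by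
  obtain ⟨heL, ⟨uL, huL, hmL, haL⟩, ⟨uR, huR, hmR, haR⟩, hch⟩ := hb
  have hS : F.B Y s ⊆ Y := fun v hv => (pvxy_FB_mem hv).1.1
  have hbd : ∀ v ∈ F.B Y s, Bornology.IsBounded (vorCell Y v) := fun v hv => isBounded_closedBall.subset (pvxy_free_ball G hY (pvxy_FB_mem hv).1)
  have heR : eR ∈ F.B Y s := (dels_chain hY.lf hY.gp hS (Subset.refl _) hbd heL hch).1
  obtain ⟨P, hPc, hPj, hPs, -⟩ := pvxk_polygon hY.lf hY.gp hS hbd heL hch
  obtain ⟨p, hp, hjL⟩ := pvxy_end G.mu_pos G.tau_pos hY G.D2_in G.ZB_D2 (Z := F.ZL) subset_union_left G.ZL_sub G.slitL G.cornerL (pvxy_FB_mem heL).1 huL hmL haL hL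
  obtain ⟨q, hq, hjR⟩ := pvxy_end G.mu_pos G.tau_pos hY G.D2_in G.ZB_D2 (Z := F.ZR) subset_union_right G.ZR_sub G.slitR G.cornerR (pvxy_FB_mem heR).1 huR hmR haR hR
  have hD2D : F.D2 ⊆ D := fun z hz => G.D2_in z hz (mem_closedBall_self (by have := G.mu_pos; positivity))
  -- explored white and bottom sites: not in the bank, cells off the two side zones
  have hWn : ∀ v ∈ F.W Y s ∪ F.nb Y, v ∈ Y \ F.B Y s ∧ Disjoint (vorCell Y v) (F.ZL ∪ F.ZR) := by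
    rintro v (hv | hv)
    · obtain ⟨h1, h2⟩ := pvxy_FW_mem hv
      refine ⟨⟨h1.1, fun hB => ?_⟩, h1.2.2⟩
      rw [(pvxy_FB_mem hB).2] at h2
      exact Bool.noConfusion h2
    · refine ⟨⟨hv.1, fun hB => ?_⟩, hv.2.1⟩
      obtain ⟨z, hz, hzB⟩ := hv.2.2
      exact Set.disjoint_left.1 G.ZB_D2 hzB ((pvxy_FB_mem hB).1.2.1 hz)
  have hend : ∀ e ∈ F.B Y s, ∀ z, (∀ v ∈ Y, z ∈ vorCell Y v → v = e ∨ (vorCell Y v ∩ (F.ZL ∪ F.ZR)).Nonempty) → ∀ v ∈ F.W Y s ∪ F.nb Y, z ∉ vorCell Y v := by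
    intro e he z hz v hv hzv
    obtain ⟨h1, h2⟩ := hWn v hv
    rcases hz v h1.1 hzv with h | ⟨w, hw1, hw2⟩
    · exact h1.2 (h ▸ he)
    · exact Set.disjoint_left.1 h2 hw1 hw2
  refine ⟨P, hPc, hPs, p, hp, q, hq, (hjL.symm.mono ?_).trans ((hPj.mono ?_).trans (hjR.mono ?_))⟩
  · rintro z ⟨⟨⟨h1, h2⟩, h3⟩, h4⟩
    exact ⟨⟨⟨h1, Or.inl (Or.inl h2)⟩, h3⟩, hend eL heL z h4⟩
  · intro z hz
    obtain ⟨⟨a, ha, hza⟩, hz2⟩ := hPs hz
    have hzD2 : z ∈ F.D2 := (pvxy_FB_mem ha).1.2.1 hza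
    refine ⟨⟨⟨subset_closure (hD2D hzD2), Or.inr hz⟩, fun hB => Set.disjoint_left.1 G.ZB_D2 hB hzD2⟩, fun v hv hzv => hz2 ⟨v, (hWn v hv).1, hzv⟩⟩
  · rintro z ⟨⟨⟨h1, h2⟩, h3⟩, h4⟩
    exact ⟨⟨⟨h1, Or.inl (Or.inr h2)⟩, h3⟩, hend eR heR z h4⟩

/-- **GAMMA** (leaf C1 of the core of EXT), in the form consumed by `pvxm_chain` -/
theorem pvxy_gamma (G : PvxGeo D d ψ x F W' AL' AR' z1 z2 τ ρ0 μ) {Y : Set ℂ} (hY : PvxOk Y (closure D) μ) (s : ℂ → Bool) {eL eR : ℂ}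
    (hb : PvxBank F Y (F.B Y s) eL eR) (hL : 3 * τ + 3 * μ < dist eL z1) (hR : 3 * τ + 3 * μ < dist eR z2) :
    ∃ (σ : ℝ → ℂ) (P : Set ℂ), Continuous σ ∧ (∀ t, σ t ∈ closure D) ∧ σ 0 ∈ pvArcL D d ψ x ∧ σ 1 ∈ pvArcR D d ψ ∧
      IsCompact P ∧ P ⊆ vorStrict Y (F.B Y s) ∧
      (∀ t, σ t ∈ closedBall eL (τ + 3 * μ) ∪ closedBall eR (τ + 3 * μ) ∨ σ t ∈ P) ∧
      (∀ t, σ t ∉ F.ZB) ∧ ∀ t, ∀ v ∈ F.W Y s ∪ F.nb Y, σ t ∉ vorCell Y v := by
  obtain ⟨P, hPc, hPs, p, hp, q, hq, γ, hγ⟩ := pvxy_joined G hY s hb hL hR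
  have key : ∀ t, γ.extend t ∈ closure D ∩ (closedBall eL (τ + 3 * μ) ∪ closedBall eR (τ + 3 * μ) ∪ P) ∩ F.ZBᶜ ∩ {z | ∀ v ∈ F.W Y s ∪ F.nb Y, z ∉ vorCell Y v} :=
    fun t => hγ _
  refine ⟨γ.extend, P, γ.continuous_extend, fun t => (key t).1.1.1, by rw [γ.extend_zero]; exact hp, by rw [γ.extend_one]; exact hq, hPc, hPs,
    fun t => (key t).1.1.2, fun t => (key t).1.2, fun t => (key t).2⟩

/-- the literal statement of the leaf `pvx_gamma` of `Ext/Cut.lean` -/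
theorem pvxy_cut (G : PvxGeo D d ψ x F W' AL' AR' z1 z2 τ ρ0 μ) {Y : Set ℂ} (hY : PvxOk Y (closure D) μ) (σ : ℂ → Bool)
    {eL eR : ℂ} (hb : PvxBank F Y (F.B Y σ) eL eR) (hcL : 3 * τ + 3 * μ < dist eL z1) (hcR : 3 * τ + 3 * μ < dist eR z2) :
    ∃ (γ : ℝ → ℂ) (P : Set ℂ), ContinuousOn γ (Icc 0 1) ∧ (∀ t ∈ Icc (0 : ℝ) 1, γ t ∈ closure D) ∧ γ 0 ∈ pvArcL D d ψ x ∧ γ 1 ∈ pvArcR D d ψ ∧
      IsCompact P ∧ P ⊆ vorStrict Y (F.B Y σ) ∧
      (∀ t ∈ Icc (0 : ℝ) 1, γ t ∈ closedBall eL (τ + 3 * μ) ∪ closedBall eR (τ + 3 * μ) ∨ γ t ∈ P) ∧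
      (∀ t ∈ Icc (0 : ℝ) 1, γ t ∉ F.ZB) ∧ (∀ t ∈ Icc (0 : ℝ) 1, ∀ v ∈ F.W Y σ ∪ F.nb Y, γ t ∉ vorCell Y v) := by
  obtain ⟨γ, P, h1, h2, h3, h4, h5, h6, h7, h8, h9⟩ := pvxy_gamma G hY σ hb hcL hcR
  exact ⟨γ, P, h1.continuousOn, fun t _ => h2 t, h3, h4, h5, h6, fun t _ => h7 t, fun t _ => h8 t, fun t _ => h9 t⟩

/-- the curve misses the explored bottom blob `pvxT0` -/
theorem pvxy_miss_T0 {Y : Set ℂ} {s : ℂ → Bool} {z : ℂ} (h1 : z ∉ F.ZB) (h2 : ∀ v ∈ F.W Y s ∪ F.nb Y, z ∉ vorCell Y v) : z ∉ pvxT0 F Y s := by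
  rintro ((hz | ⟨w, hw, hz⟩) | ⟨u, hu, hz⟩)
  · exact h1 hz
  · exact h2 w (Or.inl hw) hz
  · exact h2 u (Or.inr hu.1) hz

/-- a strict point of the bank lies in no cell of a site off the bank -/
theorem pvxy_strict_miss {Y B : Set ℂ} {z w : ℂ} (hz : z ∈ vorStrict Y B) (hw : w ∈ Y \ B) : z ∉ vorCell Y w := fun h => hz.2 ⟨w, hw, h⟩

/-- **GAMMA**, the form consumed by `pvxm_det` (helper4): the two compact sets `G0` (two balls), `G1 = P`; `P` misses every cell of a WHITE site; the curve misses `pvxT0` -/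
theorem pvxy_det (G : PvxGeo D d ψ x F W' AL' AR' z1 z2 τ ρ0 μ) {Y : Set ℂ} (hY : PvxOk Y (closure D) μ) (s : ℂ → Bool) {eL eR : ℂ}
    (hb : PvxBank F Y (F.B Y s) eL eR) (hL : 3 * τ + 3 * μ < dist eL z1) (hR : 3 * τ + 3 * μ < dist eR z2) :
    ∃ (σ : ℝ → ℂ) (P : Set ℂ), ContinuousOn σ (Icc 0 1) ∧ (∀ t ∈ Icc (0 : ℝ) 1, σ t ∈ closure D) ∧ σ 0 ∈ pvArcL D d ψ x ∧ σ 1 ∈ pvArcR D d ψ ∧
      IsCompact (closedBall eL (τ + 3 * μ) ∪ closedBall eR (τ + 3 * μ)) ∧ IsCompact P ∧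
      (∀ t ∈ Icc (0 : ℝ) 1, σ t ∈ closedBall eL (τ + 3 * μ) ∪ closedBall eR (τ + 3 * μ) ∨ σ t ∈ P) ∧
      (∀ w ∈ pvxH Y s, Disjoint P (vorCell Y w)) ∧ ∀ t ∈ Icc (0 : ℝ) 1, σ t ∉ pvxT0 F Y s := by
  obtain ⟨γ, P, h1, h2, h3, h4, h5, h6, h7, h8, h9⟩ := pvxy_gamma G hY s hb hL hR
  refine ⟨γ, P, h1.continuousOn, fun t _ => h2 t, h3, h4, (isCompact_closedBall _ _).union (isCompact_closedBall _ _), h5, fun t _ => h7 t, ?_,
    fun t _ => pvxy_miss_T0 (h8 t) (h9 t)⟩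
  intro w hw
  rw [Set.disjoint_left]
  intro z hz
  refine pvxy_strict_miss (h6 hz) ⟨hw.1, fun hB => ?_⟩
  have := (pvx_B_sub hB).2
  rw [hw.2] at this
  exact Bool.noConfusion this

end gamma

end Claimed.Agent.R289
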