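import Claimed.Agent.R289.Ext.Sub
import Claimed.Agent.R289.Ext.Defs

/-!
# Row 289 (S0537), unit EXT, block GEO: SECTORS, ZONES, SLITS, CORNERS      (helper270 + helper61 + helper10; prefix `pvxz_`, `PvChart.*`)

Design of helper74 (09:10Z).      `Ψ = h.disc : closure D → closed disc`.      NO ANGLES: sectors are defined through the radial projection onto the frontier.
* `h.bp r`          the frontier point of chart coordinate `r : ℝ`
* `h.prj z`         radial projection `Ψ⁻¹ (Ψ z / ‖Ψ z‖)` of `z ∈ closure D`, `Ψ z ≠ 0`, onto the frontier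
* `h.sec s A`       the SECTOR over `A ⊆ frontier D`: `z ∈ closure D`, `s ≤ ‖Ψ z‖`, `h.prj z ∈ A`;      `= rad '' (Icc s 1 ×ˢ A)`
* `pvxzArc D d ψ p q`, `pvxzCo D d ψ p q`      the frontier arc `ψ⁻¹ [p,q]` and the complementary closed arc `{d} ∪ ψ⁻¹ ((-∞,p] ∪ [q,∞))`
-/

set_option autoImplicit false

namespace Claimed.Agent.R289

open Complex MeasureTheory Set Filter Topology
open Claims.C0465

/-- the frontier arc `ψ⁻¹ [p, q]` -/
def pvxzArc (D : Set ℂ) (d : ℂ) (ψ : ℂ → ℂ) (p q : ℝ) : Set ℂ := {z | z ∈ frontier D ∧ z ≠ d ∧ p ≤ (ψ z).re ∧ (ψ z).re ≤ q}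

/-- the frontier arc `{d} ∪ ψ⁻¹ ((-∞, p] ∪ [q, ∞))` -/
def pvxzCo (D : Set ℂ) (d : ℂ) (ψ : ℂ → ℂ) (p q : ℝ) : Set ℂ := {z | z = d ∨ (z ∈ frontier D ∧ z ≠ d ∧ ((ψ z).re ≤ p ∨ q ≤ (ψ z).re))}

namespace PvChart

variable {D : Set ℂ} {d : ℂ} {ψ : ℂ → ℂ}

/-- the frontier point of chart coordinate `r` -/
noncomputable def bp (h : PvChart D d ψ) (r : ℝ) : ℂ := h.dinv (pvchC (r : ℂ))

/-- the radial projection onto the frontier -/
noncomputable def prj (h : PvChart D d ψ) (z : ℂ) : ℂ := h.dinv (h.disc z / (‖h.disc z‖ : ℂ))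

/-- the sector over `A ⊆ frontier D` from the level `s` to the frontier -/
def sec (h : PvChart D d ψ) (s : ℝ) (A : Set ℂ) : Set ℂ := {z | z ∈ closure D ∧ s ≤ ‖h.disc z‖ ∧ h.prj z ∈ A}

end PvChart

theorem pvxz_eqns_cite : True := by
  have := @pvxzArc.eq_1; have := @pvxzCo.eq_1; have := @PvChart.bp.eq_1; have := @PvChart.prj.eq_1; have := @PvChart.sec.eq_1
  trivial

namespace PvChart

variable {D : Set ℂ} {d : ℂ} {ψ : ℂ → ℂ}

/-! ## 1. the radial projection -/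

theorem unit_norm {ζ : ℂ} (hζ : ζ ≠ 0) : ‖ζ / (‖ζ‖ : ℂ)‖ = 1 := by
  rw [norm_div, Complex.norm_real, norm_norm, div_self (norm_ne_zero_iff.2 hζ)]

theorem prj_mem_fr (h : PvChart D d ψ) {z : ℂ} (hz : h.disc z ≠ 0) : h.prj z ∈ frontier D := h.dinv_mem_fr (unit_norm hz)

theorem disc_prj (h : PvChart D d ψ) {z : ℂ} (hz : h.disc z ≠ 0) : h.disc (h.prj z) = h.disc z / (‖h.disc z‖ : ℂ) :=
  h.disc_dinv (unit_norm hz).le

/-- `z` lies on the radial segment of its projection -/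
theorem rad_prj (h : PvChart D d ψ) {z : ℂ} (hzc : z ∈ closure D) (hz : h.disc z ≠ 0) : h.rad ‖h.disc z‖ (h.prj z) = z := by
  have hn : (‖h.disc z‖ : ℂ) ≠ 0 := by exact_mod_cast norm_ne_zero_iff.2 hz
  rw [rad, h.disc_prj hz, mul_div_cancel₀ _ hn, h.dinv_disc hzc]

theorem rad_mem_closure (h : PvChart D d ψ) {t : ℝ} (ht0 : 0 ≤ t) (ht1 : t ≤ 1) {a : ℂ} (ha : a ∈ closure D) : h.rad t a ∈ closure D := by
  apply h.dinv_mem
  rw [norm_real_mul t ht0]
  nlinarith [h.disc_norm_le ha, norm_nonneg (h.disc a)]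

theorem disc_rad' (h : PvChart D d ψ) {t : ℝ} (ht0 : 0 ≤ t) (ht1 : t ≤ 1) {a : ℂ} (ha : a ∈ closure D) : h.disc (h.rad t a) = t * h.disc a := by
  apply h.disc_dinv
  rw [norm_real_mul t ht0]
  nlinarith [h.disc_norm_le ha, norm_nonneg (h.disc a)]

theorem norm_disc_rad (h : PvChart D d ψ) {t : ℝ} (ht0 : 0 ≤ t) (ht1 : t ≤ 1) {a : ℂ} (ha : a ∈ frontier D) : ‖h.disc (h.rad t a)‖ = t := by
  rw [h.disc_rad' ht0 ht1 (frontier_subset_closure ha), norm_real_mul t ht0, h.disc_norm_eq ha, mul_one]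

theorem prj_rad (h : PvChart D d ψ) {t : ℝ} (ht0 : 0 < t) (ht1 : t ≤ 1) {a : ℂ} (ha : a ∈ frontier D) : h.prj (h.rad t a) = a := by
  have htc : (t : ℂ) ≠ 0 := by exact_mod_cast ht0.ne'
  rw [prj, h.norm_disc_rad ht0.le ht1 ha, h.disc_rad' ht0.le ht1 (frontier_subset_closure ha), mul_div_cancel_left₀ _ htc,
    h.dinv_disc (frontier_subset_closure ha)]

/-- joint continuity of the radial map -/
theorem rad_cont2 (h : PvChart D d ψ) : ContinuousOn (fun p : ℝ × ℂ => h.rad p.1 p.2) (Icc 0 1 ×ˢ closure D) := by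
  have h1 : ContinuousOn (fun p : ℝ × ℂ => (p.1 : ℂ) * h.disc p.2) (Icc 0 1 ×ˢ closure D) := by
    refine ContinuousOn.mul (by fun_prop) ?_
    exact h.disc_cont.comp continuousOn_snd fun p hp => hp.2
  refine h.dinv_cont.comp h1 fun p hp => ?_
  rw [mem_closedBall_zero_iff, norm_real_mul p.1 hp.1.1]
  nlinarith [h.disc_norm_le hp.2, norm_nonneg (h.disc p.2), hp.1.1, hp.1.2]

/-! ## 2. sectors -/

theorem sec_sub (h : PvChart D d ψ) (s : ℝ) (A : Set ℂ) : h.sec s A ⊆ closure D := fun _ hz => hz.1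

theorem sec_mono (h : PvChart D d ψ) {s s' : ℝ} {A A' : Set ℂ} (hs : s' ≤ s) (hA : A ⊆ A') : h.sec s A ⊆ h.sec s' A' :=
  fun _ hz => ⟨hz.1, hs.trans hz.2.1, hA hz.2.2⟩

theorem sec_inter (h : PvChart D d ψ) (s s' : ℝ) (A A' : Set ℂ) : h.sec s A ∩ h.sec s' A' = h.sec (max s s') (A ∩ A') := by
  ext z
  simp only [sec, mem_inter_iff, mem_ofPred_eq, max_le_iff]
  tauto

theorem sec_disc_ne (h : PvChart D d ψ) {s : ℝ} (hs : 0 < s) {A : Set ℂ} {z : ℂ} (hz : z ∈ h.sec s A) : h.disc z ≠ 0 := fun e => by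
  have := hz.2.1
  rw [e, norm_zero] at this
  linarith

/-- **a sector is the image of a rectangle** under the radial map -/
theorem sec_eq_image (h : PvChart D d ψ) {s : ℝ} (hs : 0 < s) {A : Set ℂ} (hA : A ⊆ frontier D) :
    h.sec s A = (fun p : ℝ × ℂ => h.rad p.1 p.2) '' (Icc s 1 ×ˢ A) := by
  ext z
  constructor
  · intro hz
    exact ⟨(‖h.disc z‖, h.prj z), ⟨⟨hz.2.1, h.disc_norm_le hz.1⟩, hz.2.2⟩, h.rad_prj hz.1 (h.sec_disc_ne hs hz)⟩
  · rintro ⟨⟨t, a⟩, ⟨⟨ht0, ht1⟩, ha⟩, rfl⟩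
    have ht : 0 < t := hs.trans_le ht0
    refine ⟨h.rad_mem_closure ht.le ht1 (frontier_subset_closure (hA ha)), ?_, ?_⟩
    · show s ≤ ‖h.disc (h.rad t a)‖
      rw [h.norm_disc_rad ht.le ht1 (hA ha)]
      exact ht0
    · show h.prj (h.rad t a) ∈ A
      rw [h.prj_rad ht ht1 (hA ha)]
      exact ha

theorem rect_sub (h : PvChart D d ψ) {s : ℝ} (hs : 0 < s) {A : Set ℂ} (hA : A ⊆ frontier D) : Icc s 1 ×ˢ A ⊆ Icc (0 : ℝ) 1 ×ˢ closure D :=
  fun _ hp => ⟨⟨hs.le.trans hp.1.1, hp.1.2⟩, frontier_subset_closure (hA hp.2)⟩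

theorem sec_compact (h : PvChart D d ψ) {s : ℝ} (hs : 0 < s) {A : Set ℂ} (hA : A ⊆ frontier D) (hAc : IsCompact A) : IsCompact (h.sec s A) := by
  rw [h.sec_eq_image hs hA]
  exact (isCompact_Icc.prod hAc).image_of_continuousOn (h.rad_cont2.mono (h.rect_sub hs hA))

theorem sec_preconnected (h : PvChart D d ψ) {s : ℝ} (hs : 0 < s) {A : Set ℂ} (hA : A ⊆ frontier D) (hAc : IsPreconnected A) :
    IsPreconnected (h.sec s A) := by
  rw [h.sec_eq_image hs hA]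
  exact (isPreconnected_Icc.prod hAc).image _ (h.rad_cont2.mono (h.rect_sub hs hA))

/-- the frontier part of a sector -/
theorem sub_sec (h : PvChart D d ψ) {s : ℝ} (hs : 0 < s) (hs1 : s ≤ 1) {A : Set ℂ} (hA : A ⊆ frontier D) : A ⊆ h.sec s A := by
  intro a ha
  rw [h.sec_eq_image hs hA]
  exact ⟨(1, a), ⟨⟨hs1, le_rfl⟩, ha⟩, h.rad_one (frontier_subset_closure (hA ha))⟩

/-- **cover**: a point of `closure D` off the subdomain `sd s` lies in the sector over any set that contains its projection -/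
theorem mem_sec_of_notMem_sd (h : PvChart D d ψ) {s : ℝ} {z : ℂ} (hz : z ∈ closure D) (hzs : z ∉ h.sd s) (hs1 : s ≤ 1) : z ∈ h.sec s {h.prj z} := by
  refine ⟨hz, ?_, rfl⟩
  by_cases hzD : z ∈ D
  · exact not_lt.1 fun hlt => hzs ⟨hzD, hlt⟩
  · have hzf : z ∈ frontier D := by
      rw [frontier, h.isOpen.interior_eq]
      exact ⟨hz, hzD⟩
    rw [h.disc_norm_eq hzf]
    exact hs1

theorem sec_disjoint_sd (h : PvChart D d ψ) (s : ℝ) (A : Set ℂ) : Disjoint (h.sec s A) (h.sd s) :=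
  Set.disjoint_left.2 fun _ hz hz' => absurd hz'.2 (not_lt.2 hz.2.1)

/-! ## 3. slits -/

/-- **SLIT**: the radial segment from `y` to its projection, reparametrised on `[0,1]` -/
noncomputable def slit (h : PvChart D d ψ) (y : ℂ) (t : ℝ) : ℂ := h.rad (‖h.disc y‖ + t * (1 - ‖h.disc y‖)) (h.prj y)

theorem slit_par (h : PvChart D d ψ) {y : ℂ} (hy : y ∈ closure D) {t : ℝ} (ht : t ∈ Icc (0 : ℝ) 1) :
    ‖h.disc y‖ ≤ ‖h.disc y‖ + t * (1 - ‖h.disc y‖) ∧ ‖h.disc y‖ + t * (1 - ‖h.disc y‖) ≤ 1 := by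
  have h1 := h.disc_norm_le hy
  constructor
  · nlinarith [ht.1]
  · nlinarith [ht.2]

theorem slit_zero (h : PvChart D d ψ) {y : ℂ} (hy : y ∈ closure D) (hy0 : h.disc y ≠ 0) : h.slit y 0 = y := by
  rw [slit, zero_mul, add_zero, h.rad_prj hy hy0]

theorem slit_one (h : PvChart D d ψ) {y : ℂ} (hy0 : h.disc y ≠ 0) : h.slit y 1 = h.prj y := by
  rw [slit, one_mul, add_sub_cancel, h.rad_one (frontier_subset_closure (h.prj_mem_fr hy0))]

theorem slit_cont (h : PvChart D d ψ) {y : ℂ} (hy : y ∈ closure D) (hy0 : h.disc y ≠ 0) : ContinuousOn (h.slit y) (Icc 0 1) := by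
  have h1 : ContinuousOn (fun t : ℝ => ‖h.disc y‖ + t * (1 - ‖h.disc y‖)) (Icc 0 1) := by fun_prop
  refine (h.rad_cont (frontier_subset_closure (h.prj_mem_fr hy0))).comp h1 fun t ht => ?_
  exact ⟨(norm_nonneg _).trans (h.slit_par hy ht).1, (h.slit_par hy ht).2⟩

theorem slit_mem (h : PvChart D d ψ) {s : ℝ} (hs : 0 < s) {A : Set ℂ} {y : ℂ} (hy : y ∈ h.sec s A) {t : ℝ} (ht : t ∈ Icc (0 : ℝ) 1) :
    h.slit y t ∈ h.sec s A := by
  have hy0 := h.sec_disc_ne hs hy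
  have hp := h.slit_par hy.1 ht
  have hf := h.prj_mem_fr hy0
  have hpos : 0 < ‖h.disc y‖ + t * (1 - ‖h.disc y‖) := (hs.trans_le hy.2.1).trans_le hp.1
  refine ⟨h.rad_mem_closure hpos.le hp.2 (frontier_subset_closure hf), ?_, ?_⟩
  · show s ≤ ‖h.disc (h.rad _ _)‖
    rw [h.norm_disc_rad hpos.le hp.2 hf]
    exact hy.2.1.trans hp.1
  · show h.prj (h.rad _ _) ∈ A
    rw [h.prj_rad hpos hp.2 hf]
    exact hy.2.2

/-- the projection is constant along the slit -/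
theorem prj_slit (h : PvChart D d ψ) {y : ℂ} (hy : y ∈ closure D) (hy0 : h.disc y ≠ 0) {t : ℝ} (ht : t ∈ Icc (0 : ℝ) 1) : h.prj (h.slit y t) = h.prj y := by
  have hp := h.slit_par hy ht
  exact h.prj_rad ((norm_pos_iff.2 hy0).trans_le hp.1) hp.2 (h.prj_mem_fr hy0)

/-- **thin sectors**: for `s` close to `1` every point of a sector is `τ`-close to its projection -/
theorem sec_thin (h : PvChart D d ψ) {τ : ℝ} (hτ : 0 < τ) : ∃ s0 : ℝ, 0 < s0 ∧ s0 < 1 ∧ ∀ s : ℝ, s0 ≤ s → ∀ (A : Set ℂ), ∀ y ∈ h.sec s A, dist y (h.prj y) < τ := by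
  obtain ⟨s0, h0, h1, H⟩ := h.rad_unif hτ
  refine ⟨s0, h0, h1, fun s hs A y hy => ?_⟩
  have hy0 := h.sec_disc_ne (h0.trans_le hs) hy
  have := H ‖h.disc y‖ (hs.trans hy.2.1) (h.disc_norm_le hy.1) (h.prj y) (frontier_subset_closure (h.prj_mem_fr hy0))
  rwa [h.rad_prj hy.1 hy0, ← dist_eq_norm] at this

/-! ## 4. frontier points and arcs in the chart coordinate -/

theorem C_real_norm (r : ℝ) : ‖pvchC (r : ℂ)‖ = 1 := pvch_C_norm_eq (by simp)

theorem bp_mem_fr (h : PvChart D d ψ) (r : ℝ) : h.bp r ∈ frontier D := h.dinv_mem_fr (C_real_norm r)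

theorem disc_bp (h : PvChart D d ψ) (r : ℝ) : h.disc (h.bp r) = pvchC (r : ℂ) := h.disc_dinv (C_real_norm r).le

theorem bp_ne_d (h : PvChart D d ψ) (r : ℝ) : h.bp r ≠ d := fun e => by
  have h1 := h.disc_bp r
  rw [e, h.disc_d] at h1
  exact pvch_C_ne_one (w := (r : ℂ)) (by simp) h1.symm

theorem psi_bp (h : PvChart D d ψ) (r : ℝ) : ψ (h.bp r) = (r : ℂ) := by
  have h1 := h.disc_bp r
  rw [h.disc_of_ne (h.bp_ne_d r)] at h1
  have h2 := congrArg pvchCi h1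
  rwa [pvch_Ci_C (h.im_nonneg (frontier_subset_closure (h.bp_mem_fr r)) (h.bp_ne_d r)), pvch_Ci_C (by simp)] at h2

theorem bp_psi (h : PvChart D d ψ) {z : ℂ} (hz : z ∈ frontier D) (hzd : z ≠ d) : h.bp (ψ z).re = z := by
  have e : (((ψ z).re : ℝ) : ℂ) = ψ z := by
    apply Complex.ext
    · simp
    · simp [h.im_zero hz hzd]
  rw [bp, e, ← h.disc_of_ne hzd, h.dinv_disc (frontier_subset_closure hz)]

theorem bp_cont (h : PvChart D d ψ) : Continuous h.bp := by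
  have h1 : Continuous fun r : ℝ => pvchC (r : ℂ) := by
    refine continuous_iff_continuousAt.2 fun r => ?_
    exact (pvchC_contAt (w := (r : ℂ)) (by simp)).comp Complex.continuous_ofReal.continuousAt
  exact h.dinv_cont.comp_continuous h1 fun r => mem_closedBall_zero_iff.2 (C_real_norm r).le

end PvChart

variable {D : Set ℂ} {d : ℂ} {ψ : ℂ → ℂ}

theorem pvxz_arc_eq (h : PvChart D d ψ) (p q : ℝ) : pvxzArc D d ψ p q = h.bp '' Icc p q := by
  ext z
  constructor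
  · rintro ⟨hz, hzd, h1, h2⟩
    exact ⟨(ψ z).re, ⟨h1, h2⟩, h.bp_psi hz hzd⟩
  · rintro ⟨r, ⟨h1, h2⟩, rfl⟩
    refine ⟨h.bp_mem_fr r, h.bp_ne_d r, ?_, ?_⟩ <;> rw [h.psi_bp r, Complex.ofReal_re] <;> assumption

theorem pvxz_arc_sub (p q : ℝ) : pvxzArc D d ψ p q ⊆ frontier D := fun _ hz => hz.1

theorem pvxz_co_sub (h : PvChart D d ψ) (p q : ℝ) : pvxzCo D d ψ p q ⊆ frontier D := by
  rintro z (rfl | hz)
  · exact h.hd
  · exact hz.1

theorem pvxz_arc_compact (h : PvChart D d ψ) (p q : ℝ) : IsCompact (pvxzArc D d ψ p q) := by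
  rw [pvxz_arc_eq h]
  exact isCompact_Icc.image h.bp_cont

theorem pvxz_arc_preconnected (h : PvChart D d ψ) (p q : ℝ) : IsPreconnected (pvxzArc D d ψ p q) := by
  rw [pvxz_arc_eq h]
  exact isPreconnected_Icc.image _ h.bp_cont.continuousOn

/-- the open arc of the circle of chart coordinates in `(p, q)` -/
theorem pvxz_T_open (p q : ℝ) : IsOpen {ζ : ℂ | ζ ≠ 1 ∧ p < (pvchCi ζ).re ∧ (pvchCi ζ).re < q} := by
  have h1 : ContinuousOn (fun ζ : ℂ => (pvchCi ζ).re) {ζ : ℂ | ζ ≠ 1} := fun ζ hζ =>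
    (Complex.continuous_re.continuousAt.comp (pvch_Ci_contAt hζ)).continuousWithinAt
  exact h1.isOpen_inter_preimage isOpen_ne isOpen_Ioo

theorem pvxz_co_eq (h : PvChart D d ψ) (p q : ℝ) :
    pvxzCo D d ψ p q = h.dinv '' (Metric.sphere 0 1 \ {ζ : ℂ | ζ ≠ 1 ∧ p < (pvchCi ζ).re ∧ (pvchCi ζ).re < q}) := by
  ext z
  constructor
  · rintro (rfl | ⟨hz, hzd, hc⟩)
    · exact ⟨1, ⟨by simp, fun hT => hT.1 rfl⟩, h.dinv_one⟩
    · refine ⟨h.disc z, ⟨mem_sphere_zero_iff_norm.2 (h.disc_norm_eq hz), fun hT => ?_⟩, h.dinv_disc (frontier_subset_closure hz)⟩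
      have e : pvchCi (h.disc z) = ψ z := by
        rw [h.disc_of_ne hzd, pvch_Ci_C (h.im_nonneg (frontier_subset_closure hz) hzd)]
      have h2 := hT.2
      rw [e] at h2
      rcases hc with hc | hc
      · linarith [h2.1]
      · linarith [h2.2]
  · rintro ⟨ζ, ⟨hζ, hT⟩, rfl⟩
    have hn : ‖ζ‖ = 1 := mem_sphere_zero_iff_norm.1 hζ
    by_cases h1 : ζ = 1
    · left; rw [h1, h.dinv_one]
    · right
      have hd' : h.dinv ζ ≠ d := fun e => by
        have := h.disc_dinv hn.le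
        rw [e, h.disc_d] at this
        exact h1 this.symm
      have hf := h.dinv_mem_fr hn
      have e : ψ (h.dinv ζ) = pvchCi ζ := by
        have h2 := h.disc_dinv hn.le
        rw [h.disc_of_ne hd'] at h2
        have h3 := pvch_Ci_C (h.im_nonneg (frontier_subset_closure hf) hd')
        rw [h2] at h3
        exact h3.symm
      refine ⟨hf, hd', ?_⟩
      rw [e]
      by_contra hcon
      push Not at hcon
      exact hT ⟨h1, hcon.1, hcon.2⟩

/-- (d), helper61: the arc through the pole is compact -/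
theorem pvxz_co_compact (h : PvChart D d ψ) {p q : ℝ} (hpq : p ≤ q) : IsCompact (pvxzCo D d ψ p q) := by
  rw [pvxz_co_eq h]
  exact ((isCompact_sphere 0 1).diff (pvxz_T_open p q)).image_of_continuousOn
    (h.dinv_cont.mono (sdiff_subset.trans Metric.sphere_subset_closedBall))

/-- the frontier point of coordinate `r` tends to the pole as `|r| → ∞` -/
theorem pvxz_bp_tendsto (h : PvChart D d ψ) : Tendsto h.bp (cocompact ℝ) (𝓝 d) := by
  have h1 : Tendsto (fun r : ℝ => pvchC (r : ℂ)) (cocompact ℝ) (𝓝 1) := by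
    have e : ∀ r : ℝ, pvchC (r : ℂ) = 1 - 2 * I / ((r : ℂ) + I) := fun r => by
      rw [← pvch_one_sub_C (w := (r : ℂ)) (by simp)]; ring
    simp_rw [e]
    have h2 : Tendsto (fun r : ℝ => ‖(r : ℂ) + I‖) (cocompact ℝ) atTop := by
      refine tendsto_atTop_mono (fun r => ?_) (tendsto_norm_cocompact_atTop (E := ℝ))
      have := Complex.abs_re_le_norm ((r : ℂ) + I)
      simpa using this
    have h3 : Tendsto (fun r : ℝ => 2 * I / ((r : ℂ) + I)) (cocompact ℝ) (𝓝 0) := by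
      rw [tendsto_zero_iff_norm_tendsto_zero]
      simp_rw [norm_div]
      exact h2.const_div_atTop _
    simpa using tendsto_const_nhds.sub h3
  have h4 : Tendsto (fun r : ℝ => pvchC (r : ℂ)) (cocompact ℝ) (𝓝[Metric.closedBall 0 1] 1) :=
    tendsto_nhdsWithin_iff.2 ⟨h1, Eventually.of_forall fun r => mem_closedBall_zero_iff.2 (PvChart.C_real_norm r).le⟩
  have h5 : Tendsto h.dinv (𝓝[Metric.closedBall 0 1] 1) (𝓝 (h.dinv 1)) := h.dinv_cont 1 (by simp)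
  rw [h.dinv_one] at h5
  exact h5.comp h4

/-- (d), helper61: the arc through the pole is connected -/
theorem pvxz_co_preconnected (h : PvChart D d ψ) {p q : ℝ} (hpq : p ≤ q) : IsPreconnected (pvxzCo D d ψ p q) := by
  have e : pvxzCo D d ψ p q = (h.bp '' Iic p ∪ {d}) ∪ (h.bp '' Ici q ∪ {d}) := by
    ext z
    constructor
    · rintro (rfl | ⟨hz, hzd, hc | hc⟩)
      · exact Or.inl (Or.inr rfl)
      · exact Or.inl (Or.inl ⟨(ψ z).re, hc, h.bp_psi hz hzd⟩)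
      · exact Or.inr (Or.inl ⟨(ψ z).re, hc, h.bp_psi hz hzd⟩)
    · rintro ((⟨r, hr, rfl⟩ | hz) | (⟨r, hr, rfl⟩ | hz))
      · exact Or.inr ⟨h.bp_mem_fr r, h.bp_ne_d r, Or.inl (by rw [h.psi_bp r, Complex.ofReal_re]; exact hr)⟩
      · exact Or.inl hz
      · exact Or.inr ⟨h.bp_mem_fr r, h.bp_ne_d r, Or.inr (by rw [h.psi_bp r, Complex.ofReal_re]; exact hr)⟩
      · exact Or.inl hz
  have hbot : Tendsto h.bp atBot (𝓝 d) := (pvxz_bp_tendsto h).mono_left atBot_le_cocompact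
  have htop : Tendsto h.bp atTop (𝓝 d) := (pvxz_bp_tendsto h).mono_left atTop_le_cocompact
  have c1 : d ∈ closure (h.bp '' Iic p) :=
    mem_closure_of_tendsto hbot ((eventually_le_atBot p).mono fun r hr => ⟨r, hr, rfl⟩)
  have c2 : d ∈ closure (h.bp '' Ici q) :=
    mem_closure_of_tendsto htop ((eventually_ge_atTop q).mono fun r hr => ⟨r, hr, rfl⟩)
  have p1 : IsPreconnected (h.bp '' Iic p ∪ {d}) :=
    (isPreconnected_Iic.image _ h.bp_cont.continuousOn).subset_closure subset_union_left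
      (union_subset subset_closure (singleton_subset_iff.2 c1))
  have p2 : IsPreconnected (h.bp '' Ici q ∪ {d}) :=
    (isPreconnected_Ici.image _ h.bp_cont.continuousOn).subset_closure subset_union_left
      (union_subset subset_closure (singleton_subset_iff.2 c2))
  rw [e]
  exact IsPreconnected.union d (Or.inr rfl) (Or.inr rfl) p1 p2

/-- the four arcs cover the frontier -/
theorem pvxz_fr_cover (p1 p2 p3 p4 : ℝ) {z : ℂ} (hz : z ∈ frontier D) :
    z ∈ pvxzArc D d ψ p1 p2 ∨ z ∈ pvxzArc D d ψ p2 p3 ∨ z ∈ pvxzArc D d ψ p3 p4 ∨ z ∈ pvxzCo D d ψ p1 p4 := by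
  by_cases hzd : z = d
  · exact Or.inr (Or.inr (Or.inr (Or.inl hzd)))
  rcases le_total (ψ z).re p1 with h1 | h1
  · exact Or.inr (Or.inr (Or.inr (Or.inr ⟨hz, hzd, Or.inl h1⟩)))
  rcases le_total (ψ z).re p2 with h2 | h2
  · exact Or.inl ⟨hz, hzd, h1, h2⟩
  rcases le_total (ψ z).re p3 with h3 | h3
  · exact Or.inr (Or.inl ⟨hz, hzd, h2, h3⟩)
  rcases le_total (ψ z).re p4 with h4 | h4
  · exact Or.inr (Or.inr (Or.inl ⟨hz, hzd, h3, h4⟩))
  · exact Or.inr (Or.inr (Or.inr (Or.inr ⟨hz, hzd, Or.inr h4⟩)))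

/-- an arc and the complementary arc meet in the two end points only -/
theorem pvxz_arc_inter_co (h : PvChart D d ψ) {p q q' : ℝ} (hq : q < q') : pvxzArc D d ψ p q ∩ pvxzCo D d ψ p q' ⊆ {h.bp p} := by
  rintro z ⟨⟨hz, hzd, h1, h2⟩, (h3 | ⟨-, -, h3 | h3⟩)⟩
  · exact absurd h3 hzd
  · rw [mem_singleton_iff, ← h.bp_psi hz hzd, le_antisymm h3 h1]
  · linarith

theorem pvxz_arc_inter_co' (h : PvChart D d ψ) {p p' q : ℝ} (hp : p' < p) : pvxzArc D d ψ p q ∩ pvxzCo D d ψ p' q ⊆ {h.bp q} := by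
  rintro z ⟨⟨hz, hzd, h1, h2⟩, (h3 | ⟨-, -, h3 | h3⟩)⟩
  · exact absurd h3 hzd
  · linarith
  · rw [mem_singleton_iff, ← h.bp_psi hz hzd, le_antisymm h2 h3]

/-! ## 5. metric lemmas -/

/-- **(g)**: frontier points close to a thin sector over `[p,q]` lie on the larger arc `[p',q']`; `ρ0` and `s0` depend on the arcs only -/
theorem pvxz_far (h : PvChart D d ψ) {p q p' q' : ℝ} (hp : p' < p) (hq : q < q') :
    ∃ ρ0 s0 : ℝ, 0 < ρ0 ∧ 0 < s0 ∧ s0 < 1 ∧ ∀ s : ℝ, s0 ≤ s → ∀ y ∈ h.sec s (pvxzArc D d ψ p q), ∀ w ∈ closure D, dist w y < ρ0 →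
      w ≠ d ∧ p' ≤ (ψ w).re ∧ (ψ w).re ≤ q' := by
  obtain ⟨ρ1, hρ1, H⟩ := pvx1_sep h p' q' (κ := min (p - p') (q' - q)) (lt_min (by linarith) (by linarith))
  obtain ⟨s0, h0, h1, T⟩ := h.sec_thin (half_pos hρ1)
  refine ⟨ρ1 / 2, s0, half_pos hρ1, h0, h1, fun s hs y hy w hw hwy => ?_⟩
  have hpy := hy.2.2
  refine H (h.prj y) hpy.1 hpy.2.1 ?_ ?_ w hw ?_
  · have := min_le_left (p - p') (q' - q)
    linarith [hpy.2.2.1]
  · have := min_le_right (p - p') (q' - q)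
    linarith [hpy.2.2.2]
  · have := T s hs _ y hy
    linarith [dist_triangle w y (h.prj y)]

/-- **(h)**: two compact sets whose intersection lies in `closedBall zc τ` are close to each other only near `zc` -/
theorem pvxz_near {A B : Set ℂ} (hA : IsCompact A) (hB : IsCompact B) {zc : ℂ} {τ : ℝ} (hc : A ∩ B ⊆ Metric.closedBall zc τ) (hτ : 0 < τ) :
    ∃ μ : ℝ, 0 < μ ∧ ∀ y ∈ A, ∀ w ∈ B, dist y w < μ → dist y zc < 2 * τ := by
  have hA' : IsCompact (A \ Metric.ball zc (2 * τ)) := hA.diff Metric.isOpen_ball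
  have hdis : Disjoint (A \ Metric.ball zc (2 * τ)) B := by
    rw [Set.disjoint_left]
    rintro z ⟨hzA, hzb⟩ hzB
    have h1 : dist z zc ≤ τ := hc ⟨hzA, hzB⟩
    exact hzb (Metric.mem_ball.2 (by linarith))
  obtain ⟨δ, hδ, hd⟩ := hdis.exists_thickenings hA' hB.isClosed
  refine ⟨δ, hδ, fun y hy w hw hyw => ?_⟩
  by_contra hcon
  have h1 : y ∈ A \ Metric.ball zc (2 * τ) := ⟨hy, fun hb => hcon (Metric.mem_ball.1 hb)⟩
  exact Set.disjoint_left.1 hd (Metric.self_subset_thickening hδ _ h1) (Metric.mem_thickening_iff.2 ⟨w, hw, hyw⟩)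

/-- **(f)**, helper10: a neighbourhood of the part of the level curve `‖Ψ‖ = s` over the arc `[p,q]` lies in the sector from `s1 < s` over the larger arc `[p',q']` -/
theorem pvxz_land (h : PvChart D d ψ) {p q p' q' s1 s : ℝ} (hp : p' < p) (hq : q < q') (hs1 : 0 < s1) (hs : s1 < s) (hs' : s < 1) :
    ∃ ρ : ℝ, 0 < ρ ∧ ∀ z ∈ frontier (h.sd s), h.prj z ∈ pvxzArc D d ψ p q → ∀ u : ℂ, dist u z < ρ → u ∈ h.sec s1 (pvxzArc D d ψ p' q') := by
  have hs0 : 0 < s := hs1.trans hs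
  -- frontier points near the small arc lie on the large arc
  obtain ⟨ρ1, hρ1, H⟩ := pvx1_sep h p' q' (κ := min (p - p') (q' - q)) (lt_min (by linarith) (by linarith))
  -- room inside `D`
  obtain ⟨ρa, hρa, Ha⟩ := pvx1_thick h.isOpen (h.bdd.subset (h.sd_sub s)) (h.sd_closure_sub hs0 hs')
  -- uniform continuity of the normalised inverse on the annulus
  set An : Set ℂ := Metric.closedBall 0 1 \ Metric.ball 0 s1 with hAn
  have hAnc : IsCompact An := (isCompact_closedBall 0 1).diff Metric.isOpen_ball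
  have hAn0 : ∀ ζ ∈ An, ζ ≠ 0 := fun ζ hζ e => hζ.2 (by rw [e]; exact Metric.mem_ball_self hs1)
  have hNc : ContinuousOn (fun ζ : ℂ => h.dinv (ζ / (‖ζ‖ : ℂ))) An := by
    have c1 : ContinuousOn (fun ζ : ℂ => ζ / (‖ζ‖ : ℂ)) An := by
      refine continuousOn_id.div (Complex.continuous_ofReal.comp continuous_norm).continuousOn fun ζ hζ => ?_
      exact_mod_cast norm_ne_zero_iff.2 (hAn0 ζ hζ)
    exact h.dinv_cont.comp c1 fun ζ hζ => mem_closedBall_zero_iff.2 (PvChart.unit_norm (hAn0 ζ hζ)).le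
  obtain ⟨θ1, hθ1, HN⟩ := Metric.uniformContinuousOn_iff.1 (hAnc.uniformContinuousOn_of_continuous hNc) ρ1 hρ1
  -- uniform continuity of the chart
  obtain ⟨ρb, hρb, Hb⟩ := Metric.uniformContinuousOn_iff.1 (h.bdd.isCompact_closure.uniformContinuousOn_of_continuous h.disc_cont)
    (min θ1 (s - s1)) (lt_min hθ1 (by linarith))
  refine ⟨min ρa ρb, lt_min hρa hρb, fun z hz hzA u huz => ?_⟩
  have hzf := hz
  rw [h.sd_frontier hs0 hs'] at hzf
  have hzc : z ∈ closure D := subset_closure hzf.1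
  have huD : u ∈ D := by
    have : u ∈ Metric.thickening ρa (closure (h.sd s)) :=
      Metric.mem_thickening_iff.2 ⟨z, frontier_subset_closure hz, huz.trans_le (min_le_left _ _)⟩
    rw [Metric.thickening_closure] at this
    exact Ha this
  have huc : u ∈ closure D := subset_closure huD
  have hdd := Hb u huc z hzc (huz.trans_le (min_le_right _ _))
  have hn : s1 ≤ ‖h.disc u‖ := by
    have h1 : dist (h.disc u) (h.disc z) < s - s1 := hdd.trans_le (min_le_right _ _)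
    have h2 : ‖h.disc z‖ ≤ ‖h.disc u‖ + dist (h.disc u) (h.disc z) := by
      rw [dist_eq_norm]
      have := norm_sub_le (h.disc u) (h.disc u - h.disc z)
      simpa using this
    rw [hzf.2] at h2
    linarith
  have huA : h.disc u ∈ An := ⟨mem_closedBall_zero_iff.2 (h.disc_norm_le huc), fun hb => by
    rw [mem_ball_zero_iff] at hb; linarith⟩
  have hzAn : h.disc z ∈ An := ⟨mem_closedBall_zero_iff.2 (h.disc_norm_le hzc), fun hb => by
    rw [mem_ball_zero_iff, hzf.2] at hb; linarith⟩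
  have hpp : dist (h.prj u) (h.prj z) < ρ1 := HN _ huA _ hzAn (hdd.trans_le (min_le_left _ _))
  have hfu : h.prj u ∈ frontier D := h.prj_mem_fr (hAn0 _ huA)
  obtain ⟨a, b, c⟩ := H (h.prj z) hzA.1 hzA.2.1 (by have := min_le_left (p - p') (q' - q); linarith [hzA.2.2.1])
    (by have := min_le_right (p - p') (q' - q); linarith [hzA.2.2.2]) (h.prj u) (frontier_subset_closure hfu) hpp
  exact ⟨huc, hn, hfu, a, b, c⟩

/-- (f), helper10: room between two levels -/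
theorem pvxz_room (h : PvChart D d ψ) {s s2 : ℝ} (hs0 : 0 < s) (hs : s < s2) (hs2 : s2 < 1) :
    ∃ ρ : ℝ, 0 < ρ ∧ Metric.thickening ρ (h.sd s) ⊆ h.sd s2 := by
  refine pvx1_thick (h.sd_isOpen s2) (h.bdd.subset (h.sd_sub s)) ?_
  rw [h.sd_closure hs0 (hs.trans hs2)]
  exact fun z hz => ⟨hz.1, hz.2.trans_lt hs⟩

/-! ## 6. the analytic quad at an explicit level -/

theorem PvChart.prj_eq_lift (h : PvChart D d ψ) {s : ℝ} (hs0 : 0 < s) (hs1 : s < 1) {z : ℂ} (hz : z ∈ frontier (h.sd s)) : h.prj z = h.lift s z := by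
  rw [h.sd_frontier hs0 hs1] at hz
  rw [PvChart.prj, PvChart.lift, hz.2]

/-- **the analytic quad** `(sd s; κ, x - κ, 1 + κ, 1/κ)`: its two arcs lie on the level curve over the shrunk arcs -/
theorem pvxz_quad (h : PvChart D d ψ) {x κ s : ℝ} (hx1 : x < 1) (hκ0 : 0 < κ) (hκ1 : κ < 1 / 2) (hs0 : 0 < s) (hs1 : s < 1) :
    ∃ (d' : ℂ) (ψ' : ℂ → ℂ), PvAn (h.sd s) d' ψ' ∧
      (∀ z ∈ pvArcL (h.sd s) d' ψ' (pvx1T κ (x - κ)), z ∈ frontier (h.sd s) ∧ h.prj z ∈ pvxzArc D d ψ κ (x - κ)) ∧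
      (∀ z ∈ pvArcR (h.sd s) d' ψ', z ∈ frontier (h.sd s) ∧ h.prj z ∈ pvxzArc D d ψ (1 + κ) (1 / κ)) := by
  have h0 : PvAn (h.sd s) (h.sp s) (h.sψ s) := ⟨h.sub_chart hs0 hs1, h.sub_an hs0 hs1⟩
  have hrad : ∀ z ∈ frontier (h.sd s), z ≠ h.sp s → h.prj z ∈ frontier D ∧ h.prj z ≠ d ∧ ψ (h.prj z) = h.sψ s z := by
    intro z hz hz0
    have hzc : z ∈ closure (h.sd s) := frontier_subset_closure hz
    rw [h.prj_eq_lift hs0 hs1 hz]
    exact ⟨h.lift_mem_fr hs0 hs1 hz, h.lift_ne_d hs0 hs1 hzc hz0, h.ψ_lift hs0 hs1 hzc hz0⟩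
  obtain ⟨d', ψ', h', hd'f, hd'0, hd', hψ'0, hT⟩ := pvx1_marks h0 hκ0 hκ1
  have hB := pvx1_B_neg hκ0 hκ1
  have hk2 := pvx1_inv_gt hκ0 hκ1
  refine ⟨d', ψ', h', ?_, ?_⟩
  · rintro z ⟨hzf, hzd, hz1, hz2⟩
    have hz0 : z ≠ h.sp s := by
      rintro rfl
      rw [hψ'0, Complex.ofReal_re] at hz1
      linarith
    obtain ⟨w, hw, hwk, hTw⟩ := hT z hzf hz0 hzd
    rw [hTw, Complex.ofReal_re] at hz1 hz2
    have hwlt : w < 1 / κ := by
      rcases lt_or_gt_of_ne hwk with h1 | h1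
      · exact h1
      · linarith [pvx1_T_neg hκ0 hκ1 h1]
    obtain ⟨hz'f, hz'd, hz'ψ⟩ := hrad z hzf hz0
    refine ⟨hzf, hz'f, hz'd, ?_, ?_⟩
    · rw [hz'ψ, hw, Complex.ofReal_re]
      refine (pvx1_T_le hκ0 hκ1 (by linarith) hwlt).1 ?_
      rw [pvx1_T_zero hκ0 hκ1]
      exact hz1
    · rw [hz'ψ, hw, Complex.ofReal_re]
      exact (pvx1_T_le hκ0 hκ1 hwlt (by linarith)).1 hz2
  · rintro z (rfl | ⟨hzf, hzd, hz1⟩)
    · obtain ⟨hz'f, hz'd, hz'ψ⟩ := hrad z hd'f hd'0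
      refine ⟨hd'f, hz'f, hz'd, ?_, ?_⟩
      · rw [hz'ψ, hd', Complex.ofReal_re]
        linarith
      · rw [hz'ψ, hd', Complex.ofReal_re]
    · have hz0 : z ≠ h.sp s := by
        rintro rfl
        rw [hψ'0, Complex.ofReal_re] at hz1
        linarith
      obtain ⟨w, hw, hwk, hTw⟩ := hT z hzf hz0 hzd
      rw [hTw, Complex.ofReal_re] at hz1
      have hwlt : w < 1 / κ := by
        rcases lt_or_gt_of_ne hwk with h1 | h1
        · exact h1
        · linarith [pvx1_T_neg hκ0 hκ1 h1]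
      obtain ⟨hz'f, hz'd, hz'ψ⟩ := hrad z hzf hz0
      refine ⟨hzf, hz'f, hz'd, ?_, ?_⟩
      · rw [hz'ψ, hw, Complex.ofReal_re]
        refine (pvx1_T_le hκ0 hκ1 (by linarith) hwlt).1 ?_
        rw [pvx1_T_one hκ0 hκ1]
        exact hz1
      · rw [hz'ψ, hw, Complex.ofReal_re]
        exact hwlt.le

/-! ## 7. metric neighbourhoods of frontier arcs lie in sectors -/

/-- the radial projection of a point of `closure D` close to a frontier point `z` is close to `z`, and the point is close to the frontier in the chart -/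
theorem pvxz_prj_near (h : PvChart D d ψ) {s1 ρ1 : ℝ} (hs1 : s1 < 1) (hρ1 : 0 < ρ1) :
    ∃ τ : ℝ, 0 < τ ∧ ∀ z ∈ frontier D, ∀ u ∈ closure D, dist u z < τ → s1 ≤ ‖h.disc u‖ ∧ 0 < ‖h.disc u‖ ∧ dist (h.prj u) z < ρ1 := by
  have hu1 := (isCompact_closedBall (0 : ℂ) 1).uniformContinuousOn_of_continuous h.dinv_cont
  rw [Metric.uniformContinuousOn_iff] at hu1
  obtain ⟨δ1, hδ1, H1⟩ := hu1 ρ1 hρ1
  have hu2 := h.bdd.isCompact_closure.uniformContinuousOn_of_continuous h.disc_cont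
  rw [Metric.uniformContinuousOn_iff] at hu2
  obtain ⟨τ, hτ, H2⟩ := hu2 (min (δ1 / 2) (min (1 - s1) (1 / 2))) (lt_min (by positivity) (lt_min (by linarith) (by norm_num)))
  refine ⟨τ, hτ, fun z hz u hu huz => ?_⟩
  have hzc : z ∈ closure D := frontier_subset_closure hz
  have h3 := H2 u hu z hzc huz
  have h3a : dist (h.disc u) (h.disc z) < δ1 / 2 := h3.trans_le (min_le_left _ _)
  have h3b : dist (h.disc u) (h.disc z) < 1 - s1 := h3.trans_le ((min_le_right _ _).trans (min_le_left _ _))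
  have h3c : dist (h.disc u) (h.disc z) < 1 / 2 := h3.trans_le ((min_le_right _ _).trans (min_le_right _ _))
  have hn1 : ‖h.disc z‖ = 1 := h.disc_norm_eq hz
  have hlow : 1 - dist (h.disc u) (h.disc z) ≤ ‖h.disc u‖ := by
    have := norm_sub_norm_le (h.disc z) (h.disc u)
    rw [hn1, ← dist_eq_norm, dist_comm] at this
    linarith
  have hpos : 0 < ‖h.disc u‖ := by linarith
  refine ⟨by linarith, hpos, ?_⟩
  have hu0 : h.disc u ≠ 0 := norm_pos_iff.1 hpos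
  have hle : ‖h.disc u‖ ≤ 1 := h.disc_norm_le hu
  have h4 : dist (h.disc u / (‖h.disc u‖ : ℂ)) (h.disc u) = 1 - ‖h.disc u‖ := by
    have hnc : (‖h.disc u‖ : ℂ) ≠ 0 := by exact_mod_cast hpos.ne'
    have e : h.disc u / (‖h.disc u‖ : ℂ) - h.disc u = ((1 - ‖h.disc u‖ : ℝ) : ℂ) * (h.disc u / (‖h.disc u‖ : ℂ)) := by
      push_cast
      field_simp
    rw [dist_eq_norm, e, norm_mul, PvChart.unit_norm hu0, mul_one, Complex.norm_real, Real.norm_eq_abs, abs_of_nonneg (by linarith)]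
  have h5 : dist (h.disc u / (‖h.disc u‖ : ℂ)) (h.disc z) < δ1 := by
    have := dist_triangle (h.disc u / (‖h.disc u‖ : ℂ)) (h.disc u) (h.disc z)
    linarith
  have h6 := H1 _ (mem_closedBall_zero_iff.2 (PvChart.unit_norm hu0).le) _ (mem_closedBall_zero_iff.2 hn1.le) h5
  rwa [h.dinv_disc hzc] at h6

/-- **(f')**: the part of `closure D` within `τ` of the frontier arc `[p,q]` lies in the sector from `s1` over the larger arc `[p',q']` -/
theorem pvxz_land' (h : PvChart D d ψ) {p q p' q' s1 : ℝ} (hp : p' < p) (hq : q < q') (hs1 : s1 < 1) :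
    ∃ τ : ℝ, 0 < τ ∧ ∀ z ∈ pvxzArc D d ψ p q, ∀ u ∈ closure D, dist u z < τ → u ∈ h.sec s1 (pvxzArc D d ψ p' q') := by
  obtain ⟨ρ1, hρ1, H⟩ := pvx1_sep h p' q' (κ := min (p - p') (q' - q)) (lt_min (by linarith) (by linarith))
  obtain ⟨τ, hτ, T⟩ := pvxz_prj_near h hs1 hρ1
  refine ⟨τ, hτ, fun z hz u hu huz => ?_⟩
  obtain ⟨a, b, c⟩ := T z hz.1 u hu huz
  have hf : h.prj u ∈ frontier D := h.prj_mem_fr (norm_pos_iff.1 b)
  obtain ⟨e1, e2, e3⟩ := H z hz.1 hz.2.1 (by have := min_le_left (p - p') (q' - q); linarith [hz.2.2.1])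
    (by have := min_le_right (p - p') (q' - q); linarith [hz.2.2.2]) (h.prj u) (frontier_subset_closure hf) c
  exact ⟨hu, a, hf, e1, e2, e3⟩

/-- a compact subset of `D` has a closed neighbourhood inside a subdomain `sd s2`, `s2` as close to `1` as we like -/
theorem pvxz_level (h : PvChart D d ψ) {W : Set ℂ} (hW : IsCompact W) (hWD : W ⊆ D) {s1 : ℝ} (hs1 : s1 < 1) :
    ∃ s2 μ : ℝ, s1 < s2 ∧ 0 < s2 ∧ s2 < 1 ∧ 0 < μ ∧ Metric.cthickening μ W ⊆ h.sd s2 := by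
  obtain ⟨μ, hμ, hsub⟩ := hW.exists_cthickening_subset_open h.isOpen hWD
  obtain ⟨s0, h0, h1, H⟩ := h.mem_sd_of (hW.cthickening (r := μ)) hsub
  refine ⟨max s0 ((1 + s1) / 2), μ, lt_of_lt_of_le (by linarith) (le_max_right _ _), h0.trans_le (le_max_left _ _), max_lt h1 (by linarith), hμ,
    H _ (le_max_left _ _)⟩

/-- the closed subdomain has a neighbourhood inside `D` -/
theorem pvxz_collar (h : PvChart D d ψ) {s : ℝ} (hs0 : 0 < s) (hs1 : s < 1) : ∃ μ : ℝ, 0 < μ ∧ Metric.thickening μ (h.sd s) ⊆ D :=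
  pvx1_thick h.isOpen (h.bdd.subset (h.sd_sub s)) (h.sd_closure_sub hs0 hs1)

/-! ## 8. the four zones -/

/-- the slit stays close to its starting point in a thin sector -/
theorem pvxz_slit_near (h : PvChart D d ψ) {τ : ℝ} (hτ : 0 < τ) : ∃ s0 : ℝ, 0 < s0 ∧ s0 < 1 ∧ ∀ s : ℝ, s0 ≤ s → ∀ (A : Set ℂ), ∀ y ∈ h.sec s A,
    ∀ t ∈ Icc (0 : ℝ) 1, dist (h.slit y t) y < τ ∧ dist (h.slit y t) (h.prj y) < τ := by
  obtain ⟨s0, h0, h1, T⟩ := h.sec_thin (half_pos hτ)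
  refine ⟨s0, h0, h1, fun s hs A y hy t ht => ?_⟩
  have hs0 : 0 < s := h0.trans_le hs
  have hy0 := h.sec_disc_ne hs0 hy
  have a1 := T s hs A y hy
  have a2 := T s hs A _ (h.slit_mem hs0 hy ht)
  rw [h.prj_slit hy.1 hy0 ht] at a2
  refine ⟨?_, by linarith⟩
  have := dist_triangle_right (h.slit y t) y (h.prj y)
  linarith

theorem pvxz_arc_mono {p q p' q' : ℝ} (hp : p' ≤ p) (hq : q ≤ q') : pvxzArc D d ψ p q ⊆ pvxzArc D d ψ p' q' :=
  fun _ hz => ⟨hz.1, hz.2.1, hp.trans hz.2.2.1, hz.2.2.2.trans hq⟩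

theorem pvxz_co_mono {p q p' q' : ℝ} (hp : p ≤ p') (hq : q' ≤ q) : pvxzCo D d ψ p q ⊆ pvxzCo D d ψ p' q' := by
  rintro z (hz | ⟨h1, h2, h3 | h3⟩)
  · exact Or.inl hz
  · exact Or.inr ⟨h1, h2, Or.inl (h3.trans hp)⟩
  · exact Or.inr ⟨h1, h2, Or.inr (hq.trans h3)⟩

theorem pvxz_arc_sub_L {p q x : ℝ} (hp : 0 ≤ p) (hq : q ≤ x) : pvxzArc D d ψ p q ⊆ pvArcL D d ψ x :=
  fun _ hz => ⟨hz.1, hz.2.1, hp.trans hz.2.2.1, hz.2.2.2.trans hq⟩

theorem pvxz_arc_sub_R {p q : ℝ} (hp : 1 ≤ p) : pvxzArc D d ψ p q ⊆ pvArcR D d ψ :=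
  fun _ hz => Or.inr ⟨hz.1, hz.2.1, hp.trans hz.2.2.1⟩

theorem pvxz_arc_disj {p q p' q' : ℝ} (hq : q < p') : Disjoint (pvxzArc D d ψ p q) (pvxzArc D d ψ p' q') :=
  Set.disjoint_left.2 fun _ hz hz' => by linarith [hz.2.2.2, hz'.2.2.1]

theorem pvxz_arc_co_disj {p q p' q' : ℝ} (hp : p' < p) (hq : q < q') : Disjoint (pvxzArc D d ψ p q) (pvxzCo D d ψ p' q') := by
  refine Set.disjoint_left.2 ?_
  rintro z hz (h1 | ⟨-, -, h1 | h1⟩)
  · exact hz.2.1 h1
  · linarith [hz.2.2.1]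
  · linarith [hz.2.2.2]

theorem pvxz_arc_inter (h : PvChart D d ψ) (p q r : ℝ) : pvxzArc D d ψ p q ∩ pvxzArc D d ψ q r ⊆ {h.bp q} := by
  rintro z ⟨⟨hz, hzd, -, h2⟩, ⟨-, -, h3, -⟩⟩
  rw [mem_singleton_iff, ← h.bp_psi hz hzd, le_antisymm h2 h3]

theorem PvChart.sec_disj (h : PvChart D d ψ) (s s' : ℝ) {A A' : Set ℂ} (hA : Disjoint A A') : Disjoint (h.sec s A) (h.sec s' A') :=
  Set.disjoint_left.2 fun _ hz hz' => Set.disjoint_left.1 hA hz.2.2 hz'.2.2

/-- **cover** by the subdomain and the four zones -/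
theorem pvxz_cover (h : PvChart D d ψ) (p1 p2 p3 p4 : ℝ) {s1 s2 : ℝ} (hs0 : 0 < s1) (hs : s1 ≤ s2) (hs2 : s2 ≤ 1) :
    closure D ⊆ h.sd s2 ∪ h.sec s1 (pvxzArc D d ψ p1 p2) ∪ h.sec s2 (pvxzArc D d ψ p2 p3) ∪ h.sec s1 (pvxzArc D d ψ p3 p4) ∪ h.sec s2 (pvxzCo D d ψ p1 p4) := by
  intro z hz
  by_cases hzs : z ∈ h.sd s2
  · exact Or.inl (Or.inl (Or.inl (Or.inl hzs)))
  have h1 := h.mem_sec_of_notMem_sd hz hzs hs2
  have hf : h.prj z ∈ frontier D := h.prj_mem_fr (h.sec_disc_ne (hs0.trans_le hs) h1)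
  rcases pvxz_fr_cover (d := d) (ψ := ψ) p1 p2 p3 p4 hf with c | c | c | c
  · exact Or.inl (Or.inl (Or.inl (Or.inr ⟨hz, hs.trans h1.2.1, c⟩)))
  · exact Or.inl (Or.inl (Or.inr ⟨hz, h1.2.1, c⟩))
  · exact Or.inl (Or.inr ⟨hz, hs.trans h1.2.1, c⟩)
  · exact Or.inr ⟨hz, h1.2.1, c⟩

/-- **corner**: two sectors over sets which meet in one point `a` meet only near `a` -/
theorem pvxz_corner (h : PvChart D d ψ) {τ : ℝ} (hτ : 0 < τ) : ∃ s0 : ℝ, 0 < s0 ∧ s0 < 1 ∧ ∀ s s' : ℝ, s0 ≤ max s s' → ∀ (A A' : Set ℂ) (a : ℂ), A ∩ A' ⊆ {a} →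
    h.sec s A ∩ h.sec s' A' ⊆ Metric.closedBall a τ := by
  obtain ⟨s0, h0, h1, T⟩ := h.sec_thin hτ
  refine ⟨s0, h0, h1, fun s s' hs A A' a hA y hy => ?_⟩
  rw [h.sec_inter] at hy
  have h2 := T _ hs _ y hy
  have h3 : h.prj y = a := hA hy.2.2
  rw [h3] at h2
  exact Metric.mem_closedBall.2 h2.le

/-- **(g), two sectors**: thin sectors over two arcs at positive chart distance are `ρ0` apart -/
theorem pvxz_apart (h : PvChart D d ψ) {p q p' q' : ℝ} (hq : q < p') :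
    ∃ ρ0 s0 : ℝ, 0 < ρ0 ∧ 0 < s0 ∧ s0 < 1 ∧ ∀ s s' : ℝ, s0 ≤ s → s0 ≤ s' → ∀ y ∈ h.sec s (pvxzArc D d ψ p q), ∀ y' ∈ h.sec s' (pvxzArc D d ψ p' q'), ρ0 ≤ dist y y' := by
  obtain ⟨ρ1, s1, hρ1, h10, h11, H1⟩ := pvxz_far h (p := p) (q := q) (p' := p - 1) (q' := q + (p' - q) / 3) (by linarith) (by linarith)
  obtain ⟨ρ2, s2, hρ2, h20, h21, H2⟩ := pvxz_far h (p := p') (q := q') (p' := p' - (p' - q) / 3) (q' := q' + 1) (by linarith) (by linarith)
  refine ⟨ρ1, max s1 s2, hρ1, h10.trans_le (le_max_left _ _), max_lt h11 h21, fun s s' hs hs' y hy y' hy' => ?_⟩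
  by_contra hcon
  have a1 := H1 s ((le_max_left _ _).trans hs) y hy y' hy'.1 (by rw [dist_comm]; exact not_le.1 hcon)
  have a2 := H2 s' ((le_max_right _ _).trans hs') y' hy' y' hy'.1 (by rw [dist_self]; exact hρ2)
  linarith [a1.2.2, a2.2.1]

/-! ## 9. THE EXPORT OF GEO: the record `PvxGeo` of `Ext/Defs.lean` -/

theorem PvChart.prj_of_fr (h : PvChart D d ψ) {z : ℂ} (hz : z ∈ frontier D) : h.prj z = z := by
  rw [PvChart.prj, h.disc_norm_eq hz, Complex.ofReal_one, div_one, h.dinv_disc (frontier_subset_closure hz)]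

theorem PvChart.mem_of_sec_fr (h : PvChart D d ψ) {s : ℝ} {A : Set ℂ} {z : ℂ} (hz : z ∈ frontier D) (hzs : z ∈ h.sec s A) : z ∈ A := by
  have := hzs.2.2
  rwa [h.prj_of_fr hz] at this

/-- a path on `[0,1]` as `JoinedIn` -/
theorem pvxz_joined {σ : ℝ → ℂ} {S : Set ℂ} (hσ : ContinuousOn σ (Icc 0 1)) (hS : ∀ t ∈ Icc (0 : ℝ) 1, σ t ∈ S) : JoinedIn S (σ 0) (σ 1) :=
  ⟨{ toFun := fun t => σ t
     continuous_toFun := continuousOn_iff_continuous_domRestrict.1 hσ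
     source' := by simp
     target' := by simp }, fun t => hS t t.2⟩

/-- **(g), general second sector**: a point `y'` of a thin sector close to a thin sector over `[p,q]` projects into `[p',q']` -/
theorem pvxz_sep2 (h : PvChart D d ψ) {p q p' q' : ℝ} (hp : p' < p) (hq : q < q') :
    ∃ ρ0 s0 : ℝ, 0 < ρ0 ∧ 0 < s0 ∧ s0 < 1 ∧ ∀ s s' : ℝ, s0 ≤ s → s0 ≤ s' → ∀ y ∈ h.sec s (pvxzArc D d ψ p q), ∀ (A' : Set ℂ), ∀ y' ∈ h.sec s' A',
      dist y' y < ρ0 → h.prj y' ∈ pvxzArc D d ψ p' q' := by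
  obtain ⟨ρ1, s1, hρ1, h10, h11, H⟩ := pvxz_far h hp hq
  obtain ⟨s2, h20, h21, T⟩ := h.sec_thin (half_pos hρ1)
  refine ⟨ρ1 / 2, max s1 s2, half_pos hρ1, h10.trans_le (le_max_left _ _), max_lt h11 h21, fun s s' hs hs' y hy A' y' hy' hd => ?_⟩
  have hs'0 : 0 < s' := h20.trans_le ((le_max_right _ _).trans hs')
  have hf : h.prj y' ∈ frontier D := h.prj_mem_fr (h.sec_disc_ne hs'0 hy')
  have h1 := T s' ((le_max_right _ _).trans hs') A' y' hy'
  have h2 : dist (h.prj y') y < ρ1 := by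
    have := dist_triangle (h.prj y') y' y
    rw [dist_comm (h.prj y') y'] at this
    linarith
  obtain ⟨a, b, c⟩ := H s ((le_max_left _ _).trans hs) y hy _ (frontier_subset_closure hf) h2
  exact ⟨hf, a, b, c⟩

/-- disjoint compact sets are at a positive distance -/
theorem pvxz_gap {A B : Set ℂ} (hA : IsCompact A) (hB : IsCompact B) (hAB : Disjoint A B) : ∃ δ : ℝ, 0 < δ ∧ ∀ y ∈ A, ∀ z ∈ B, δ ≤ dist y z := by
  obtain ⟨δ, hδ, hd⟩ := hAB.exists_thickenings hA hB.isClosed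
  refine ⟨δ, hδ, fun y hy z hz => ?_⟩
  by_contra hcon
  exact Set.disjoint_left.1 hd (Metric.self_subset_thickening hδ _ hy) (Metric.mem_thickening_iff.2 ⟨z, hz, not_le.1 hcon⟩)

/-- **SLIT in `JoinedIn` form** -/
theorem pvxz_slit_joined (h : PvChart D d ψ) {τ : ℝ} (hτ : 0 < τ) : ∃ s0 : ℝ, 0 < s0 ∧ s0 < 1 ∧ ∀ s : ℝ, s0 ≤ s → ∀ (A : Set ℂ), ∀ y ∈ h.sec s A,
    h.prj y ∈ A ∧ JoinedIn (h.sec s A ∩ Metric.closedBall y τ) y (h.prj y) := by
  obtain ⟨s0, h0, h1, T⟩ := pvxz_slit_near h hτ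
  refine ⟨s0, h0, h1, fun s hs A y hy => ⟨hy.2.2, ?_⟩⟩
  have hs0 : 0 < s := h0.trans_le hs
  have hy0 := h.sec_disc_ne hs0 hy
  have := pvxz_joined (S := h.sec s A ∩ Metric.closedBall y τ) (h.slit_cont hy.1 hy0) fun t ht =>
    ⟨h.slit_mem hs0 hy ht, Metric.mem_closedBall.2 (T s hs A y hy t ht).1.le⟩
  rwa [h.slit_zero hy.1 hy0, h.slit_one hy0] at this

/-- **GEO** -/
theorem pvxz_geo (h : PvChart D d ψ) {x η : ℝ} (hx0 : 0 < x) (hx1 : x < 1) (hη : 0 < η) :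
    ∃ (x' ρ0 : ℝ) (z1 z2 : ℂ), 0 < x' ∧ x' < 1 ∧ cardyF x - η ≤ cardyF x' ∧ 0 < ρ0 ∧ ∀ τ : ℝ, 0 < τ → τ ≤ ρ0 →
      ∃ (D' : Set ℂ) (d' : ℂ) (ψ' : ℂ → ℂ) (ρ μ0 : ℝ) (F : PvxFr), PvAn D' d' ψ' ∧ 0 < ρ ∧ 0 < μ0 ∧ ∀ μ : ℝ, 0 < μ → μ ≤ μ0 →
        PvxGeo D d ψ x F (Metric.thickening ρ D') (Metric.thickening ρ (pvArcL D' d' ψ' x')) (Metric.thickening ρ (pvArcR D' d' ψ')) z1 z2 τ ρ0 μ := by
  obtain ⟨κ, hκ0, hκ1, hκx, hx'0, hx'1, hF⟩ := pvx1_kappa hx0 hx1 hη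
  have hk2 := pvx1_inv_gt hκ0 hκ1
  have e2 : 2 / κ = 2 * (1 / κ) := by ring
  have e3 : 3 / (2 * κ) = 3 / 2 * (1 / κ) := by field_simp
  have e4 : 7 / (4 * κ) = 7 / 4 * (1 / κ) := by field_simp
  have e5 : 3 / κ = 3 * (1 / κ) := by ring
  -- constants of the level `κ`
  obtain ⟨ρA, sA, hρA, hA0, hA1, HA⟩ := pvxz_sep2 h (p := 3 * κ / 4) (q := x - 3 * κ / 4) (p' := 5 * κ / 8) (q' := x - 5 * κ / 8) (by linarith) (by linarith)
  obtain ⟨ρB, sB, hρB, hB0, hB1, HB⟩ := pvxz_sep2 h (p := 1 + 3 * κ / 4) (q := 3 / (2 * κ)) (p' := 1 + 5 * κ / 8) (q' := 7 / (4 * κ)) (by linarith) (by rw [e3, e4]; linarith)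
  obtain ⟨ρC, sC, hρC, hC0, hC1, HC⟩ := pvxz_apart h (p := κ / 2) (q := x - κ / 2) (p' := 1 + κ / 2) (q' := 2 / κ) (by linarith)
  obtain ⟨ρD, sD, hρD, hD0, hD1, HD⟩ := pvxz_far h (p := κ / 2) (q := x - κ / 2) (p' := κ / 4) (q' := x - κ / 4) (by linarith) (by linarith)
  obtain ⟨ρE, sE, hρE, hE0, hE1, HE⟩ := pvxz_far h (p := 1 + κ / 2) (q := 2 / κ) (p' := 1 + κ / 4) (q' := 3 / κ) (by linarith) (by rw [e2, e5]; linarith)
  obtain ⟨ρ0, hρ0def⟩ : ∃ ρ0 : ℝ, ρ0 = min (min (ρA / 2) (ρB / 2)) (min ρC (min (ρD / 2) (ρE / 2))) := ⟨_, rfl⟩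
  have hρ0 : 0 < ρ0 := by
    rw [hρ0def]
    exact lt_min (lt_min (by positivity) (by positivity)) (lt_min hρC (lt_min (by positivity) (by positivity)))
  have rA : ρ0 ≤ ρA / 2 := by rw [hρ0def]; exact (min_le_left _ _).trans (min_le_left _ _)
  have rB : ρ0 ≤ ρB / 2 := by rw [hρ0def]; exact (min_le_left _ _).trans (min_le_right _ _)
  have rC : ρ0 ≤ ρC := by rw [hρ0def]; exact (min_le_right _ _).trans (min_le_left _ _)
  have rD : ρ0 ≤ ρD / 2 := by rw [hρ0def]; exact (min_le_right _ _).trans ((min_le_right _ _).trans (min_le_left _ _))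
  have rE : ρ0 ≤ ρE / 2 := by rw [hρ0def]; exact (min_le_right _ _).trans ((min_le_right _ _).trans (min_le_right _ _))
  refine ⟨pvx1T κ (x - κ), ρ0, h.bp (κ / 2), h.bp (2 / κ), hx'0, hx'1, hF, hρ0, fun τ hτ hτρ => ?_⟩
  -- the levels
  obtain ⟨sF, hF0, hF1, HF⟩ := pvxz_slit_joined h hτ
  obtain ⟨sG, hG0, hG1, HG⟩ := pvxz_corner h hτ
  obtain ⟨s1, hs1def⟩ : ∃ s1 : ℝ, s1 = max (max (max sA sB) (max sC sD)) (max sE (max sF sG)) := ⟨_, rfl⟩
  have lA : sA ≤ s1 := by rw [hs1def]; exact (le_max_left _ _).trans ((le_max_left _ _).trans (le_max_left _ _))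
  have lB : sB ≤ s1 := by rw [hs1def]; exact (le_max_right _ _).trans ((le_max_left _ _).trans (le_max_left _ _))
  have lC : sC ≤ s1 := by rw [hs1def]; exact (le_max_left _ _).trans ((le_max_right _ _).trans (le_max_left _ _))
  have lD : sD ≤ s1 := by rw [hs1def]; exact (le_max_right _ _).trans ((le_max_right _ _).trans (le_max_left _ _))
  have lE : sE ≤ s1 := by rw [hs1def]; exact (le_max_left _ _).trans (le_max_right _ _)
  have lF : sF ≤ s1 := by rw [hs1def]; exact (le_max_left _ _).trans ((le_max_right _ _).trans (le_max_right _ _))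
  have lG : sG ≤ s1 := by rw [hs1def]; exact (le_max_right _ _).trans ((le_max_right _ _).trans (le_max_right _ _))
  have hs10 : 0 < s1 := hA0.trans_le lA
  have hs11 : s1 < 1 := by
    rw [hs1def]
    exact max_lt (max_lt (max_lt hA1 hB1) (max_lt hC1 hD1)) (max_lt hE1 (max_lt hF1 hG1))
  obtain ⟨s, hsdef⟩ : ∃ s : ℝ, s = (1 + s1) / 2 := ⟨_, rfl⟩
  obtain ⟨s2, hs2def⟩ : ∃ s2 : ℝ, s2 = (1 + s) / 2 := ⟨_, rfl⟩
  have hs1s : s1 < s := by linarith
  have hs_1 : s < 1 := by linarith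
  have hss2 : s < s2 := by linarith
  have hs21 : s2 < 1 := by linarith
  have hs0 : 0 < s := hs10.trans hs1s
  have hs20 : 0 < s2 := hs0.trans hss2
  have hs12 : s1 ≤ s2 := (hs1s.trans hss2).le
  obtain ⟨d', ψ', hAn, hqL, hqR⟩ := pvxz_quad h hx1 hκ0 hκ1 hs0 hs_1
  obtain ⟨ρL, hρL, HL⟩ := pvxz_land h (p := κ) (q := x - κ) (p' := 3 * κ / 4) (q' := x - 3 * κ / 4) (by linarith) (by linarith) hs10 hs1s hs_1
  obtain ⟨ρR, hρR, HR⟩ := pvxz_land h (p := 1 + κ) (q := 1 / κ) (p' := 1 + 3 * κ / 4) (q' := 3 / (2 * κ)) (by linarith) (by rw [e3]; linarith) hs10 hs1s hs_1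
  obtain ⟨ρm, hρm, Hm⟩ := pvxz_room h hs0 hss2 hs21
  obtain ⟨μc, hμc, Hc⟩ := pvxz_collar h hs20 hs21
  -- the zones
  set aL : Set ℂ := pvxzArc D d ψ (κ / 2) (x - κ / 2) with haL
  set aT : Set ℂ := pvxzArc D d ψ (x - κ / 2) (1 + κ / 2) with haT
  set aR : Set ℂ := pvxzArc D d ψ (1 + κ / 2) (2 / κ) with haR
  set aB : Set ℂ := pvxzCo D d ψ (κ / 2) (2 / κ) with haB
  have hpq : κ / 2 ≤ 2 / κ := by rw [e2]; linarith
  have cL : IsCompact (h.sec s1 aL) := h.sec_compact hs10 (pvxz_arc_sub _ _) (pvxz_arc_compact h _ _)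
  have cR : IsCompact (h.sec s1 aR) := h.sec_compact hs10 (pvxz_arc_sub _ _) (pvxz_arc_compact h _ _)
  have cT : IsCompact (h.sec s2 aT) := h.sec_compact hs20 (pvxz_arc_sub _ _) (pvxz_arc_compact h _ _)
  have cB : IsCompact (h.sec s2 aB) := h.sec_compact hs20 (pvxz_co_sub h _ _) (pvxz_co_compact h hpq)
  have dBT : Disjoint (h.sec s2 aB) (h.sec s2 aT) := (h.sec_disj s2 s2 (pvxz_arc_co_disj (by linarith) (by rw [e2]; linarith))).symm
  obtain ⟨δ, hδ, Hδ⟩ := pvxz_gap cB cT dBT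
  have kL : h.sec s1 aL ∩ h.sec s2 aB ⊆ Metric.closedBall (h.bp (κ / 2)) τ :=
    HG s1 s2 (lG.trans (le_max_left _ _)) aL aB _ (pvxz_arc_inter_co h (by rw [e2]; linarith))
  have kR : h.sec s1 aR ∩ h.sec s2 aB ⊆ Metric.closedBall (h.bp (2 / κ)) τ :=
    HG s1 s2 (lG.trans (le_max_left _ _)) aR aB _ (pvxz_arc_inter_co' h (by linarith))
  obtain ⟨μL, hμL, HμL⟩ := pvxz_near cL cB kL hτ
  obtain ⟨μR, hμR, HμR⟩ := pvxz_near cR cB kR hτ
  obtain ⟨ρ, hρdef⟩ : ∃ ρ : ℝ, ρ = min (min ρL ρR) (ρm / 2) := ⟨_, rfl⟩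
  have hρ : 0 < ρ := by rw [hρdef]; exact lt_min (lt_min hρL hρR) (by positivity)
  have pL : ρ ≤ ρL := by rw [hρdef]; exact (min_le_left _ _).trans (min_le_left _ _)
  have pR : ρ ≤ ρR := by rw [hρdef]; exact (min_le_left _ _).trans (min_le_right _ _)
  have pm : ρ ≤ ρm / 2 := by rw [hρdef]; exact min_le_right _ _
  obtain ⟨μ0, hμ0def⟩ : ∃ μ0 : ℝ, μ0 = min (1 / 16) (min (min (ρ0 / 16) (μc / 8)) (min (min (ρm / 4) (δ / 16)) (min (μL / 4) (μR / 4)))) := ⟨_, rfl⟩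
  have hμ0 : 0 < μ0 := by
    rw [hμ0def]
    exact lt_min (by norm_num) (lt_min (lt_min (by positivity) (by positivity)) (lt_min (lt_min (by positivity) (by positivity)) (lt_min (by positivity) (by positivity))))
  have m0 : μ0 ≤ 1 / 16 := by rw [hμ0def]; exact min_le_left _ _
  have m1 : μ0 ≤ ρ0 / 16 := by rw [hμ0def]; exact (min_le_right _ _).trans ((min_le_left _ _).trans (min_le_left _ _))
  have m2 : μ0 ≤ μc / 8 := by rw [hμ0def]; exact (min_le_right _ _).trans ((min_le_left _ _).trans (min_le_right _ _))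
  have m3 : μ0 ≤ ρm / 4 := by rw [hμ0def]; exact (min_le_right _ _).trans ((min_le_right _ _).trans ((min_le_left _ _).trans (min_le_left _ _)))
  have m4 : μ0 ≤ δ / 16 := by rw [hμ0def]; exact (min_le_right _ _).trans ((min_le_right _ _).trans ((min_le_left _ _).trans (min_le_right _ _)))
  have m5 : μ0 ≤ μL / 4 := by rw [hμ0def]; exact (min_le_right _ _).trans ((min_le_right _ _).trans ((min_le_right _ _).trans (min_le_left _ _)))
  have m6 : μ0 ≤ μR / 4 := by rw [hμ0def]; exact (min_le_right _ _).trans ((min_le_right _ _).trans ((min_le_right _ _).trans (min_le_right _ _)))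
  -- landing of the thickened arcs in the middle sectors
  have landL : ∀ y ∈ Metric.thickening ρ (pvArcL (h.sd s) d' ψ' (pvx1T κ (x - κ))), y ∈ h.sec s1 (pvxzArc D d ψ (3 * κ / 4) (x - 3 * κ / 4)) := by
    intro y hy
    obtain ⟨z, hz, hyz⟩ := Metric.mem_thickening_iff.1 hy
    exact HL z (hqL z hz).1 (hqL z hz).2 y (hyz.trans_le pL)
  have landR : ∀ y ∈ Metric.thickening ρ (pvArcR (h.sd s) d' ψ'), y ∈ h.sec s1 (pvxzArc D d ψ (1 + 3 * κ / 4) (3 / (2 * κ))) := by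
    intro y hy
    obtain ⟨z, hz, hyz⟩ := Metric.mem_thickening_iff.1 hy
    exact HR z (hqR z hz).1 (hqR z hz).2 y (hyz.trans_le pR)
  refine ⟨h.sd s, d', ψ', ρ, μ0, ⟨h.sd s2, h.sec s1 aL, h.sec s1 aR, h.sec s2 aB, h.sec s2 aT⟩, hAn, hρ, hμ0, fun μ hμ hμμ => ?_⟩
  refine
    { mu_pos := hμ
      tau_pos := hτ
      mu_small := by linarith
      mu_lt := by linarith
      D2_open := h.sd_isOpen s2
      D2_in := ?_
      ZL_closed := cL.isClosed
      ZR_closed := cR.isClosed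
      ZB_closed := cB.isClosed
      ZT_closed := cT.isClosed
      ZL_sub := h.sec_sub _ _
      ZR_sub := h.sec_sub _ _
      ZB_sub := h.sec_sub _ _
      ZT_sub := h.sec_sub _ _
      cover := ?_
      ZB_conn := h.sec_preconnected hs20 (pvxz_co_sub h _ _) (pvxz_co_preconnected h hpq)
      ZT_conn := h.sec_preconnected hs20 (pvxz_arc_sub _ _) (pvxz_arc_preconnected h _ _)
      ZB_D2 := h.sec_disjoint_sd _ _
      ZT_D2 := h.sec_disjoint_sd _ _
      ZB_arc := ⟨d, h.sub_sec hs20 hs21.le (pvxz_co_sub h _ _) (Or.inl rfl), Or.inl rfl⟩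
      ZT_arc := ?_
      bot_ZT := ?_
      top_ZB := ?_
      arcL_ZR := ?_
      arcR_ZL := ?_
      far_LR := fun y hy z hz => rC.trans (HC s1 s1 lC lC y hy z hz)
      far_arcL := ?_
      far_arcR := ?_
      far_BT := fun y hy z hz => by have := Hδ y hy z hz; linarith
      far_T := ?_
      slitL := ?_
      slitR := ?_
      W_in := ?_
      AL_sub := fun y hy => h.sec_mono le_rfl (pvxz_arc_mono (by linarith) (by linarith)) (landL y hy)
      AR_sub := fun y hy => h.sec_mono le_rfl (pvxz_arc_mono (by linarith) (by rw [e2, e3]; linarith)) (landR y hy)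
      deep := ?_
      z1_mem := ?_
      z2_mem := ?_
      cornerL := fun y hy z hz hyz => (HμL y hy z hz (by linarith)).le
      cornerR := fun y hy z hz hyz => (HμR y hy z hz (by linarith)).le }
  · -- D2_in
    intro z hz w hw
    refine Hc (Metric.mem_thickening_iff.2 ⟨z, hz, ?_⟩)
    have : dist w z ≤ 4 * μ := hw
    linarith
  · -- cover
    rintro z ⟨hz, hz2⟩
    rcases pvxz_cover h (κ / 2) (x - κ / 2) (1 + κ / 2) (2 / κ) hs10 hs12 hs21.le hz with (((c | c) | c) | c) | c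
    · exact absurd c hz2
    · exact Or.inl (Or.inl (Or.inl c))
    · exact Or.inr c
    · exact Or.inl (Or.inl (Or.inr c))
    · exact Or.inl (Or.inr c)
  · -- ZT_arc
    have hb : h.bp x ∈ aT := by
      rw [haT, pvxz_arc_eq h]
      exact ⟨x, ⟨by linarith, by linarith⟩, rfl⟩
    refine ⟨h.bp x, h.sub_sec hs20 hs21.le (pvxz_arc_sub _ _) hb, h.bp_mem_fr x, h.bp_ne_d x, ?_, ?_⟩ <;> rw [h.psi_bp x, Complex.ofReal_re]
    exact hx1.le
  · -- bot_ZT
    refine Set.disjoint_left.2 ?_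
    rintro z hzb hzT
    have hzf : z ∈ frontier D := by
      rcases hzb with rfl | hzb
      · exact h.hd
      · exact hzb.1
    have hz := h.mem_of_sec_fr hzf hzT
    rcases hzb with rfl | hzb
    · exact hz.2.1 rfl
    · linarith [hz.2.2.1, hzb.2.2]
  · -- top_ZB
    refine Set.disjoint_left.2 ?_
    rintro z hzt hzB
    rcases h.mem_of_sec_fr hzt.1 hzB with c | ⟨-, -, c | c⟩
    · exact hzt.2.1 c
    · linarith [hzt.2.2.1]
    · rw [e2] at c
      linarith [hzt.2.2.2]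
  · -- arcL_ZR
    refine Set.disjoint_left.2 ?_
    rintro z hzl hzR
    have hz := h.mem_of_sec_fr hzl.1 hzR
    linarith [hz.2.2.1, hzl.2.2.2]
  · -- arcR_ZL
    refine Set.disjoint_left.2 ?_
    rintro z hzr hzL
    have hzf : z ∈ frontier D := by
      rcases hzr with rfl | hzr
      · exact h.hd
      · exact hzr.1
    have hz := h.mem_of_sec_fr hzf hzL
    rcases hzr with rfl | hzr
    · exact hz.2.1 rfl
    · linarith [hz.2.2.2, hzr.2.2]
  · -- far_arcL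
    intro y hy z hz
    by_contra hcon
    have := HE s1 lE y hy z (frontier_subset_closure hz.1) (by rw [dist_comm]; linarith [not_le.1 hcon])
    linarith [this.2.1, hz.2.2.2]
  · -- far_arcR
    intro y hy z hz
    by_contra hcon
    have hzf : z ∈ frontier D := by
      rcases hz with rfl | hz
      · exact h.hd
      · exact hz.1
    have := HD s1 lD y hy z (frontier_subset_closure hzf) (by rw [dist_comm]; linarith [not_le.1 hcon])
    rcases hz with rfl | hz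
    · exact this.1 rfl
    · linarith [this.2.2, hz.2.2]
  · -- far_T
    rintro y (hy | hy) z hz
    · by_contra hcon
      have := HD s1 lD y hy z (frontier_subset_closure hz.1) (by rw [dist_comm]; linarith [not_le.1 hcon])
      linarith [this.2.2, hz.2.2.1]
    · by_contra hcon
      have := HE s1 lE y hy z (frontier_subset_closure hz.1) (by rw [dist_comm]; linarith [not_le.1 hcon])
      linarith [this.2.1, hz.2.2.2]
  · -- slitL
    intro y hy
    obtain ⟨a, b⟩ := HF s1 lF aL y hy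
    exact ⟨h.prj y, pvxz_arc_sub_L (by linarith) (by linarith) a, b⟩
  · -- slitR
    intro y hy
    obtain ⟨a, b⟩ := HF s1 lF aR y hy
    exact ⟨h.prj y, pvxz_arc_sub_R (by linarith) a, b⟩
  · -- W_in
    intro z hz w hw
    obtain ⟨z0, hz0, hzz⟩ := Metric.mem_thickening_iff.1 hz
    refine Hm (Metric.mem_thickening_iff.2 ⟨z0, hz0, ?_⟩)
    have h1 : dist w z ≤ μ := hw
    have := dist_triangle w z z0
    linarith
  · -- deep
    rintro y (hy | hy)
    · refine Set.disjoint_left.2 ?_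
      rintro w hw (hwB | hwT)
      · have := HA s1 s2 lA (lA.trans hs12) y (landL y hy) aB w hwB (by have : dist w y ≤ τ := hw; linarith)
        exact Set.disjoint_left.1 (pvxz_arc_co_disj (by linarith) (by rw [e2]; linarith)) this hwB.2.2
      · have := HA s1 s2 lA (lA.trans hs12) y (landL y hy) aT w hwT (by have : dist w y ≤ τ := hw; linarith)
        exact Set.disjoint_left.1 (pvxz_arc_disj (by linarith)) this hwT.2.2
    · refine Set.disjoint_left.2 ?_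
      rintro w hw (hwB | hwT)
      · have := HB s1 s2 lB (lB.trans hs12) y (landR y hy) aB w hwB (by have : dist w y ≤ τ := hw; linarith)
        exact Set.disjoint_left.1 (pvxz_arc_co_disj (by linarith) (by rw [e2, e4]; linarith)) this hwB.2.2
      · have := HB s1 s2 lB (lB.trans hs12) y (landR y hy) aT w hwT (by have : dist w y ≤ τ := hw; linarith)
        exact Set.disjoint_left.1 (pvxz_arc_disj (by linarith)) hwT.2.2 this
  · -- z1_mem
    refine h.sub_sec hs10 hs11.le (pvxz_arc_sub _ _) ?_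
    rw [pvxz_arc_eq h]
    exact ⟨κ / 2, ⟨le_rfl, by linarith⟩, rfl⟩
  · -- z2_mem
    refine h.sub_sec hs10 hs11.le (pvxz_arc_sub _ _) ?_
    rw [pvxz_arc_eq h]
    exact ⟨2 / κ, ⟨by rw [e2]; linarith, le_rfl⟩, rfl⟩

end Claimed.Agent.R289
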