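import Claimed.Agent.R289.Del.Strict
import Claimed.Agent.R289.Del.Seam
import Claimed.Agent.R289.Vor.Chain
import Claimed.Agent.R289.Arm.Bxp
import Claimed.Agent.R289.PppQ
import Claimed.Agent.R289.Chart
import Claimed.Agent.R289.Ext.Cells

/-!
# Row 289 (S0537), box EXT, file Ext/Tgt : THE MEASURABLE TARGET EVENT INSIDE `PvStrict`      (owner helper49; acting head of EXT helper61, pen of the cut helper100; prefix `pvxg_`, defs `pvxgEnd pvxgEv PvxgLink pvxgBk pvxgT`)      0 sorry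

`PvLower` asks for a MEASURABLE event inside `{ω | PvStrict D d ψ x ω}`.      We do not majorise the bad event: we name a measurable TARGET event `pvxgEv W FL FR` in index form and prove that it lies inside `PvStrict`.
Then `E := E_N ∩ G`, `pvLaw (E_N \ G) = ∫ pvQ (E_N \ G) g`, and for a FIXED geometry the section is a subset of the quenched bad event: no measurability of any exploration event is needed.

* sec. 1  **`pvxg_cut`** (pure topology): a path from `frontier D ∩ CL` to `frontier D ∩ CR` all of whose points off `D` lie in `CL ∪ CR` (disjoint closed sets) contains a sub-path INSIDE `closure D` from `frontier D ∩ CL` to `frontier D ∩ CR`.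
          (the path may wander out of `closure D` near its two ends: we cut it at the first hit of `frontier D ∩ CR` and the last hit of `frontier D ∩ CL` before it)
* sec. 2  deterministic, site set `Y`, black sites `A`: `pvxg_path` (end point, chain, end point ⟹ strict path), **`pvxg_dense`** (a strict point of `F` may be moved into a dense subset `F0`, its new cell still contains the old point)
* sec. 3  **`pvxg_ring`**: RING SEPARATION: a preconnected set which joins the inside of a cycle of the Delaunay plane to its outside has a point in `vorStrict Y (vertices of the cycle)`: all the cells through this point are cells of the ring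
* sec. 4  `pvxgEnd F ω i`, **`pvxgEv W FL FR`**, site form `pvxg_mem_iff`, **`pvxg_meas`**
* sec. 5  **`pvxg_strict`** : `pvxgEv W FL FR ⊆ PvStrict`;   `pvxg_enter` : consumer form (chain of black sites + one strict frontier point at each end ⟹ the target event)
* sec. 6  **`pvxg_anneal`**, **`pvxg_lower`** : THE ASSEMBLY: `EN`, `G` measurable, off ANY set `Bad` of geometries (outer measure `≤ q`) the quenched probability of `EN \ G` is `≤ p` ⟹ a measurable `E ⊆ St` with `P(E) ≥ a - (p + q)`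
* sec. 7  polygons in the closed disc, abstract: `PvxgLink φ U ζ ζ'` (rational parameters), `pvxg_link_joined`, `pvxg_chain` (chains of links along a preconnected set; `IsPreconnected.induction₂'` + uniform continuity)
* sec. 8  `pvxgBk t ω` = the `t`-THICK BLACK REGION (some black site closer than all white sites, margin `t`): `pvxg_bk_mono`, `pvxg_bk_slack`, `pvxg_bk_strict`, `pvxg_bk_of_infDist` (bridge), `pvxg_bk_iff`, `pvxg_meas_bk`
* sec. 9  `pvxgT φ Q QL QR`, `pvxg_meas_T`, **`pvxg_tgt`** = CONTRACT TGT of helper74: for every chart a MEASURABLE `T ⊆ {PvStrict}` containing every locally finite sample with a preconnected `S ⊆ closure D ∩ pvxgBk t ω`, `t > 0`, which meets both arcs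
* sec. 10 `pvxg_bk_eq_fat : pvxgBk t ω = pvxkFat (delsBk _) (delsWh _) (-t)` (vocabulary of `Ext/Cells`, helper255), **`pvxg_tgt_fat`** (TGT in that vocabulary)
-/

set_option autoImplicit false

namespace Claimed.Agent.R289

open Set Metric MeasureTheory Filter Topology Claims.C0465
open scoped ENNReal

/-! ## 1. cutting a path at the frontier -/

/-- **CUT** -/
theorem pvxg_cut {D S CL CR : Set ℂ} (hD : IsOpen D) (hCL : IsClosed CL) (hCR : IsClosed CR) (hdis : Disjoint CL CR) (hS : S \ D ⊆ CL ∪ CR)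
    {x0 x1 : ℂ} (h0 : x0 ∈ frontier D ∩ CL) (h1 : x1 ∈ frontier D ∩ CR) (hj : JoinedIn S x0 x1) :
    ∃ p ∈ frontier D ∩ CL, ∃ q ∈ frontier D ∩ CR, JoinedIn (S ∩ closure D) p q := by
  obtain ⟨γ, hγ⟩ := hj
  set g : ℝ → ℂ := fun t => γ.extend t with hg
  have hgc : Continuous g := γ.continuous_extend
  have hgS : ∀ t, g t ∈ S := by
    intro t
    have : g t ∈ range γ := by rw [← γ.extend_range]; exact ⟨t, rfl⟩
    obtain ⟨s, hs⟩ := this
    rw [← hs]; exact hγ s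
  have hg0 : g 0 = x0 := γ.extend_zero
  have hg1 : g 1 = x1 := γ.extend_one
  have hFD : ∀ z, z ∈ frontier D → z ∉ D := fun z hz hzD => by
    rw [frontier, hD.interior_eq] at hz
    exact hz.2 hzD
  -- first hit of the right piece
  set T1 : Set ℝ := Icc 0 1 ∩ g ⁻¹' (frontier D ∩ CR) with hT1
  have cT1 : IsClosed T1 := isClosed_Icc.inter ((isClosed_frontier.inter hCR).preimage hgc)
  have n1 : (1 : ℝ) ∈ T1 := ⟨⟨zero_le_one, le_rfl⟩, by show g 1 ∈ frontier D ∩ CR; rw [hg1]; exact h1⟩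
  have b1 : BddBelow T1 := ⟨0, fun t ht => ht.1.1⟩
  set t1 := sInf T1 with ht1
  have m1 : t1 ∈ T1 := cT1.csInf_mem ⟨1, n1⟩ b1
  -- last hit of the left piece before it
  set T0 : Set ℝ := Icc 0 t1 ∩ g ⁻¹' (frontier D ∩ CL) with hT0
  have cT0 : IsClosed T0 := isClosed_Icc.inter ((isClosed_frontier.inter hCL).preimage hgc)
  have n0 : (0 : ℝ) ∈ T0 := ⟨⟨le_rfl, m1.1.1⟩, by show g 0 ∈ frontier D ∩ CL; rw [hg0]; exact h0⟩
  have b0 : BddAbove T0 := ⟨t1, fun t ht => ht.1.2⟩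
  set t0 := sSup T0 with ht0
  have m0 : t0 ∈ T0 := cT0.csSup_mem ⟨0, n0⟩ b0
  have hle : t0 ≤ t1 := m0.1.2
  have hne : t0 ≠ t1 := fun h => by
    have a1 : g t0 ∈ CL := m0.2.2
    have a2 : g t1 ∈ CR := m1.2.2
    rw [h] at a1
    exact disjoint_left.1 hdis a1 a2
  have hlt : t0 < t1 := lt_of_le_of_ne hle hne
  -- between the two times the path misses the frontier
  have hmid : ∀ t ∈ Ioo t0 t1, g t ∉ frontier D := by
    intro t ht hF
    rcases hS ⟨hgS t, hFD _ hF⟩ with h | h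
    · have : t ∈ T0 := ⟨⟨m0.1.1.trans ht.1.le, ht.2.le⟩, hF, h⟩
      exact absurd (le_csSup b0 this) (not_le.2 ht.1)
    · have : t ∈ T1 := ⟨⟨m0.1.1.trans ht.1.le, ht.2.le.trans m1.1.2⟩, hF, h⟩
      exact absurd (csInf_le b1 this) (not_le.2 ht.2)
  have hpre : IsPreconnected (g '' Ioo t0 t1) := isPreconnected_Ioo.image g hgc.continuousOn
  have hcov : g '' Ioo t0 t1 ⊆ D ∪ (closure D)ᶜ := by
    rintro _ ⟨t, ht, rfl⟩
    by_cases hc : g t ∈ closure D
    · left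
      by_contra hnD
      exact hmid t ht (by rw [frontier, hD.interior_eq]; exact ⟨hc, hnD⟩)
    · exact Or.inr hc
  have hdisj : Disjoint D (closure D)ᶜ := disjoint_left.2 fun z hz hz' => hz' (subset_closure hz)
  have hin : g '' Ioo t0 t1 ⊆ D := by
    rcases hpre.subset_or_subset hD isClosed_closure.isOpen_compl hdisj hcov with h | h
    · exact h
    · exfalso
      have hpre2 : IsPreconnected (g '' Icc t0 t1) := isPreconnected_Icc.image g hgc.continuousOn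
      have hcov2 : g '' Icc t0 t1 ⊆ CL ∪ CR := by
        rintro _ ⟨t, ht, rfl⟩
        rcases ht.1.eq_or_lt with e | e
        · rw [← e]; exact Or.inl m0.2.2
        · rcases ht.2.eq_or_lt with e' | e'
          · rw [e']; exact Or.inr m1.2.2
          · exact hS ⟨hgS t, fun hd => h ⟨t, ⟨e, e'⟩, rfl⟩ (subset_closure hd)⟩
      obtain ⟨z, -, hz1, hz2⟩ := isPreconnected_closed_iff.1 hpre2 CL CR hCL hCR hcov2 ⟨g t0, ⟨t0, ⟨le_rfl, hle⟩, rfl⟩, m0.2.2⟩
        ⟨g t1, ⟨t1, ⟨hle, le_rfl⟩, rfl⟩, m1.2.2⟩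
      exact disjoint_left.1 hdis hz1 hz2
  refine ⟨g t0, m0.2, g t1, m1.2, ?_⟩
  refine JoinedIn.ofLine (f := fun s : ℝ => g (t0 + s * (t1 - t0))) (by fun_prop) (by simp) (by simp) ?_
  rintro _ ⟨s, hs, rfl⟩
  refine ⟨hgS _, ?_⟩
  show g (t0 + s * (t1 - t0)) ∈ closure D
  have hs0 : t0 ≤ t0 + s * (t1 - t0) := by nlinarith [hs.1, sub_pos.2 hlt]
  have hs1 : t0 + s * (t1 - t0) ≤ t1 := by nlinarith [hs.2, sub_pos.2 hlt]
  rcases hs0.eq_or_lt with e | e
  · rw [← e]; exact frontier_subset_closure m0.2.1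
  · rcases hs1.eq_or_lt with e' | e'
    · rw [e']; exact frontier_subset_closure m1.2.1
    · exact subset_closure (hin ⟨_, ⟨e, e'⟩, rfl⟩)

/-! ## 2. strict paths with end points, dense replacement -/

/-- end point, chain of sites of `S ⊆ A`, end point: a strict path inside the cells of `S` -/
theorem pvxg_path {Y A S : Set ℂ} (lf : VorLF Y) (gp : VorGP Y) (hA : A ⊆ Y) (hS : S ⊆ A) (hbd : ∀ v ∈ S, Bornology.IsBounded (vorCell Y v))
    {a b x0 x1 : ℂ} (ha : a ∈ S) (h : Relation.ReflTransGen (fun x y => y ∈ S ∧ (vorCell Y x ∩ vorCell Y y).Nonempty) a b)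
    (hx0 : x0 ∈ vorCell Y a) (hs0 : x0 ∈ vorStrict Y A) (hx1 : x1 ∈ vorCell Y b) (hs1 : x1 ∈ vorStrict Y A) :
    JoinedIn (vorStrict Y A ∩ vorUn Y S) x0 x1 := by
  obtain ⟨hb, hj⟩ := dels_chain lf gp hA hS hbd ha h
  have e0 : JoinedIn (vorStrict Y A ∩ vorUn Y S) a x0 :=
    (dels_joined_site hA (hS ha) hx0 hs0).mono (inter_subset_inter_right _ fun z hz => ⟨a, ha, hz⟩)
  have e1 : JoinedIn (vorStrict Y A ∩ vorUn Y S) b x1 :=
    (dels_joined_site hA (hS hb) hx1 hs1).mono (inter_subset_inter_right _ fun z hz => ⟨b, hb, hz⟩)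
  exact (e0.symm.trans hj).trans e1

/-- near a point `x` only the cells through `x` are seen -/
theorem pvxg_local {Y : Set ℂ} (lf : VorLF Y) (x : ℂ) : ∃ r > 0, ∀ y, ‖y - x‖ < r → ∀ v ∈ Y, y ∈ vorCell Y v → x ∈ vorCell Y v := by
  have hc : IsClosed (vorUn Y {v | v ∈ Y ∧ x ∉ vorCell Y v}) := vor_isClosed_un lf fun v hv => hv.1
  have hx : x ∈ (vorUn Y {v | v ∈ Y ∧ x ∉ vorCell Y v})ᶜ := by
    rintro ⟨v, hv, hxv⟩
    exact hv.2 hxv
  obtain ⟨r, hr, hball⟩ := Metric.isOpen_iff.1 hc.isOpen_compl x hx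
  refine ⟨r, hr, fun y hy v hv hyv => ?_⟩
  by_contra hcon
  exact hball (by rw [mem_ball, dist_eq_norm]; exact hy) ⟨v, ⟨hv, hcon⟩, hyv⟩

/-- **DENSE REPLACEMENT** -/
theorem pvxg_dense {Y A F F0 : Set ℂ} (lf : VorLF Y) (hne : Y.Nonempty) (hd : F ⊆ closure F0) {x : ℂ} (hx : x ∈ F) (hxs : x ∈ vorStrict Y A)
    {r : ℝ} (hr : 0 < r) : ∃ x0 ∈ F0, ‖x0 - x‖ < r ∧ x0 ∈ vorStrict Y A ∧ ∃ a ∈ A, a ∈ Y ∧ x0 ∈ vorCell Y a ∧ x ∈ vorCell Y a := by
  obtain ⟨r', hr', hloc⟩ := pvxg_local lf x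
  obtain ⟨x0, hx0, hdist⟩ := Metric.mem_closure_iff.1 (hd hx) (min r r') (lt_min hr hr')
  rw [dist_comm, dist_eq_norm] at hdist
  obtain ⟨a, haY, hxa⟩ := vor_cover lf hne x0
  have hxa' : x ∈ vorCell Y a := hloc x0 (hdist.trans_le (min_le_right _ _)) a haY hxa
  have haA : a ∈ A := by
    by_contra hcon
    exact hxs.2 ⟨a, ⟨haY, hcon⟩, hxa'⟩
  refine ⟨x0, hx0, hdist.trans_le (min_le_left _ _), ⟨⟨a, haA, hxa⟩, ?_⟩, a, haA, haY, hxa, hxa'⟩
  rintro ⟨v, hv, hxv⟩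
  exact hxs.2 ⟨v, hv, hloc x0 (hdist.trans_le (min_le_right _ _)) v hv.1 hxv⟩

/-! ## 3. ring separation -/

/-- a set which misses the strict part of the cells of `R` is covered by the other cells -/
theorem pvxg_cover_off {Y R K : Set ℂ} (lf : VorLF Y) (hne : Y.Nonempty) (h : ∀ x ∈ K, x ∉ vorStrict Y R) : K ⊆ vorUn Y (Y \ R) := by
  intro x hx
  obtain ⟨v, hv, hxv⟩ := vor_cover lf hne x
  by_cases hvR : v ∈ R
  · by_contra hcon
    exact h x hx ⟨⟨v, hvR, hxv⟩, hcon⟩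
  · exact ⟨v, ⟨hv, hvR⟩, hxv⟩

/-- **RING SEPARATION**: `K` preconnected, it meets the cell of a vertex strictly inside the cycle and the cell of a vertex off the closed disc: some point of `K` lies in cells of the ring ONLY -/
theorem pvxg_ring {Y : Set ℂ} (h : DelGood Y) (c : (delMap h).Cyc) {K : Set ℂ} (hK : IsPreconnected K) {a b : Y}
    (ha : a ∈ (delMap h).Int c.Left) (haK : (vorCell Y a ∩ K).Nonempty) (hb : b ∉ (delMap h).VOf c.Left) (hbK : (vorCell Y b ∩ K).Nonempty) :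
    ∃ x ∈ K, x ∈ vorStrict Y (Subtype.val '' c.verts) := by
  by_contra hcon
  push Not at hcon
  have hT := dls_isSph h
  set R : Set ℂ := Subtype.val '' c.verts with hR
  have hcov := pvxg_cover_off h.lf h.ne hcon
  have haR : (a : ℂ) ∈ Y \ R := by
    refine ⟨a.2, ?_⟩
    rintro ⟨a', ha', e⟩
    rw [Subtype.ext e] at ha'
    exact Set.disjoint_left.1 (pl_jordan_vert_disj hT c).1 ha' ha
  rw [pl_VOf_left hT c] at hb
  have hbR : (b : ℂ) ∈ Y \ R := by
    refine ⟨b.2, ?_⟩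
    rintro ⟨b', hb', e⟩
    rw [Subtype.ext e] at hb'
    exact hb (Or.inl hb')
  have hch := vor_block_connected_in h.lf (A := Y \ R) sdiff_subset hK hcov haR haK hbR hbK
  have key : ∀ y : ℂ, Relation.ReflTransGen (fun x y => x ∈ Y \ R ∧ y ∈ Y \ R ∧ (vorCell Y x ∩ vorCell Y y ∩ K).Nonempty) (a : ℂ) y →
      ∃ hy : y ∈ Y, Relation.ReflTransGen (fun u v => (delMap h).Adj u v ∧ v ∉ c.verts) a ⟨y, hy⟩ := by
    intro y hy
    induction hy with
    | refl => exact ⟨a.2, Relation.ReflTransGen.refl⟩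
    | @tail u v _ huv ih =>
      obtain ⟨hu, hau⟩ := ih
      obtain ⟨-, hv, w, ⟨hw1, hw2⟩, -⟩ := huv
      refine ⟨hv.1, ?_⟩
      by_cases e : u = v
      · subst e; exact hau
      · refine hau.tail ⟨(dls_adj_iff h _ _).2 ⟨hu, hv.1, e, w, hw1, hw2⟩, fun hvc => hv.2 ⟨_, hvc, rfl⟩⟩
  obtain ⟨hy, hab⟩ := key b hch
  exact hb (Or.inr (pl_jordan_sep hT c ha hab))

/-- the same for a cycle at radius `(r, r')` round `z` and two points of `K`, one deep inside, one far outside, where the sites are `ρ`-dense -/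
theorem pvxg_ring_at {Y : Set ℂ} (h : DelGood Y) {z : ℂ} {r r' ρ : ℝ} {c : (delMap h).Cyc} (hc : PvaxAt (delMap h) (dlsPos Y) z r r' c)
    {K : Set ℂ} (hK : IsPreconnected K) {p p' : ℂ} (hp : p ∈ K) (hp' : p' ∈ K) (hd : ∃ u ∈ Y, ‖p - u‖ ≤ ρ) (hd' : ∃ u ∈ Y, ‖p' - u‖ ≤ ρ)
    (hin : ‖p - z‖ + ρ ≤ r) (hout : r' + ρ ≤ ‖p' - z‖) :
    ∃ x ∈ K, x ∈ vorStrict Y (Subtype.val '' c.verts) := by
  obtain ⟨a, haY, hpa⟩ := vor_cover h.lf h.ne p
  obtain ⟨b, hbY, hpb⟩ := vor_cover h.lf h.ne p'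
  obtain ⟨u, hu, hpu⟩ := hd
  obtain ⟨u', hu', hpu'⟩ := hd'
  have h1 : ‖p - a‖ ≤ ρ := (hpa u hu).trans hpu
  have h2 : ‖p' - b‖ ≤ ρ := (hpb u' hu').trans hpu'
  refine pvxg_ring h c hK (a := ⟨a, haY⟩) (b := ⟨b, hbY⟩) (hc.inn _ ?_) ⟨p, hpa, hp⟩ (fun hb => ?_) ⟨p', hpb, hp'⟩
  · show ‖a - z‖ ≤ r
    have e : a - z = (p - z) - (p - a) := by ring
    rw [e]
    exact (norm_sub_le _ _).trans (by linarith)
  · have h3 : ‖b - z‖ < r' := hc.out _ hb
    have e : p' - z = (p' - b) + (b - z) := by ring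
    have h4 := norm_add_le (p' - b) (b - z)
    rw [← e] at h4
    linarith

/-- **walking back along a ring**: from a vertex of the cycle off `E` to the first vertex of the cycle in `E`; all the vertices before the last one are vertices of the cycle off `E` -/
theorem pvxg_walk {V D : Type} {T : PvMap V D} (c : T.Cyc) {E : Set V} {X : V} (hX : X ∈ c.verts) (hE : ∃ v ∈ c.verts, v ∈ E) :
    ∃ w ∈ c.verts, w ∈ E ∧ Relation.ReflTransGen (fun u v => T.Adj u v ∧ u ∈ c.verts ∧ u ∉ E) X w := by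
  classical
  obtain ⟨i, rfl⟩ := hX
  obtain ⟨_, ⟨j, rfl⟩, hj⟩ := hE
  -- some index beyond `i` is in `E`
  have hex : ∃ k, T.src (c.e (i + k)) ∈ E := by
    refine ⟨j + i * (c.n - 1), ?_⟩
    have hn := pl_cyc_pos c
    have e : i + (j + i * (c.n - 1)) = j + i * c.n := by
      obtain ⟨m, hm⟩ : ∃ m, c.n = m + 1 := ⟨c.n - 1, by omega⟩
      rw [hm]; simp only [Nat.add_sub_cancel]; ring
    rw [e, pl_cyc_per]
    exact hj
  have hmin : ∀ k, k < Nat.find hex → T.src (c.e (i + k)) ∉ E := fun k hk => Nat.find_min hex hk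
  refine ⟨_, ⟨i + Nat.find hex, rfl⟩, Nat.find_spec hex, ?_⟩
  have key : ∀ k, k ≤ Nat.find hex → Relation.ReflTransGen (fun u v => T.Adj u v ∧ u ∈ c.verts ∧ u ∉ E) (T.src (c.e i)) (T.src (c.e (i + k))) := by
    intro k
    induction k with
    | zero => exact fun _ => Relation.ReflTransGen.refl
    | succ k ih =>
      intro hk
      exact (ih (by omega)).tail ⟨⟨c.e (i + k), rfl, c.chain (i + k)⟩, ⟨i + k, rfl⟩, hmin k (by omega)⟩
  exact key _ le_rfl

/-! ## 4. the target event -/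

/-- the cell of the site number `i` contains a point of `F` which lies in no closed white cell -/
def pvxgEnd (F : Set ℂ) (ω : PVSample) (i : DelgpIx) : Prop :=
  ∃ x ∈ F, x ∈ vorCell (cfSites (pvConf ω)) (delgpW ω i) ∧ x ∉ pvWhite ω

/-- **THE TARGET EVENT**: a chain of black sites lying in `W`, consecutive cells touching; the first cell has a strict point in `FL`, the last one a strict point in `FR` -/
def pvxgEv (W FL FR : Set ℂ) : Set PVSample :=
  {ω | ∃ i j : DelgpIx, (i.2 < ω.1 i.1 ∧ (ω.2 i).2 = true ∧ delgpW ω i ∈ W) ∧ Relation.ReflTransGen (VorchVx W ω) i j ∧ pvxgEnd FL ω i ∧ pvxgEnd FR ω j}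

theorem pvxg_tgt_cite1 : True := by
  have := @pvxgEnd.eq_1; have := @pvxgEv.eq_1
  trivial

/-- the white region in index form -/
theorem pvxg_white_iff (ω : PVSample) (x : ℂ) :
    x ∈ pvWhite ω ↔ ∃ l : DelgpIx, l.2 < ω.1 l.1 ∧ (ω.2 l).2 = false ∧ (vorCell (cfSites (pvConf ω)) (delgpW ω l) ∩ {x}).Nonempty := by
  rw [dels_white_eq]
  have hc := vorch_col ω false
  constructor
  · rintro ⟨v, hv, hxv⟩
    have : v ∈ {v | (v, false) ∈ (pvConf ω).pts} := hv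
    rw [hc] at this
    obtain ⟨l, hl, hcl, rfl⟩ := this
    exact ⟨l, hl, hcl, x, hxv, rfl⟩
  · rintro ⟨l, hl, hcl, y, hy, hyx⟩
    rw [mem_singleton_iff.1 hyx] at hy
    have : delgpW ω l ∈ {v | (v, false) ∈ (pvConf ω).pts} := by rw [hc]; exact ⟨l, hl, hcl, rfl⟩
    exact ⟨_, this, hy⟩

theorem pvxg_meas_white (x : ℂ) : Measurable fun ω : PVSample => x ∈ pvWhite ω := by
  simp only [pvxg_white_iff]
  exact Measurable.exists fun l => (vorch_meas_act l).and ((vorch_meas_colour l false).and (vorch_meas_meet_one isCompact_singleton.isSigmaCompact l))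

theorem pvxg_meas_end {F : Set ℂ} (hF : F.Countable) (i : DelgpIx) : Measurable fun ω : PVSample => pvxgEnd F ω i := by
  have e : (fun ω : PVSample => pvxgEnd F ω i) = fun ω => ∃ x : F, (vorCell (cfSites (pvConf ω)) (delgpW ω i) ∩ {(x : ℂ)}).Nonempty ∧ ¬ (x : ℂ) ∈ pvWhite ω := by
    funext ω
    apply propext
    constructor
    · rintro ⟨x, hx, h1, h2⟩
      exact ⟨⟨x, hx⟩, ⟨x, h1, rfl⟩, h2⟩
    · rintro ⟨x, ⟨y, h1, hy⟩, h2⟩
      rw [mem_singleton_iff.1 hy] at h1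
      exact ⟨x, x.2, h1, h2⟩
  rw [e]
  have : Countable F := hF.to_subtype
  exact Measurable.exists fun x => (vorch_meas_meet_one isCompact_singleton.isSigmaCompact i).and (pvxg_meas_white x).not

/-- **the target event is measurable** -/
theorem pvxg_meas {W FL FR : Set ℂ} (hW : MeasurableSet W) (hL : FL.Countable) (hR : FR.Countable) : MeasurableSet (pvxgEv W FL FR) := by
  unfold pvxgEv
  rw [measurableSet_setOfPred]
  exact Measurable.exists fun i => Measurable.exists fun j => ((vorch_meas_act i).and ((vorch_meas_colour i true).and (vorch_meas_mem hW i))).and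
    ((vorch_meas_rtg (fun i j => vorch_meas_vx hW i j) i j).and ((pvxg_meas_end hL i).and (pvxg_meas_end hR j)))

/-- **site form of the target event** -/
theorem pvxg_mem_iff (ω : PVSample) (W FL FR : Set ℂ) :
    ω ∈ pvxgEv W FL FR ↔ ∃ u v : ℂ, PvBk (pvConf ω) W u ∧
      Relation.ReflTransGen (fun a b => PvBk (pvConf ω) W b ∧ (cfCell (pvConf ω) a ∩ cfCell (pvConf ω) b).Nonempty) u v ∧
      (∃ x ∈ FL, x ∈ vorCell (cfSites (pvConf ω)) u ∧ x ∉ pvWhite ω) ∧ (∃ x ∈ FR, x ∈ vorCell (cfSites (pvConf ω)) v ∧ x ∉ pvWhite ω) := by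
  constructor
  · rintro ⟨i, j, hi, hij, h1, h2⟩
    refine ⟨delgpW ω i, delgpW ω j, (vorch_bk_iff ω W _).2 ⟨i, hi, rfl⟩, ?_, h1, h2⟩
    refine Relation.ReflTransGen.lift (delgpW ω) ?_ _ _ hij
    rintro a b ⟨hb, hm⟩
    refine ⟨(vorch_bk_iff ω W _).2 ⟨b, hb, rfl⟩, ?_⟩
    rw [cfCell_eq_vor, cfCell_eq_vor]
    rwa [inter_univ] at hm
  · rintro ⟨u, v, hbk, hch, h1, h2⟩
    obtain ⟨i, hi, rfl⟩ := (vorch_bk_iff ω W u).1 hbk
    have key : ∀ b, Relation.ReflTransGen (fun a b => PvBk (pvConf ω) W b ∧ (cfCell (pvConf ω) a ∩ cfCell (pvConf ω) b).Nonempty) (delgpW ω i) b →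
        ∃ j : DelgpIx, b = delgpW ω j ∧ Relation.ReflTransGen (VorchVx W ω) i j := by
      intro b hb
      induction hb with
      | refl => exact ⟨i, rfl, Relation.ReflTransGen.refl⟩
      | tail _ hbc ih =>
        obtain ⟨j, rfl, hij⟩ := ih
        obtain ⟨hbk', hm⟩ := hbc
        obtain ⟨l, hl, rfl⟩ := (vorch_bk_iff ω W _).1 hbk'
        refine ⟨l, rfl, hij.tail ⟨hl, ?_⟩⟩
        rw [cfCell_eq_vor, cfCell_eq_vor] at hm
        rwa [inter_univ]
    obtain ⟨j, rfl, hij⟩ := key v hch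
    exact ⟨i, j, hi, hij, h1, h2⟩

/-! ## 5. the target event lies inside `PvStrict` -/

theorem pvxg_one {η : Conf PvPt} (hok : CfOK η) : ∀ p ∈ η.pts, ∀ q ∈ η.pts, p.1 = q.1 → p.2 = q.2 :=
  fun p hp q hq h => by rw [hok.col p hp q hq h]

/-- a point of a black cell which lies in no white cell is a strict point -/
theorem pvxg_strict_pt {ω : PVSample} (hok : CfOK (pvConf ω)) {W : Set ℂ} {u x : ℂ} (hu : PvBk (pvConf ω) W u) (hx : x ∈ vorCell (cfSites (pvConf ω)) u)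
    (hw : x ∉ pvWhite ω) : x ∈ vorStrict (cfSites (pvConf ω)) (delsBk (pvConf ω)) := by
  rw [← dels_frozen (pvxg_one hok)]
  refine ⟨?_, hw⟩
  rw [dels_black_eq]
  exact ⟨u, hu.1, hx⟩

/-- **TARGET ⟹ STRICT CROSSING**.      `CL`, `CR` disjoint closed sets (closed balls round the two grid centres); the cells of the black sites of `W` lie in `D ∪ CL ∪ CR`;
the frontier of `D` inside `CL` (`CR`) belongs to the left (right) arc. -/
theorem pvxg_strict {D : Set ℂ} {d : ℂ} {ψ : ℂ → ℂ} {x : ℝ} (hD : IsOpen D) {W FL FR CL CR : Set ℂ} (hCL : IsClosed CL) (hCR : IsClosed CR)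
    (hdis : Disjoint CL CR) (hFL : FL ⊆ frontier D ∩ CL) (hFR : FR ⊆ frontier D ∩ CR) (hL : frontier D ∩ CL ⊆ pvArcL D d ψ x)
    (hR : frontier D ∩ CR ⊆ pvArcR D d ψ) {ω : PVSample} (hok : CfOK (pvConf ω))
    (hcell : ∀ v, PvBk (pvConf ω) W v → vorCell (cfSites (pvConf ω)) v ⊆ D ∪ (CL ∪ CR)) (h : ω ∈ pvxgEv W FL FR) : PvStrict D d ψ x ω := by
  obtain ⟨u, v, hu, hch, ⟨x0, hx0, hx0u, hx0w⟩, ⟨x1, hx1, hx1v, hx1w⟩⟩ := (pvxg_mem_iff ω W FL FR).1 h
  set Y := cfSites (pvConf ω) with hY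
  set A := delsBk (pvConf ω) with hA
  set S : Set ℂ := {w | PvBk (pvConf ω) W w} with hS
  have hch' : Relation.ReflTransGen (fun a b => b ∈ S ∧ (vorCell Y a ∩ vorCell Y b).Nonempty) u v := by
    refine Relation.ReflTransGen.mono (fun a b hab => ?_) _ _ hch
    rw [cfCell_eq_vor, cfCell_eq_vor] at hab
    exact hab
  have hv : PvBk (pvConf ω) W v := (dels_chain (S := S) hok.del.lf hok.del.gp (dels_bk_subset _) (fun w hw => hw.1) (fun w _ => hok.del.bdd w) hu hch').1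
  have hj : JoinedIn (vorStrict Y A ∩ vorUn Y S) x0 x1 :=
    pvxg_path hok.del.lf hok.del.gp (dels_bk_subset _) (fun w hw => hw.1) (fun w _ => hok.del.bdd w) hu hch' hx0u (pvxg_strict_pt hok hu hx0u hx0w)
      hx1v (pvxg_strict_pt hok hv hx1v hx1w)
  have hoff : (vorStrict Y A ∩ vorUn Y S) \ D ⊆ CL ∪ CR := by
    rintro z ⟨⟨-, w, hw, hzw⟩, hzD⟩
    rcases hcell w hw hzw with h1 | h1
    · exact absurd h1 hzD
    · exact h1
  obtain ⟨p, hp, q, hq, hpq⟩ := pvxg_cut hD hCL hCR hdis hoff (hFL hx0) (hFR hx1) hj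
  refine dels_pvstrict (F := (vorStrict Y A ∩ vorUn Y S) ∩ closure D) ?_ (hL hp) (hR hq) hpq
  rintro z ⟨⟨hz, -⟩, hzc⟩
  refine ⟨hzc, ?_⟩
  rw [dels_frozen (pvxg_one hok)]
  exact hz

/-- **CONSUMER FORM**: a chain of black sites of `W` from `u` to `v`, a point `xL ∈ KL` of the cell of `u` and a point `xR ∈ KR` of the cell of `v`, both in no white cell;
`FL` dense in `KL`, `FR` dense in `KR`; all the sites whose cells contain `xL` or `xR` lie in `W`.      Then the target event holds. -/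
theorem pvxg_enter {ω : PVSample} (hok : CfOK (pvConf ω)) {W FL FR KL KR : Set ℂ} (hdL : KL ⊆ closure FL) (hdR : KR ⊆ closure FR) {u v xL xR : ℂ}
    (hu : PvBk (pvConf ω) W u)
    (hch : Relation.ReflTransGen (fun a b => PvBk (pvConf ω) W b ∧ (cfCell (pvConf ω) a ∩ cfCell (pvConf ω) b).Nonempty) u v)
    (hxL : xL ∈ KL) (hLu : xL ∈ vorCell (cfSites (pvConf ω)) u) (hLw : xL ∉ pvWhite ω) (hLW : ∀ a ∈ cfSites (pvConf ω), xL ∈ vorCell (cfSites (pvConf ω)) a → a ∈ W)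
    (hxR : xR ∈ KR) (hRv : xR ∈ vorCell (cfSites (pvConf ω)) v) (hRw : xR ∉ pvWhite ω) (hRW : ∀ a ∈ cfSites (pvConf ω), xR ∈ vorCell (cfSites (pvConf ω)) a → a ∈ W) :
    ω ∈ pvxgEv W FL FR := by
  set Y := cfSites (pvConf ω) with hY
  set A := delsBk (pvConf ω) with hA
  have hch' : Relation.ReflTransGen (fun a b => b ∈ {w | PvBk (pvConf ω) W w} ∧ (vorCell Y a ∩ vorCell Y b).Nonempty) u v := by
    refine Relation.ReflTransGen.mono (fun a b hab => ?_) _ _ hch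
    rw [cfCell_eq_vor, cfCell_eq_vor] at hab
    exact hab
  have hv : PvBk (pvConf ω) W v :=
    (dels_chain (S := {w | PvBk (pvConf ω) W w}) hok.del.lf hok.del.gp (dels_bk_subset _) (fun w hw => hw.1) (fun w _ => hok.del.bdd w) hu hch').1
  obtain ⟨x0, hx0, -, hs0, a, haA, haY, hx0a, hxLa⟩ := pvxg_dense hok.del.lf hok.del.ne hdL hxL (pvxg_strict_pt hok hu hLu hLw) one_pos
  obtain ⟨x1, hx1, -, hs1, b, hbA, hbY, hx1b, hxRb⟩ := pvxg_dense hok.del.lf hok.del.ne hdR hxR (pvxg_strict_pt hok hv hRv hRw) one_pos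
  rw [← dels_frozen (pvxg_one hok)] at hs0 hs1
  refine (pvxg_mem_iff ω W FL FR).2 ⟨a, b, ⟨haA, hLW a haY hxLa⟩, ?_, ⟨x0, hx0, hx0a, hs0.2⟩, ⟨x1, hx1, hx1b, hs1.2⟩⟩
  refine Relation.ReflTransGen.head (b := u) ⟨hu, ?_⟩ (hch.tail ⟨⟨hbA, hRW b hbY hxRb⟩, ?_⟩)
  · rw [cfCell_eq_vor, cfCell_eq_vor]; exact ⟨xL, hxLa, hLu⟩
  · rw [cfCell_eq_vor, cfCell_eq_vor]; exact ⟨xR, hRv, hxRb⟩

/-! ## 6. the assembly: quenched bound on the sections ⟹ annealed lower bound, NO measurability of the bad events -/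

/-- `EN`, `G` measurable; off a set `Bad` of geometries (ANY set, outer measure `≤ q`) the quenched probability of `EN \ G` is `≤ p`.      Then `P(EN) ≤ P(EN ∩ G) + p + q`. -/
theorem pvxg_anneal (ε : ℝ) {EN G : Set PVSample} (hEN : MeasurableSet EN) (hG : MeasurableSet G) {p q : ℝ≥0∞} {Bad : Set PvGeoT} (hBad : pvGeo ε Bad ≤ q)
    (hq : ∀ g, g ∉ Bad → pvQ (EN \ G) g ≤ p) : pvLaw ε EN ≤ pvLaw ε (EN ∩ G) + (p + q) := by
  have h1 : pvLaw ε EN = pvLaw ε (EN ∩ G) + pvLaw ε (EN \ G) := (measure_inter_add_sdiff EN hG).symm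
  have h2 : pvLaw ε (EN \ G) ≤ p + q := by
    rw [← pvqu_Q_lintegral ε (hEN.diff hG)]
    have hm : MeasurableSet (toMeasurable (pvGeo ε) Bad) := measurableSet_toMeasurable _ _
    calc ∫⁻ g, pvQ (EN \ G) g ∂(pvGeo ε) ≤ ∫⁻ g, (p + (toMeasurable (pvGeo ε) Bad).indicator 1 g) ∂(pvGeo ε) := by
          refine lintegral_mono fun g => ?_
          by_cases hg : g ∈ Bad
          · rw [indicator_of_mem (subset_toMeasurable _ _ hg)]
            exact (pvqu_Q_mono (subset_univ _) g).trans ((pvqu_Q_univ g).le.trans le_add_self)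
          · exact (hq g hg).trans le_self_add
      _ = p + pvGeo ε Bad := by
          rw [lintegral_add_left measurable_const, lintegral_const, measure_univ, mul_one, lintegral_indicator_one hm, measure_toMeasurable]
      _ ≤ p + q := by gcongr
  rw [h1]
  gcongr

/-- the form consumed by `PvLower` -/
theorem pvxg_lower (ε : ℝ) {EN G St : Set PVSample} (hEN : MeasurableSet EN) (hG : MeasurableSet G) (hGS : EN ∩ G ⊆ St) {a p q : ℝ} (hp : 0 ≤ p) (hq0 : 0 ≤ q)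
    (ha : ENNReal.ofReal a ≤ pvLaw ε EN) {Bad : Set PvGeoT} (hBad : pvGeo ε Bad ≤ ENNReal.ofReal q) (hq : ∀ g, g ∉ Bad → pvQ (EN \ G) g ≤ ENNReal.ofReal p) :
    ∃ E : Set PVSample, MeasurableSet E ∧ E ⊆ St ∧ ENNReal.ofReal (a - (p + q)) ≤ pvLaw ε E := by
  refine ⟨EN ∩ G, hEN.inter hG, hGS, ?_⟩
  have h1 := ha.trans (pvxg_anneal ε hEN hG hBad hq)
  rw [← ENNReal.ofReal_add hp hq0] at h1
  rw [ENNReal.ofReal_sub _ (add_nonneg hp hq0)]
  exact tsub_le_iff_right.2 h1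

/-! ## 7. polygons in the closed disc, abstract form -/

/-- the image under `φ` of the segment `[ζ, ζ']`, at the RATIONAL parameters, lies in `U` -/
def PvxgLink (φ : ℂ → ℂ) (U : Set ℂ) (ζ ζ' : ℂ) : Prop := ∀ s : ℚ, 0 ≤ s → s ≤ 1 → φ (ζ + ((s : ℝ) : ℂ) * (ζ' - ζ)) ∈ U

theorem pvxg_tgt_cite2 : True := by
  have := @PvxgLink.eq_1
  trivial

theorem pvxg_seg_mem {B : Set ℂ} (hB : Convex ℝ B) {ζ ζ' : ℂ} (h1 : ζ ∈ B) (h2 : ζ' ∈ B) {s : ℝ} (h0 : 0 ≤ s) (hs : s ≤ 1) : ζ + (s : ℂ) * (ζ' - ζ) ∈ B := by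
  have := hB h1 h2 (sub_nonneg.2 hs) h0 (by ring)
  have e : (1 - s) • ζ + s • ζ' = ζ + (s : ℂ) * (ζ' - ζ) := by
    simp only [Complex.real_smul]; push_cast; ring
  rwa [e] at this

/-- rational parameters are dense in `[0, 1]` -/
theorem pvxg_rat_near {s δ : ℝ} (h0 : 0 ≤ s) (h1 : s ≤ 1) (hδ : 0 < δ) : ∃ q : ℚ, 0 ≤ q ∧ q ≤ 1 ∧ |(q : ℝ) - s| < δ := by
  rcases h1.eq_or_lt with e | e
  · exact ⟨1, zero_le_one, le_rfl, by rw [e]; simpa using hδ⟩
  · obtain ⟨q, hq1, hq2⟩ := exists_rat_btwn (lt_min e (lt_add_of_pos_right s hδ))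
    refine ⟨q, ?_, ?_, ?_⟩
    · exact_mod_cast (h0.trans hq1.le)
    · exact_mod_cast (hq2.trans_le (min_le_left _ _)).le
    · rw [abs_of_pos (sub_pos.2 hq1)]
      have := hq2.trans_le (min_le_right _ _)
      linarith

/-- **a link is a path**: `U'` contains the `τ`-neighbourhood of `U` -/
theorem pvxg_link_joined {φ : ℂ → ℂ} {B U U' : Set ℂ} (hB : Convex ℝ B) (hφ : ContinuousOn φ B) {τ : ℝ} (hτ : 0 < τ)
    (hU : ∀ z ∈ U, ∀ z', ‖z' - z‖ ≤ τ → z' ∈ U') {ζ ζ' : ℂ} (h1 : ζ ∈ B) (h2 : ζ' ∈ B) (hl : PvxgLink φ U ζ ζ') :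
    JoinedIn (φ '' B ∩ U') (φ ζ) (φ ζ') := by
  set f : ℝ → ℂ := fun s => φ (ζ + (s : ℂ) * (ζ' - ζ)) with hf
  have hfc : ContinuousOn f (Icc 0 1) := by
    refine hφ.comp (by fun_prop) fun s hs => pvxg_seg_mem hB h1 h2 hs.1 hs.2
  refine JoinedIn.ofLine (f := f) hfc (by simp [hf]) (by simp [hf]) ?_
  rintro _ ⟨s, hs, rfl⟩
  refine ⟨⟨_, pvxg_seg_mem hB h1 h2 hs.1 hs.2, rfl⟩, ?_⟩
  obtain ⟨δ, hδ, hcl⟩ := Metric.continuousWithinAt_iff.1 (hfc s hs) τ hτ
  obtain ⟨q, hq0, hq1, hqs⟩ := pvxg_rat_near hs.1 hs.2 hδ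
  have hqI : (q : ℝ) ∈ Icc (0 : ℝ) 1 := ⟨by exact_mod_cast hq0, by exact_mod_cast hq1⟩
  have h3 := hcl hqI (by rw [Real.dist_eq]; exact hqs)
  rw [dist_comm, dist_eq_norm] at h3
  exact hU _ (hl q hq0 hq1) _ h3.le

/-- **chains of links along a preconnected set** -/
theorem pvxg_chain {φ : ℂ → ℂ} {B U U' A Q QL QR : Set ℂ} (hB : Convex ℝ B) (hBc : IsCompact B) (hφ : ContinuousOn φ B) {τ : ℝ} (hτ : 0 < τ)
    (hU : ∀ z ∈ U, ∀ z', ‖z' - z‖ ≤ τ → z' ∈ U') (hA : IsPreconnected A) (hAB : A ⊆ B) (hAU : ∀ a ∈ A, φ a ∈ U) (hQB : Q ⊆ B) (hQ : B ⊆ closure Q)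
    (hQL : QL ⊆ Q) (hQR : QR ⊆ Q) {a a' : ℂ} (ha : a ∈ A) (haL : a ∈ closure QL) (ha' : a' ∈ A) (haR : a' ∈ closure QR) :
    ∃ ζ ζ' : Q, (ζ : ℂ) ∈ QL ∧ (ζ' : ℂ) ∈ QR ∧ PvxgLink φ U' ζ ζ ∧ Relation.ReflTransGen (fun u v : Q => PvxgLink φ U' u v) ζ ζ' := by
  obtain ⟨δ, hδ, hun⟩ := Metric.uniformContinuousOn_iff.1 (hBc.uniformContinuousOn_of_continuous hφ) τ hτ
  set R : Q → Q → Prop := fun u v => PvxgLink φ U' u v with hR
  set P : ℂ → ℂ → Prop := fun x y => ∀ q q' : Q, ‖(q : ℂ) - x‖ < δ / 4 → ‖(q' : ℂ) - y‖ < δ / 4 → Relation.ReflTransGen R q q' with hP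
  -- one step
  have step : ∀ x ∈ A, ∀ q q' : Q, ‖(q : ℂ) - x‖ < δ → ‖(q' : ℂ) - x‖ < δ → R q q' := by
    intro x hx q q' h1 h2 s hs0 hs1
    have hs0' : (0 : ℝ) ≤ (s : ℝ) := by exact_mod_cast hs0
    have hs1' : (s : ℝ) ≤ 1 := by exact_mod_cast hs1
    have m1 : (q : ℂ) + ((s : ℝ) : ℂ) * ((q' : ℂ) - q) ∈ B := pvxg_seg_mem hB (hQB q.2) (hQB q'.2) hs0' hs1'
    have m2 : (q : ℂ) + ((s : ℝ) : ℂ) * ((q' : ℂ) - q) ∈ ball x δ :=
      pvxg_seg_mem (convex_ball x δ) (by rw [mem_ball, dist_eq_norm]; exact h1) (by rw [mem_ball, dist_eq_norm]; exact h2) hs0' hs1'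
    have h3 := hun _ m1 x (hAB hx) m2
    rw [dist_eq_norm] at h3
    exact hU _ (hAU x hx) _ h3.le
  have key : P a a' := by
    refine hA.induction₂' P ?_ ?_ ha ha'
    · intro x hx
      have hnb : {y | ‖y - x‖ < δ / 4} ∈ 𝓝[A] x := by
        refine mem_nhdsWithin_of_mem_nhds ?_
        have : {y | ‖y - x‖ < δ / 4} = ball x (δ / 4) := by ext y; rw [mem_ball, dist_eq_norm]; rfl
        rw [this]
        exact ball_mem_nhds x (by positivity)
      filter_upwards [hnb] with y hy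
      have hy' : ‖y - x‖ < δ / 4 := hy
      constructor
      · intro q q' h1 h2
        refine Relation.ReflTransGen.single (step x hx q q' (by linarith) ?_)
        have e : (q' : ℂ) - x = ((q' : ℂ) - y) + (y - x) := by ring
        rw [e]
        exact (norm_add_le _ _).trans_lt (by linarith)
      · intro q q' h1 h2
        refine Relation.ReflTransGen.single (step x hx q q' ?_ (by linarith))
        have e : (q : ℂ) - x = ((q : ℂ) - y) + (y - x) := by ring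
        rw [e]
        exact (norm_add_le _ _).trans_lt (by linarith)
    · intro x y z _ hy _ h1 h2 q q' hq hq'
      obtain ⟨p, hp, hpy⟩ := Metric.mem_closure_iff.1 (hQ (hAB hy)) (δ / 4) (by positivity)
      rw [dist_comm, dist_eq_norm] at hpy
      exact (h1 q ⟨p, hp⟩ hq hpy).trans (h2 ⟨p, hp⟩ q' hpy hq')
  obtain ⟨ζ, hζ, h1⟩ := Metric.mem_closure_iff.1 haL (δ / 4) (by positivity)
  obtain ⟨ζ', hζ', h2⟩ := Metric.mem_closure_iff.1 haR (δ / 4) (by positivity)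
  rw [dist_comm, dist_eq_norm] at h1 h2
  exact ⟨⟨ζ, hQL hζ⟩, ⟨ζ', hQR hζ'⟩, hζ, hζ', step a ha ⟨ζ, hQL hζ⟩ ⟨ζ, hQL hζ⟩ (by show ‖ζ - a‖ < δ; linarith) (by show ‖ζ - a‖ < δ; linarith), key _ _ h1 h2⟩

/-! ## 8. the thick black region -/

/-- **the `t`-thick black region**: some black site is closer than all the white sites, with margin `t` -/
def pvxgBk (t : ℝ) (ω : PVSample) : Set ℂ :=
  {z | ∃ b, (b, true) ∈ (pvConf ω).pts ∧ ∀ w, (w, false) ∈ (pvConf ω).pts → ‖z - b‖ + t ≤ ‖z - w‖}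

theorem pvxg_tgt_cite3 : True := by
  have := @pvxgBk.eq_1
  trivial

theorem pvxg_bk_mono {t t' : ℝ} (h : t' ≤ t) (ω : PVSample) : pvxgBk t ω ⊆ pvxgBk t' ω := by
  rintro z ⟨b, hb, hw⟩
  exact ⟨b, hb, fun w hw' => by linarith [hw w hw']⟩

/-- slack -/
theorem pvxg_bk_slack {t : ℝ} {ω : PVSample} {z z' : ℂ} (hz : z ∈ pvxgBk t ω) (h : ‖z' - z‖ ≤ t / 4) : z' ∈ pvxgBk (t / 2) ω := by
  obtain ⟨b, hb, hw⟩ := hz
  refine ⟨b, hb, fun w hw' => ?_⟩
  have h1 : ‖z' - b‖ ≤ ‖z' - z‖ + ‖z - b‖ := by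
    have e : z' - b = (z' - z) + (z - b) := by ring
    rw [e]; exact norm_add_le _ _
  have h2 : ‖z - w‖ ≤ ‖z' - z‖ + ‖z' - w‖ := by
    have e : z - w = (z' - w) - (z' - z) := by ring
    rw [e]; exact (norm_sub_le _ _).trans (by linarith)
  linarith [hw w hw']

/-- the thick black region lies in the black cells and misses the closed white cells -/
theorem pvxg_bk_strict {t : ℝ} (ht : 0 < t) {ω : PVSample} (lf : PvLF (pvConf ω)) : pvxgBk t ω ⊆ pvBlack ω \ pvWhite ω := by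
  rintro z ⟨b, hb, hw⟩
  have hbY : b ∈ cfSites (pvConf ω) := ⟨(b, true), hb, rfl⟩
  have hnw : ∀ w, (w, false) ∈ (pvConf ω).pts → z ∉ vorCell (cfSites (pvConf ω)) w := fun w hw' hz => by
    linarith [hw w hw', hz b hbY]
  constructor
  · rw [dels_black_eq]
    obtain ⟨v, ⟨⟨v', c⟩, hv, rfl⟩, hzv⟩ := vor_cover (delgp_lf_of_pvlf lf) ⟨b, hbY⟩ z
    cases c with
    | true => exact ⟨v', hv, hzv⟩
    | false => exact absurd hzv (hnw v' hv)
  · rw [dels_white_eq]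
    rintro ⟨w, hw', hz⟩
    exact hnw w hw' hz

/-- bridge from the `infDist` form -/
theorem pvxg_bk_of_infDist {t : ℝ} (ht : 0 < t) {ω : PVSample} {z : ℂ} (hne : (delsBk (pvConf ω)).Nonempty)
    (h : Metric.infDist z (delsBk (pvConf ω)) + t ≤ Metric.infDist z (delsWh (pvConf ω))) : z ∈ pvxgBk (t / 2) ω := by
  obtain ⟨b, hb, hlt⟩ := (Metric.infDist_lt_iff hne).1 (lt_add_of_pos_right (Metric.infDist z (delsBk (pvConf ω))) (half_pos ht))
  refine ⟨b, hb, fun w hw => ?_⟩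
  have h1 : Metric.infDist z (delsWh (pvConf ω)) ≤ dist z w := Metric.infDist_le_dist_of_mem hw
  rw [dist_eq_norm] at hlt h1
  linarith

/-- index form -/
theorem pvxg_bk_iff (t : ℝ) (ω : PVSample) (z : ℂ) :
    z ∈ pvxgBk t ω ↔ ∃ i : DelgpIx, (i.2 < ω.1 i.1 ∧ (ω.2 i).2 = true) ∧
      ∀ j : DelgpIx, (j.2 < ω.1 j.1 ∧ (ω.2 j).2 = false) → ‖z - delgpW ω i‖ + t ≤ ‖z - delgpW ω j‖ := by
  have hc : ∀ (c : Bool) (v : ℂ), (v, c) ∈ (pvConf ω).pts ↔ ∃ i : DelgpIx, i.2 < ω.1 i.1 ∧ (ω.2 i).2 = c ∧ v = delgpW ω i := by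
    intro c v
    have := vorch_col ω c
    exact (Set.ext_iff.1 this v)
  constructor
  · rintro ⟨b, hb, hw⟩
    obtain ⟨i, hi, hci, rfl⟩ := (hc true b).1 hb
    exact ⟨i, ⟨hi, hci⟩, fun j hj => hw _ ((hc false _).2 ⟨j, hj.1, hj.2, rfl⟩)⟩
  · rintro ⟨i, hi, hw⟩
    refine ⟨delgpW ω i, (hc true _).2 ⟨i, hi.1, hi.2, rfl⟩, fun w hw' => ?_⟩
    obtain ⟨j, hj, hcj, rfl⟩ := (hc false w).1 hw'
    exact hw j ⟨hj, hcj⟩

theorem pvxg_meas_bk (t : ℝ) (z : ℂ) : Measurable fun ω : PVSample => z ∈ pvxgBk t ω := by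
  simp only [pvxg_bk_iff]
  refine Measurable.exists fun i => ((vorch_meas_act i).and (vorch_meas_colour i true)).and (Measurable.forall fun j => ?_)
  refine Measurable.imp ((vorch_meas_act j).and (vorch_meas_colour j false)) ?_
  refine measurableSet_setOfPred.1 (measurableSet_le ?_ ?_)
  · exact ((measurable_const.sub (delgp_measurable_W i)).norm).add_const t
  · exact (measurable_const.sub (delgp_measurable_W j)).norm

theorem pvxg_meas_link (φ : ℂ → ℂ) (t : ℝ) (ζ ζ' : ℂ) : Measurable fun ω : PVSample => PvxgLink φ (pvxgBk t ω) ζ ζ' := by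
  unfold PvxgLink
  exact Measurable.forall fun s => Measurable.imp measurable_const (Measurable.imp measurable_const (pvxg_meas_bk t _))

/-! ## 9. the chart form of the target event -/

/-- **THE TARGET EVENT, CHART FORM**: a polygon through the countable set `Q` of the closed disc, from `QL` to `QR`, whose image under `φ` (the inverse disc chart) lies in a thick black region -/
def pvxgT (φ : ℂ → ℂ) (Q QL QR : Set ℂ) : Set PVSample :=
  {ω | PvLF (pvConf ω) ∧ ∃ n : ℕ, ∃ ζ ζ' : Q, (ζ : ℂ) ∈ QL ∧ (ζ' : ℂ) ∈ QR ∧ PvxgLink φ (pvxgBk (1 / ((n : ℝ) + 1)) ω) ζ ζ ∧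
    Relation.ReflTransGen (fun u v : Q => PvxgLink φ (pvxgBk (1 / ((n : ℝ) + 1)) ω) u v) ζ ζ'}

theorem pvxg_tgt_cite4 : True := by
  have := @pvxgT.eq_1
  trivial

theorem pvxg_meas_T (φ : ℂ → ℂ) {Q : Set ℂ} (hQ : Q.Countable) (QL QR : Set ℂ) : MeasurableSet (pvxgT φ Q QL QR) := by
  have : Countable Q := hQ.to_subtype
  have e : pvxgT φ Q QL QR = {ω | PvLF (pvConf ω)} ∩ {ω | ∃ n : ℕ, ∃ ζ ζ' : Q, (ζ : ℂ) ∈ QL ∧ (ζ' : ℂ) ∈ QR ∧
      PvxgLink φ (pvxgBk (1 / ((n : ℝ) + 1)) ω) ζ ζ ∧ Relation.ReflTransGen (fun u v : Q => PvxgLink φ (pvxgBk (1 / ((n : ℝ) + 1)) ω) u v) ζ ζ'} := rfl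
  rw [e]
  refine vorch_meas_lf.inter (measurableSet_setOfPred.2 ?_)
  exact Measurable.exists fun n => Measurable.exists fun ζ => Measurable.exists fun ζ' => measurable_const.and (measurable_const.and
    ((pvxg_meas_link φ _ ζ ζ).and (vorch_meas_rtg (fun u v : Q => pvxg_meas_link φ _ u v) ζ ζ')))

/-- **TGT** (contract of helper74): a measurable event inside the strict crossing event which contains every sample with a preconnected subset of `closure D ∩ pvxgBk t ω`, `t > 0`, joining the two arcs -/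
theorem pvxg_tgt {D : Set ℂ} {d : ℂ} {ψ : ℂ → ℂ} (h : PvChart D d ψ) (x : ℝ) :
    ∃ T : Set PVSample, MeasurableSet T ∧ T ⊆ {ω | PvStrict D d ψ x ω} ∧
      ∀ ω, PvLF (pvConf ω) → ∀ t : ℝ, 0 < t → ∀ S : Set ℂ, IsPreconnected S → S ⊆ closure D ∩ pvxgBk t ω →
        (S ∩ pvArcL D d ψ x).Nonempty → (S ∩ pvArcR D d ψ).Nonempty → ω ∈ T := by
  set B : Set ℂ := closedBall 0 1 with hB
  have hBconv : Convex ℝ B := convex_closedBall 0 1
  have hBc : IsCompact B := isCompact_closedBall 0 1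
  have hLcl : pvArcL D d ψ x ⊆ closure D := fun z hz => frontier_subset_closure hz.1
  have hRcl : pvArcR D d ψ ⊆ closure D := by
    rintro z (rfl | hz)
    · exact frontier_subset_closure h.hd
    · exact frontier_subset_closure hz.1
  have hmemB : ∀ z ∈ closure D, h.disc z ∈ B := fun z hz => by
    rw [hB, mem_closedBall, dist_zero_right]; exact h.disc_norm_le hz
  obtain ⟨Q0, hQ0B, hQ0c, hQ0d⟩ := (TopologicalSpace.IsSeparable.of_separableSpace B).exists_countable_dense_subset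
  obtain ⟨QL, hQLs, hQLc, hQLd⟩ := (TopologicalSpace.IsSeparable.of_separableSpace (h.disc '' pvArcL D d ψ x)).exists_countable_dense_subset
  obtain ⟨QR, hQRs, hQRc, hQRd⟩ := (TopologicalSpace.IsSeparable.of_separableSpace (h.disc '' pvArcR D d ψ)).exists_countable_dense_subset
  set Q : Set ℂ := Q0 ∪ (QL ∪ QR) with hQ
  have hQc : Q.Countable := hQ0c.union (hQLc.union hQRc)
  have hQB : Q ⊆ B := by
    rintro ζ (hζ | hζ | hζ)
    · exact hQ0B hζ
    · obtain ⟨z, hz, rfl⟩ := hQLs hζ; exact hmemB z (hLcl hz)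
    · obtain ⟨z, hz, rfl⟩ := hQRs hζ; exact hmemB z (hRcl hz)
  have hQd : B ⊆ closure Q := hQ0d.trans (closure_mono subset_union_left)
  have himg : h.dinv '' B ⊆ closure D := by
    rintro _ ⟨ζ, hζ, rfl⟩
    exact h.dinv_mem (by rwa [hB, mem_closedBall, dist_zero_right] at hζ)
  refine ⟨pvxgT h.dinv Q QL QR, pvxg_meas_T _ hQc _ _, ?_, ?_⟩
  · -- inside the strict crossing event
    rintro ω ⟨lf, n, ζ, ζ', hζ, hζ', h0, hch⟩
    set t : ℝ := 1 / ((n : ℝ) + 1) with ht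
    have htpos : 0 < t := by positivity
    set F : Set ℂ := h.dinv '' B ∩ pvxgBk (t / 2) ω with hF
    have hsl : ∀ z ∈ pvxgBk t ω, ∀ z', ‖z' - z‖ ≤ t / 4 → z' ∈ pvxgBk (t / 2) ω := fun z hz z' hz' => pvxg_bk_slack hz hz'
    have hj : ∀ ζ'' : Q, Relation.ReflTransGen (fun u v : Q => PvxgLink h.dinv (pvxgBk t ω) u v) ζ ζ'' → JoinedIn F (h.dinv ζ) (h.dinv ζ'') := by
      intro ζ'' hc
      induction hc with
      | refl => exact pvxg_link_joined hBconv h.dinv_cont (by positivity) hsl (hQB ζ.2) (hQB ζ.2) h0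
      | @tail u v _ huv ih => exact ih.trans (pvxg_link_joined hBconv h.dinv_cont (by positivity) hsl (hQB u.2) (hQB v.2) huv)
    obtain ⟨z, hz, e⟩ := hQLs hζ
    obtain ⟨z', hz', e'⟩ := hQRs hζ'
    have e1 : h.dinv ζ = z := by rw [← e]; exact h.dinv_disc (hLcl hz)
    have e2 : h.dinv ζ' = z' := by rw [← e']; exact h.dinv_disc (hRcl hz')
    refine dels_pvstrict (F := F) ?_ (e1 ▸ hz) (e2 ▸ hz') (hj ζ' hch)
    rintro w ⟨hw1, hw2⟩
    exact ⟨himg hw1, pvxg_bk_strict (by positivity) lf hw2⟩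
  · -- the criterion
    rintro ω lf t ht S hS hSsub ⟨p, hpS, hpL⟩ ⟨p', hp'S, hp'R⟩
    obtain ⟨n, hn⟩ := exists_nat_one_div_lt (half_pos ht)
    have hA : IsPreconnected (h.disc '' S) := hS.image _ (h.disc_cont.mono fun z hz => (hSsub hz).1)
    have hAB : h.disc '' S ⊆ B := by
      rintro _ ⟨z, hz, rfl⟩; exact hmemB z (hSsub hz).1
    have hAU : ∀ a ∈ h.disc '' S, h.dinv a ∈ pvxgBk t ω := by
      rintro _ ⟨z, hz, rfl⟩
      rw [h.dinv_disc (hSsub hz).1]; exact (hSsub hz).2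
    have hsl : ∀ z ∈ pvxgBk t ω, ∀ z', ‖z' - z‖ ≤ t / 4 → z' ∈ pvxgBk (1 / ((n : ℝ) + 1)) ω :=
      fun z hz z' hz' => pvxg_bk_mono hn.le ω (pvxg_bk_slack hz hz')
    obtain ⟨ζ, ζ', h1, h2, h3, h4⟩ := pvxg_chain (Q := Q) (QL := QL) (QR := QR) hBconv hBc h.dinv_cont (show (0 : ℝ) < t / 4 by positivity) hsl hA hAB hAU hQB hQd
      (fun q hq => Or.inr (Or.inl hq)) (fun q hq => Or.inr (Or.inr hq)) ⟨p, hpS, rfl⟩ (hQLd ⟨p, hpL, rfl⟩) ⟨p', hp'S, rfl⟩ (hQRd ⟨p', hp'R, rfl⟩)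
    exact ⟨lf, n, ζ, ζ', h1, h2, h3, h4⟩

/-! ## 10. bridge to the vocabulary of `Ext/Cells` (helper255) -/

/-- `pvxgBk t ω = Bk_t(ω)` of `Ext/Cells` -/
theorem pvxg_bk_eq_fat (t : ℝ) (ω : PVSample) : pvxgBk t ω = pvxkFat (delsBk (pvConf ω)) (delsWh (pvConf ω)) (-t) := by
  ext z
  constructor
  · rintro ⟨b, hb, hw⟩
    exact ⟨b, hb, fun w hw' => by linarith [hw w hw']⟩
  · rintro ⟨b, hb, hw⟩
    exact ⟨b, hb, fun w hw' => by linarith [hw w hw']⟩

/-- **TGT in the vocabulary of `Ext/Cells`** -/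
theorem pvxg_tgt_fat {D : Set ℂ} {d : ℂ} {ψ : ℂ → ℂ} (h : PvChart D d ψ) (x : ℝ) :
    ∃ T : Set PVSample, MeasurableSet T ∧ T ⊆ {ω | PvStrict D d ψ x ω} ∧
      ∀ ω, PvLF (pvConf ω) → ∀ t : ℝ, 0 < t → ∀ S : Set ℂ, IsPreconnected S → S ⊆ pvxkFat (delsBk (pvConf ω)) (delsWh (pvConf ω)) (-t) ∩ closure D →
        (S ∩ pvArcL D d ψ x).Nonempty → (S ∩ pvArcR D d ψ).Nonempty → ω ∈ T := by
  obtain ⟨T, h1, h2, h3⟩ := pvxg_tgt h x
  refine ⟨T, h1, h2, fun ω lf t ht S hS hsub hL hR => h3 ω lf t ht S hS (fun z hz => ⟨(hsub hz).2, ?_⟩) hL hR⟩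
  rw [pvxg_bk_eq_fat]
  exact (hsub hz).1

end Claimed.Agent.R289
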