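import Claimed.Agent.R289.Ext.Defs
import Claimed.Agent.R289.Ext.Prob
import Claimed.Agent.R289.Ext.Tgt

/-!
# Row 289 (S0537), unit EXT, piece PLAN, file Ext/Plan : FROM THE SITE FORM OF THE EXPLORATION TO THE INDEX FORM OF `PvxpPlan`      (helper179, with helper256; head of EXT helper74; prefix `pvxl_`, def `pvxlS`)

The deterministic core of EXT (`Ext/Defs`, 74) speaks of a site set `Y` and of a colouring `σ : ℂ → Bool` of the sites;   the probabilistic glue (`Ext/Prob`, 256) of a frozen geometry `g : PvGeoT` and of bits `c : PvColT = PvIx → Bool`.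
Dictionary: `Y = pvgSites g`, `σ = pvgColAt g c`.
* sec. 1  (K1) `pvxW ∪ pvxB` is a STOPPING SET in site form: `pvxl_stop_W`, `pvxl_stop_B`, `pvxl_stop_paint`
* sec. 2  (K2) `pvxlS g F c : Finset PvIx` = the indices of the explored sites;  **`pvxl_stop`** : `PvaStop`;   (K3) **`pvxl_meas`** : every function of the SETS `F.W`, `F.B` is explored-measurable
* sec. 3  (K4) **`pvxl_paint`** : painting the indices = painting the sites;   `pvxl_conf_paint`
* sec. 4  (K5) the dictionary for the events: black / white sites, `PvVC ↔ PvxVC`, `PvLF`, the regions `pvxkFat` of TGT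
* sec. 5  finiteness of the free sites
-/

set_option autoImplicit false

namespace Claimed.Agent.R289

open Set Metric Filter Topology MeasureTheory Relation
open Claims.C0465

/-! ## 1. the exploration is a stopping set (site form) -/

section stop

variable {V : Set ℂ} {adj : ℂ → ℂ → Prop} {seed : Set ℂ} {σ σ' : ℂ → Bool}

theorem pvxl_W_sub {w : ℂ} (hw : w ∈ pvxW V adj seed σ) : w ∈ V ∧ σ w = false := by
  obtain ⟨s, h1, -, h3, h4⟩ := hw
  rcases ReflTransGen.cases_tail h4 with rfl | ⟨b, -, hb⟩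
  · exact ⟨h1, h3⟩
  · exact ⟨hb.1, hb.2.1⟩

theorem pvxl_B_sub {b : ℂ} (hb : b ∈ pvxB V adj seed σ) : b ∈ V ∧ σ b = true := ⟨hb.1, hb.2.1⟩

theorem pvxl_W_seed {s : ℂ} (h1 : s ∈ V) (h2 : s ∈ seed) (h3 : σ s = false) : s ∈ pvxW V adj seed σ := ⟨s, h1, h2, h3, ReflTransGen.refl⟩

theorem pvxl_W_step {w v : ℂ} (hw : w ∈ pvxW V adj seed σ) (h1 : v ∈ V) (h2 : σ v = false) (h3 : adj w v) : v ∈ pvxW V adj seed σ := by
  obtain ⟨s, a1, a2, a3, a4⟩ := hw
  exact ⟨s, a1, a2, a3, a4.tail ⟨h1, h2, h3⟩⟩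

/-- a free seed is explored -/
theorem pvxl_seed_mem {s : ℂ} (h1 : s ∈ V) (h2 : s ∈ seed) : s ∈ pvxW V adj seed σ ∪ pvxB V adj seed σ := by
  cases h : σ s
  · exact Or.inl (pvxl_W_seed h1 h2 h)
  · exact Or.inr ⟨h1, h, Or.inl h2⟩

/-- a free neighbour of an explored white site is explored -/
theorem pvxl_nbr_mem {w v : ℂ} (hw : w ∈ pvxW V adj seed σ) (h1 : v ∈ V) (h3 : adj w v) : v ∈ pvxW V adj seed σ ∪ pvxB V adj seed σ := by
  cases h : σ v
  · exact Or.inl (pvxl_W_step hw h1 h h3)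
  · exact Or.inr ⟨h1, h, Or.inr ⟨w, hw, h3⟩⟩

theorem pvxl_WB_disj : Disjoint (pvxW V adj seed σ) (pvxB V adj seed σ) := by
  rw [Set.disjoint_left]
  intro v hw hb
  have h1 := hb.2.1
  rw [(pvxl_W_sub hw).2] at h1
  exact Bool.false_ne_true h1

theorem pvxl_stop_W_le (hag : ∀ v ∈ pvxW V adj seed σ ∪ pvxB V adj seed σ, σ' v = σ v) : pvxW V adj seed σ ⊆ pvxW V adj seed σ' := by
  rintro w ⟨s, h1, h2, h3, h4⟩
  have hs : s ∈ pvxW V adj seed σ := pvxl_W_seed h1 h2 h3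
  have key : w ∈ pvxW V adj seed σ ∧ w ∈ pvxW V adj seed σ' := by
    induction h4 with
    | refl => exact ⟨hs, pvxl_W_seed h1 h2 (by rw [hag s (Or.inl hs), h3])⟩
    | tail _ hbc ih =>
      have hc := pvxl_W_step ih.1 hbc.1 hbc.2.1 hbc.2.2
      exact ⟨hc, pvxl_W_step ih.2 hbc.1 (by rw [hag _ (Or.inl hc), hbc.2.1]) hbc.2.2⟩
  exact key.2

theorem pvxl_stop_W_ge (hag : ∀ v ∈ pvxW V adj seed σ ∪ pvxB V adj seed σ, σ' v = σ v) : pvxW V adj seed σ' ⊆ pvxW V adj seed σ := by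
  rintro w ⟨s, h1, h2, h3, h4⟩
  have white : ∀ v, v ∈ pvxW V adj seed σ ∪ pvxB V adj seed σ → σ' v = false → v ∈ pvxW V adj seed σ := by
    rintro v (hv | hv) hv'
    · exact hv
    · rw [hag v (Or.inr hv), hv.2.1] at hv'
      exact absurd hv' (by simp)
  induction h4 with
  | refl => exact white s (pvxl_seed_mem h1 h2) h3
  | tail _ hbc ih => exact white _ (pvxl_nbr_mem ih hbc.1 hbc.2.2) hbc.2.1

/-- **(K1)** -/
theorem pvxl_stop_W (hag : ∀ v ∈ pvxW V adj seed σ ∪ pvxB V adj seed σ, σ' v = σ v) : pvxW V adj seed σ' = pvxW V adj seed σ :=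
  Subset.antisymm (pvxl_stop_W_ge hag) (pvxl_stop_W_le hag)

/-- **(K1)** -/
theorem pvxl_stop_B (hag : ∀ v ∈ pvxW V adj seed σ ∪ pvxB V adj seed σ, σ' v = σ v) : pvxB V adj seed σ' = pvxB V adj seed σ := by
  have hW := pvxl_stop_W hag
  ext b
  constructor
  · rintro ⟨h1, h2, h3⟩
    rw [hW] at h3
    have hb : b ∈ pvxW V adj seed σ ∪ pvxB V adj seed σ := by
      rcases h3 with h3 | ⟨w, hw, hwb⟩
      · exact pvxl_seed_mem h1 h3
      · exact pvxl_nbr_mem hw h1 hwb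
    rcases hb with hb | hb
    · rw [hag b (Or.inl hb), (pvxl_W_sub hb).2] at h2
      exact absurd h2 (by simp)
    · exact hb
  · intro hb
    refine ⟨hb.1, by rw [hag b (Or.inr hb), hb.2.1], ?_⟩
    rw [hW]
    exact hb.2.2

/-- the painted colourings agree wherever the colourings agree off the explored set -/
theorem pvxl_stop_paint (hag : ∀ v ∈ pvxW V adj seed σ ∪ pvxB V adj seed σ, σ' v = σ v) {z : ℂ} (hz : z ∉ pvxW V adj seed σ ∪ pvxB V adj seed σ → σ' z = σ z) :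
    pvxPaint V adj seed σ' z = pvxPaint V adj seed σ z := by
  unfold pvxPaint
  rw [pvxl_stop_W hag, pvxl_stop_B hag]
  by_cases h : z ∈ pvxW V adj seed σ ∪ pvxB V adj seed σ
  · rw [if_pos h, if_pos h]
  · rw [if_neg h, if_neg h, hz h]

theorem pvxl_paint_in {z : ℂ} (h : z ∈ pvxW V adj seed σ ∪ pvxB V adj seed σ) : pvxPaint V adj seed σ z = true := by
  unfold pvxPaint
  rw [if_pos h]

theorem pvxl_paint_out {z : ℂ} (h : z ∉ pvxW V adj seed σ ∪ pvxB V adj seed σ) : pvxPaint V adj seed σ z = σ z := by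
  unfold pvxPaint
  rw [if_neg h]

/-- painting adds black sites only -/
theorem pvxl_le_paint {z : ℂ} (h : σ z = true) : pvxPaint V adj seed σ z = true := by
  by_cases hz : z ∈ pvxW V adj seed σ ∪ pvxB V adj seed σ
  · exact pvxl_paint_in hz
  · rw [pvxl_paint_out hz, h]

/-- the white sites of the painted colouring are the UNEXPLORED white sites -/
theorem pvxl_paint_white {z : ℂ} : pvxPaint V adj seed σ z = false ↔ σ z = false ∧ z ∉ pvxW V adj seed σ := by
  constructor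
  · intro h
    by_cases hz : z ∈ pvxW V adj seed σ ∪ pvxB V adj seed σ
    · rw [pvxl_paint_in hz] at h
      exact absurd h (by simp)
    · rw [pvxl_paint_out hz] at h
      exact ⟨h, fun hw => hz (Or.inl hw)⟩
  · rintro ⟨h1, h2⟩
    have hz : z ∉ pvxW V adj seed σ ∪ pvxB V adj seed σ := by
      rintro (h | h)
      · exact h2 h
      · rw [h.2.1] at h1
        exact absurd h1 (by simp)
    rw [pvxl_paint_out hz, h1]

end stop

/-! ## 2. the index form of the exploration -/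

theorem pvxl_free_sub (F : PvxFr) (Y : Set ℂ) : F.free Y ⊆ Y := fun _ hv => hv.1

theorem pvxl_WB_sub_free (F : PvxFr) (Y : Set ℂ) (σ : ℂ → Bool) : F.W Y σ ∪ F.B Y σ ⊆ F.free Y := by
  rintro v (hv | hv)
  · exact (pvxl_W_sub hv).1
  · exact hv.1

open Classical in
/-- **(K2)** the indices of the explored sites (junk `∅` if there are infinitely many free sites) -/
noncomputable def pvxlS (g : PvGeoT) (F : PvxFr) (c : PvColT) : Finset PvIx :=
  if h : (F.free (pvgSites g)).Finite then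
    (h.toFinset.filter fun v => v ∈ F.W (pvgSites g) (pvgColAt g c) ∪ F.B (pvgSites g) (pvgColAt g c)).image (pvgIdx g)
  else ∅

theorem pvxl_eqns_cite : True := by
  have := @pvxlS.eq_1
  trivial

theorem pvxl_mem_S {g : PvGeoT} {F : PvxFr} (hfin : (F.free (pvgSites g)).Finite) (c : PvColT) {i : PvIx} :
    i ∈ pvxlS g F c ↔ ∃ v ∈ F.W (pvgSites g) (pvgColAt g c) ∪ F.B (pvgSites g) (pvgColAt g c), pvgIdx g v = i := by
  classical
  unfold pvxlS
  rw [dif_pos hfin]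
  simp only [Finset.mem_image, Finset.mem_filter, Set.Finite.mem_toFinset]
  constructor
  · rintro ⟨v, ⟨-, hv⟩, rfl⟩
    exact ⟨v, hv, rfl⟩
  · rintro ⟨v, hv, rfl⟩
    exact ⟨v, ⟨pvxl_WB_sub_free F _ _ hv, hv⟩, rfl⟩

/-- a SITE is explored iff its index is -/
theorem pvxl_idx_mem_S {g : PvGeoT} {F : PvxFr} (hfin : (F.free (pvgSites g)).Finite) (c : PvColT) {v : ℂ} (hv : v ∈ pvgSites g) :
    pvgIdx g v ∈ pvxlS g F c ↔ v ∈ F.W (pvgSites g) (pvgColAt g c) ∪ F.B (pvgSites g) (pvgColAt g c) := by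
  rw [pvxl_mem_S hfin]
  constructor
  · rintro ⟨u, hu, e⟩
    have := pvqu_idx_injOn g (pvxl_free_sub F _ (pvxl_WB_sub_free F _ _ hu)) hv e
    rwa [← this]
  · exact fun h => ⟨v, h, rfl⟩

/-- agreement on the explored indices = agreement on the explored sites -/
theorem pvxl_agree {g : PvGeoT} {F : PvxFr} (hfin : (F.free (pvgSites g)).Finite) {c c' : PvColT} (h : ∀ i ∈ pvxlS g F c, c' i = c i) :
    ∀ v ∈ F.W (pvgSites g) (pvgColAt g c) ∪ F.B (pvgSites g) (pvgColAt g c), pvgColAt g c' v = pvgColAt g c v :=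
  fun v hv => h _ ((pvxl_mem_S hfin c).2 ⟨v, hv, rfl⟩)

/-- **(K3)** every function of the explored SETS is explored-measurable -/
theorem pvxl_meas {g : PvGeoT} {F : PvxFr} (hfin : (F.free (pvgSites g)).Finite) {β : Type} (Φ : Set ℂ → Set ℂ → β) :
    PvaMeas (pvxlS g F) fun c => Φ (F.W (pvgSites g) (pvgColAt g c)) (F.B (pvgSites g) (pvgColAt g c)) := by
  intro c c' h
  have hag := pvxl_agree hfin h
  show Φ (F.W _ _) (F.B _ _) = Φ (F.W _ _) (F.B _ _)
  rw [show F.W (pvgSites g) (pvgColAt g c') = F.W (pvgSites g) (pvgColAt g c) from pvxl_stop_W hag,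
    show F.B (pvgSites g) (pvgColAt g c') = F.B (pvgSites g) (pvgColAt g c) from pvxl_stop_B hag]

/-- **(K2)** the explored indices form a stopping set (no hypothesis) -/
theorem pvxl_stop (g : PvGeoT) (F : PvxFr) : PvaStop (pvxlS g F) := by
  classical
  by_cases hfin : (F.free (pvgSites g)).Finite
  · intro c c' h
    have hag := pvxl_agree hfin h
    ext i
    rw [pvxl_mem_S hfin, pvxl_mem_S hfin,
      show F.W (pvgSites g) (pvgColAt g c') = F.W (pvgSites g) (pvgColAt g c) from pvxl_stop_W hag,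
      show F.B (pvgSites g) (pvgColAt g c') = F.B (pvgSites g) (pvgColAt g c) from pvxl_stop_B hag]
  · intro c c' _
    unfold pvxlS
    rw [dif_neg hfin, dif_neg hfin]

/-! ## 3. painting -/

/-- **(K4)** painting the explored indices = painting the explored sites -/
theorem pvxl_paint {g : PvGeoT} {F : PvxFr} (hfin : (F.free (pvgSites g)).Finite) (c : PvColT) {v : ℂ} (hv : v ∈ pvgSites g) :
    pvgColAt g (pvxpPaint (pvxlS g F c) c) v = F.paint (pvgSites g) (pvgColAt g c) v := by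
  show pvxpPaint (pvxlS g F c) c (pvgIdx g v) = pvxPaint _ _ _ _ v
  by_cases h : v ∈ F.W (pvgSites g) (pvgColAt g c) ∪ F.B (pvgSites g) (pvgColAt g c)
  · rw [pvxp_paint_in ((pvxl_idx_mem_S hfin c hv).2 h), pvxl_paint_in h]
  · rw [pvxp_paint_out (fun h' => h ((pvxl_idx_mem_S hfin c hv).1 h')), pvxl_paint_out h]
    rfl

theorem pvxl_cfOf_congr {Y : Set ℂ} {σ σ' : ℂ → Bool} (h : ∀ v ∈ Y, σ v = σ' v) : cfOf Y σ = cfOf Y σ' := by
  ext p
  simp only [cfOf, mem_ofPred_eq]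
  constructor
  · rintro ⟨h1, h2⟩
    exact ⟨h1, by rw [h2, h _ h1]⟩
  · rintro ⟨h1, h2⟩
    exact ⟨h1, by rw [h2, h _ h1]⟩

/-- the configuration of the painted sample -/
theorem pvxl_conf_paint {g : PvGeoT} (hg : PvgOk g) {F : PvxFr} (hfin : (F.free (pvgSites g)).Finite) (c : PvColT) :
    pvConf (pvMerge (g, pvxpPaint (pvxlS g F c) c)) = cfOf (pvgSites g) (F.paint (pvgSites g) (pvgColAt g c)) := by
  rw [hg.conf_eq]
  exact pvxl_cfOf_congr fun v hv => pvxl_paint hfin c hv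

/-- the white sites of the painted colours are the unexplored white sites -/
theorem pvxl_paint_H {g : PvGeoT} {F : PvxFr} (hfin : (F.free (pvgSites g)).Finite) (c : PvColT) :
    pvxH (pvgSites g) (pvgColAt g (pvxpPaint (pvxlS g F c) c)) = pvxH (pvgSites g) (pvgColAt g c) \ F.W (pvgSites g) (pvgColAt g c) := by
  ext v
  constructor
  · rintro ⟨hv, h⟩
    rw [pvxl_paint hfin c hv] at h
    have := pvxl_paint_white.1 h
    exact ⟨⟨hv, this.1⟩, this.2⟩
  · rintro ⟨⟨hv, h1⟩, h2⟩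
    refine ⟨hv, ?_⟩
    rw [pvxl_paint hfin c hv]
    exact pvxl_paint_white.2 ⟨h1, h2⟩

/-- the black sites of the painted colours are the black sites and the explored white sites -/
theorem pvxl_paint_K {g : PvGeoT} {F : PvxFr} (hfin : (F.free (pvgSites g)).Finite) (c : PvColT) :
    pvxK (pvgSites g) (pvgColAt g (pvxpPaint (pvxlS g F c) c)) = pvxK (pvgSites g) (pvgColAt g c) ∪ F.W (pvgSites g) (pvgColAt g c) := by
  ext v
  constructor
  · rintro ⟨hv, h⟩
    by_contra hcon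
    rw [mem_union, not_or] at hcon
    have h1 : pvgColAt g c v = false := by
      cases e : pvgColAt g c v
      · rfl
      · exact absurd ⟨hv, e⟩ hcon.1
    have h2 : v ∈ pvxH (pvgSites g) (pvgColAt g (pvxpPaint (pvxlS g F c) c)) := by
      rw [pvxl_paint_H hfin]
      exact ⟨⟨hv, h1⟩, hcon.2⟩
    rw [h2.2] at h
    exact Bool.false_ne_true h
  · rintro (⟨hv, h⟩ | h)
    · refine ⟨hv, ?_⟩
      rw [pvxl_paint hfin c hv]
      exact pvxl_le_paint h
    · have hv : v ∈ pvgSites g := pvxl_free_sub F _ (pvxl_WB_sub_free F _ _ (Or.inl h))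
      refine ⟨hv, ?_⟩
      rw [pvxl_paint hfin c hv]
      exact pvxl_paint_in (Or.inl h)

/-- every finite set with the right members is `pvxlS` (bridge to other definitions of the explored indices) -/
theorem pvxl_S_unique {g : PvGeoT} {F : PvxFr} (hfin : (F.free (pvgSites g)).Finite) (c : PvColT) {S' : Finset PvIx}
    (h : ∀ i, i ∈ S' ↔ i ∈ pvgIdx g '' (F.W (pvgSites g) (pvgColAt g c) ∪ F.B (pvgSites g) (pvgColAt g c))) : S' = pvxlS g F c := by
  ext i
  rw [h, pvxl_mem_S hfin]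
  rfl

theorem pvxl_image_finite {g : PvGeoT} {F : PvxFr} (hfin : (F.free (pvgSites g)).Finite) (c : PvColT) :
    (pvgIdx g '' (F.W (pvgSites g) (pvgColAt g c) ∪ F.B (pvgSites g) (pvgColAt g c))).Finite :=
  (hfin.subset (pvxl_WB_sub_free F _ _)).image _

/-! ## 4. the dictionary of the events -/

theorem pvxl_bk_cfOf (Y : Set ℂ) (σ : ℂ → Bool) : delsBk (cfOf Y σ) = pvxK Y σ := by
  ext v
  exact ⟨fun h => ⟨h.1, h.2.symm⟩, fun h => ⟨h.1, h.2.symm⟩⟩

theorem pvxl_wh_cfOf (Y : Set ℂ) (σ : ℂ → Bool) : delsWh (cfOf Y σ) = pvxH Y σ := by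
  ext v
  exact ⟨fun h => ⟨h.1, h.2.symm⟩, fun h => ⟨h.1, h.2.symm⟩⟩

theorem pvxl_bk {g : PvGeoT} (hg : PvgOk g) (c : PvColT) : delsBk (pvConf (pvMerge (g, c))) = pvxK (pvgSites g) (pvgColAt g c) := by
  rw [hg.conf_eq, pvxl_bk_cfOf]

theorem pvxl_wh {g : PvGeoT} (hg : PvgOk g) (c : PvColT) : delsWh (pvConf (pvMerge (g, c))) = pvxH (pvgSites g) (pvgColAt g c) := by
  rw [hg.conf_eq, pvxl_wh_cfOf]

theorem pvxl_cell_cfOf (Y : Set ℂ) (σ : ℂ → Bool) (a : ℂ) : cfCell (cfOf Y σ) a = vorCell Y a := by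
  rw [cfCell_eq_vor, cfOf_sites]

/-- **(K5)** the vertex crossing in site form -/
theorem pvxl_vc_cfOf (Y : Set ℂ) (σ : ℂ → Bool) (W A B : Set ℂ) : PvVC (cfOf Y σ) W A B ↔ PvxVC Y (pvxK Y σ ∩ W) A B := by
  have hbk : ∀ v, PvBk (cfOf Y σ) W v ↔ v ∈ pvxK Y σ ∩ W := fun v =>
    ⟨fun h => ⟨⟨h.1.1, h.1.2.symm⟩, h.2⟩, fun h => ⟨⟨h.1.1, h.1.2.symm⟩, h.2⟩⟩
  have hrel : (fun a b => PvBk (cfOf Y σ) W b ∧ (cfCell (cfOf Y σ) a ∩ cfCell (cfOf Y σ) b).Nonempty) = fun a b => b ∈ pvxK Y σ ∩ W ∧ pvxAdj Y a b := by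
    funext a b
    rw [pvxl_cell_cfOf, pvxl_cell_cfOf]
    exact propext (and_congr (hbk b) Iff.rfl)
  unfold PvVC PvxVC
  rw [hrel]
  simp only [hbk]

theorem pvxl_vc {g : PvGeoT} (hg : PvgOk g) (c : PvColT) (W A B : Set ℂ) :
    PvVC (pvConf (pvMerge (g, c))) W A B ↔ PvxVC (pvgSites g) (pvxK (pvgSites g) (pvgColAt g c) ∩ W) A B := by
  rw [hg.conf_eq, pvxl_vc_cfOf]

/-! ## 5. finiteness of the free sites -/

theorem pvxl_free_finite {F : PvxFr} {Y : Set ℂ} (lf : VorLF Y) (hb : Bornology.IsBounded F.D2) : (F.free Y).Finite := by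
  obtain ⟨R, hR⟩ := hb.subset_closedBall (0 : ℂ)
  exact (lf R).subset fun v hv => ⟨hv.1, hR (hv.2.1 (vor_self_mem Y v))⟩

end Claimed.Agent.R289
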