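-- KEEP CAPOK
import Claimed.Agent.R289.Ext.Defs
import Claimed.Agent.R289.Ext.Geo
import Claimed.Agent.R289.Ext.Corner
import Claimed.Agent.R289.Ext.Bank
import Claimed.Agent.R289.Ext.Hex
import Claimed.Agent.R289.Ext.Top
import Claimed.Agent.R289.Ext.Tgt
import Claimed.Agent.R289.Ext.Gamma
import Claimed.Agent.R289.Ext.Prob
import Claimed.Agent.R289.Ext.Qarm
import Claimed.Agent.R289.Exit.Qbx
import Claimed.Agent.R289.Ext.Core
import Claimed.Agent.R289.Ext.ArmBr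
import Claimed.Agent.R289.Rsw.Exports
import Claimed.Agent.R289.Ext.Plan
import Claimed.Agent.R289.Ext.Geo
import Claimed.Agent.R289.Ext.Gamma

/-!
# Row 289 (S0537), unit EXT, file Ext/Cut : THE CUT OF `PvxpGeo`      (owner helper74, head of EXT; prefix `pvx`)

TOP OF EXT: `pvxp_ext (hN : PvNice) (hG : PvxpGeo) : PvLower` (256, `Ext/Prob.lean`, 0 sorry).      THIS FILE: `pvx_main : PvxpGeo` = COMPILED GLUE over the typed leaves below.
Every `sorry` of this file is a LEAF with a named owner.      RULE: the owner proves his leaf in HIS OWN file `R289/Ext/<Name>.lean` (importing `Ext/Defs`, never this file), lands it, then replaces the `sorry` HERE by one `exact`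
(adding the import).      Statements are changed only by helper74 (one line to him).

CLOSED INPUTS: `pvx_tie` (C2, 255, in `Ext/Defs`), `pvx_W_congr`, `pvx_B_congr` (STOP, 255), `pvxh_hex` (285), `pvxt_topg*`, `pvxt_bump*` (257), `Ext/Cells` (255), `pvxm_chain` (4), `pvxg_tgt_fat` (49), `PvxpPlan.of_sample`, `pvxp_ext` (256), `PvxqFrame`, `pvxq_frame`, `pvxq_loc`, `pvxq_holds_mono` (262), `exit_pv_qbx` (QBX).
LEAVES
* `pvx_geo`     GEO     (270, 61, 10)      the frame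
* `pvx_bank`    BANK    (290, 93)          on the vertex crossing of the subdomain the explored black set contains a bank
* `pvx_gamma`   C1      (204, 285)         the path `Γ` = slit + strict polygon of the bank + slit
* `pvx_small`   C3      (49)               thick cells of finitely many sites stay off a closed set which misses the cells
* `pvx_det`    C4      (74, 4)            ASSEMBLY: no strict crossing of `D` + bank off the corners ⟹ an arm of UNEXPLORED white sites at one end of the bank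
* `pvx_ok`      MESH    (288)              `PvxqFrame ⟹ PvxOk`
* `pvx_stop`, `pvx_paint_eq`  PLAN (179, 256)      the exploration in index form
* `pvx_arm_holds`  ARM BRIDGE (54, 298)
* `pvx_corner`, `pvx_corner_prob`  CORNER (27)
-/

set_option autoImplicit false

namespace Claimed.Agent.R289

open Set Metric Filter Topology MeasureTheory
open Claims.C0465
open scoped ENNReal

variable {D : Set ℂ} {d : ℂ} {ψ : ℂ → ℂ} {x : ℝ}

/-! ## 1. the frame -/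

/-- **GEO** (owner 270 + 61 + 10). -/
theorem pvx_geo (h : PvChart D d ψ) (hx0 : 0 < x) (hx1 : x < 1) {η : ℝ} (hη : 0 < η) :
    ∃ (x' ρ0 : ℝ) (z1 z2 : ℂ), 0 < x' ∧ x' < 1 ∧ cardyF x - η ≤ cardyF x' ∧ 0 < ρ0 ∧
      ∀ τ : ℝ, 0 < τ → τ ≤ ρ0 → ∃ (D' : Set ℂ) (d' : ℂ) (ψ' : ℂ → ℂ) (ρ μ0 : ℝ) (F : PvxFr), PvAn D' d' ψ' ∧ 0 < ρ ∧ 0 < μ0 ∧
        ∀ μ : ℝ, 0 < μ → μ ≤ μ0 →
          PvxGeo D d ψ x F (thickening ρ D') (thickening ρ (pvArcL D' d' ψ' x')) (thickening ρ (pvArcR D' d' ψ')) z1 z2 τ ρ0 μ :=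
  pvxz_geo h hx0 hx1 hη

/-! ## 2. the deterministic core -/

section det

variable {F : PvxFr} {W' AL' AR' : Set ℂ} {z1 z2 : ℂ} {τ ρ0 μ : ℝ} {Y : Set ℂ}

/-- **BANK** (owner 290 + 93). -/
theorem pvx_bank (h : PvChart D d ψ) (hx0 : 0 < x) (hx1 : x < 1) (G : PvxGeo D d ψ x F W' AL' AR' z1 z2 τ ρ0 μ) (hY : PvxOk Y (closure D) μ) (σ : ℂ → Bool)
    (hvc : PvxVC Y (pvxK Y σ ∩ W') AL' AR') : ∃ eL eR, PvxBank F Y (F.B Y σ) eL eR :=
  pvxb_main h hx0 hx1 G hY σ hvc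

/-- **C1 = GAMMA** (owner 204 + 285).      `eL → m ∈ vorSide Y eL u → y ∈ vorCell Y u ∩ ZL → slit`, `(m, y) ⊆ vorOpen Y u`; polygon of the bank = `pvxk_polygon` with `S := F.B Y σ`; the corner hypotheses keep the two ends off `ZB`. -/
theorem pvx_gamma (h : PvChart D d ψ) (G : PvxGeo D d ψ x F W' AL' AR' z1 z2 τ ρ0 μ) (hY : PvxOk Y (closure D) μ) (σ : ℂ → Bool)
    {eL eR : ℂ} (hb : PvxBank F Y (F.B Y σ) eL eR) (hcL : 3 * τ + 3 * μ < dist eL z1) (hcR : 3 * τ + 3 * μ < dist eR z2) :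
    ∃ (γ : ℝ → ℂ) (P : Set ℂ), ContinuousOn γ (Icc 0 1) ∧ (∀ t ∈ Icc (0 : ℝ) 1, γ t ∈ closure D) ∧ γ 0 ∈ pvArcL D d ψ x ∧ γ 1 ∈ pvArcR D d ψ ∧
      IsCompact P ∧ P ⊆ vorStrict Y (F.B Y σ) ∧
      (∀ t ∈ Icc (0 : ℝ) 1, γ t ∈ closedBall eL (τ + 3 * μ) ∪ closedBall eR (τ + 3 * μ) ∨ γ t ∈ P) ∧
      (∀ t ∈ Icc (0 : ℝ) 1, γ t ∉ F.ZB) ∧ (∀ t ∈ Icc (0 : ℝ) 1, ∀ v ∈ F.W Y σ ∪ F.nb Y, γ t ∉ vorCell Y v) :=
  pvxy_cut G hY σ hb hcL hcR

/-- one cell (287) -/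
theorem pvx_small_one {Y K : Set ℂ} {μ : ℝ} (hY : PvxOk Y K μ) (hμ : μ < 1 / 8) {v : ℂ} (hv : v ∈ Y) (hvK : (vorCell Y v ∩ K).Nonempty) {Q : Set ℂ} (hQ : IsClosed Q)
    (hdis : Disjoint (vorCell Y v) Q) : ∃ t0 : ℝ, 0 < t0 ∧ Disjoint (vorThick Y t0 v) Q := by
  by_contra hcon
  have hcon' : ∀ t : ℝ, 0 < t → ∃ z, z ∈ vorThick Y t v ∧ z ∈ Q := by
    intro t ht
    by_contra h
    exact hcon ⟨t, ht, Set.disjoint_left.2 fun z h1 h2 => h ⟨z, h1, h2⟩⟩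
  obtain ⟨p, hp1, hp2⟩ := hvK
  have hpv : p ∈ closedBall v μ := hY.mesh v hv ⟨p, hp1, hp2⟩ hp1
  have hd : VorDense Y (closedBall v (1 / 2)) μ := by
    intro z hz
    refine hY.dense z ?_
    refine mem_cthickening_of_dist_le z p 1 K hp2 ?_
    have h1 : dist z v ≤ 1 / 2 := hz
    have h2 : dist p v ≤ μ := hpv
    calc dist z p ≤ dist z v + dist v p := dist_triangle _ _ _
      _ ≤ 1 / 2 + μ := by rw [dist_comm v p]; linarith
      _ ≤ 1 := by linarith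
  have hpos : ∀ n : ℕ, (0 : ℝ) < 1 / ((n : ℝ) + 8) := fun n => by positivity
  choose z hz1 hz2 using fun n : ℕ => hcon' (1 / ((n : ℝ) + 8)) (hpos n)
  have hle : ∀ n : ℕ, 1 / ((n : ℝ) + 8) ≤ 1 / 8 := fun n => by
    apply one_div_le_one_div_of_le (by norm_num)
    have : (0 : ℝ) ≤ n := Nat.cast_nonneg n
    linarith
  have hball : ∀ n, z n ∈ closedBall v (1 / 2) := by
    intro n
    have h1 := pvxk_thick_subset_ball (Y := Y) (w := v) (t := 1 / ((n : ℝ) + 8)) (μ := μ) (R := 1 / 2) (by norm_num) (by linarith [hle n]) hd (hz1 n)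
    refine closedBall_subset_closedBall ?_ h1
    linarith [hle n]
  obtain ⟨a, -, φ, hφ, hlim⟩ := (isCompact_closedBall v (1 / 2)).tendsto_subseq hball
  have haQ : a ∈ Q := hQ.mem_of_tendsto hlim (Eventually.of_forall fun n => hz2 _)
  have haC : a ∈ vorCell Y v := by
    rw [← pvxk_thick_iInter]
    simp only [mem_iInter]
    intro t ht
    refine (pvxk_thick_closed Y t v).mem_of_tendsto hlim ?_
    have h0 : Tendsto (fun n : ℕ => 1 / ((n : ℝ) + 8)) atTop (𝓝 0) := by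
      have h1 : Tendsto (fun n : ℕ => (n : ℝ) + 8) atTop atTop := tendsto_atTop_add_const_right _ _ tendsto_natCast_atTop_atTop
      simp only [one_div]
      exact h1.inv_tendsto_atTop
    have h1 := (h0.comp hφ.tendsto_atTop).eventually (gt_mem_nhds ht)
    filter_upwards [h1] with n hn
    exact pvxk_thick_mono Y v (le_of_lt hn) (hz1 (φ n))
  exact Set.disjoint_left.1 hdis haC haQ

/-- **C3 = SMALL** (owner 49).      `⋂_{t>0} vorThick Y t v ∩ Q = vorCell Y v ∩ Q = ∅`, nested compact sets (`pvxk_thick_subset_ball`). -/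
theorem pvx_small {K : Set ℂ} (hY : PvxOk Y K μ) (hμ : μ < 1 / 8) {V : Set ℂ} (hVf : V.Finite) (hV : ∀ v ∈ V, v ∈ Y ∧ (vorCell Y v ∩ K).Nonempty) {Q : Set ℂ} (hQ : IsClosed Q)
    (hdis : ∀ v ∈ V, Disjoint (vorCell Y v) Q) : ∃ t0 : ℝ, 0 < t0 ∧ ∀ t ≤ t0, ∀ v ∈ V, Disjoint (vorThick Y t v) Q := by
  induction V, hVf using Set.Finite.induction_on with
  | empty => exact ⟨1, one_pos, fun _ _ v hv => absurd hv (Set.notMem_empty v)⟩
  | @insert a S _ _ ih =>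
    obtain ⟨t1, h1, H1⟩ := ih (fun v hv => hV v (Set.mem_insert_of_mem _ hv)) (fun v hv => hdis v (Set.mem_insert_of_mem _ hv))
    obtain ⟨t2, h2, H2⟩ := pvx_small_one hY hμ (hV a (Set.mem_insert _ _)).1 (hV a (Set.mem_insert _ _)).2 hQ (hdis a (Set.mem_insert _ _))
    refine ⟨min t1 t2, lt_min h1 h2, fun t ht v hv => ?_⟩
    rcases Set.mem_insert_iff.1 hv with rfl | hv
    · exact H2.mono_left (pvxk_thick_mono Y v (ht.trans (min_le_right _ _)))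
    · exact H1 t (ht.trans (min_le_left _ _)) v hv

/-- **C4 = CORE** (owner 74 + 4): instance of `pvxm_chain`. -/
theorem pvx_det (h : PvChart D d ψ) (hx0 : 0 < x) (hx1 : x < 1) (G : PvxGeo D d ψ x F W' AL' AR' z1 z2 τ ρ0 μ) (hY : PvxOk Y (closure D) μ) (σ : ℂ → Bool)
    {eL eR : ℂ} (hb : PvxBank F Y (F.B Y σ) eL eR) (hcL : 3 * τ + 3 * μ < dist eL z1) (hcR : 3 * τ + 3 * μ < dist eR z2)
    (hno : ∀ t : ℝ, 0 < t → ¬ ∃ S : Set ℂ, IsPreconnected S ∧ S ⊆ pvxkFat (pvxK Y σ) (pvxH Y σ) (-t) ∩ closure D ∧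
      (S ∩ pvArcL D d ψ x).Nonempty ∧ (S ∩ pvArcR D d ψ).Nonempty) :
    PvxArm Y (pvxH Y σ \ F.W Y σ) eL (τ + 5 * μ) (ρ0 - 5 * μ) ∨ PvxArm Y (pvxH Y σ \ F.W Y σ) eR (τ + 5 * μ) (ρ0 - 5 * μ) :=
  pvxn_det h hx0 hx1 G hY σ hb (pvx_gamma h G hY σ hb hcL hcR) hno

end det

/-! ## 3. from the colours `c : PvColT` to the colourings of the site set -/

open Classical in
/-- the explored set in index form -/
noncomputable def pvxS (g : PvGeoT) (F : PvxFr) (c : PvColT) : Finset PvIx :=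
  if h : (pvgIdx g '' (F.W (pvgSites g) (pvgColAt g c) ∪ F.B (pvgSites g) (pvgColAt g c))).Finite then h.toFinset else ∅

open Classical in
/-- the chosen bank: a function of the SET of the explored black sites -/
noncomputable def pvxSel (F : PvxFr) (Y Bs : Set ℂ) : ℂ × ℂ := if h : ∃ p : ℂ × ℂ, PvxBank F Y Bs p.1 p.2 then h.choose else (0, 0)

/-- the corner event: a black vertex chain from the box of radius `t` round a corner to the outside of the box of radius `r` -/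
def pvxX (z1 z2 : ℂ) (t r : ℝ) : Set PVSample :=
  {ω | PvVC (pvConf ω) univ (rswRect (z1.re - t) (z1.re + t) (z1.im - t) (z1.im + t)) {b | ¬ (z1.re - r < b.re ∧ b.re < z1.re + r ∧ z1.im - r < b.im ∧ b.im < z1.im + r)} ∨
    PvVC (pvConf ω) univ (rswRect (z2.re - t) (z2.re + t) (z2.im - t) (z2.im + t)) {b | ¬ (z2.re - r < b.re ∧ b.re < z2.re + r ∧ z2.im - r < b.im ∧ b.im < z2.im + r)}}

theorem pvx_cut_eqns_cite : True := by
  have := @pvxS.eq_1; have := @pvxSel.eq_1; have := @pvxX.eq_1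
  trivial

theorem pvx_sel_spec {F : PvxFr} {Y Bs : Set ℂ} (h : ∃ eL eR, PvxBank F Y Bs eL eR) : PvxBank F Y Bs (pvxSel F Y Bs).1 (pvxSel F Y Bs).2 := by
  classical
  obtain ⟨eL, eR, hb⟩ := h
  have h' : ∃ p : ℂ × ℂ, PvxBank F Y Bs p.1 p.2 := ⟨(eL, eR), hb⟩
  unfold pvxSel
  rw [dif_pos h']
  exact h'.choose_spec

/-- **MESH** (owner 288) -/
theorem pvx_ok {q μ : ℝ} {K : Set ℂ} {Z : Finset ℂ} {U : Finset ℝ} {g : PvGeoT} (Fr : PvxqFrame q μ K Z U g) {K0 : Set ℂ} (hne : K0.Nonempty) (hK : cthickening 1 K0 ⊆ K)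
    (hμ0 : 0 < μ) (hμ : μ < 1 / 8) : PvxOk (pvgSites g) K0 μ := by
  have hd := Fr.dense
  obtain ⟨z0, hz0⟩ := hne
  have hne' : (pvgSites g).Nonempty := by
    obtain ⟨u, hu, -⟩ := hd z0 (hK (self_subset_cthickening _ hz0))
    exact ⟨u, hu⟩
  refine ⟨Fr.ok.lf, Fr.ok.gp, vor_cover Fr.ok.lf hne', ?_, fun z hz => hd z (hK hz)⟩
  rintro v hv ⟨z, hzv, hzK⟩
  obtain ⟨u, hu, hzu⟩ := hd z (hK (self_subset_cthickening _ hzK))
  have hzv' : ‖z - v‖ ≤ μ := (hzv u hu).trans hzu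
  refine vor_cell_subset_ball hμ0.le (by linarith : μ < 2 * μ) fun w hw => hd w (hK ?_)
  refine mem_cthickening_of_dist_le w z 1 _ hzK ?_
  rw [mem_closedBall] at hw
  have := dist_triangle w v z
  rw [dist_eq_norm v z, norm_sub_rev] at this
  linarith

/-- **PLAN 1** (owner 179 + 256): the exploration is a stopping set, the explored black SET is explored-measurable -/
theorem pvx_stop {g : PvGeoT} (hg : PvgOk g) (F : PvxFr) (hfin : (F.free (pvgSites g)).Finite) :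
    PvaStop (pvxS g F) ∧ PvaMeas (pvxS g F) (fun c => F.B (pvgSites g) (pvgColAt g c)) := by
  have e : pvxS g F = pvxlS g F := funext fun c => pvxl_S_unique hfin c fun i => by
    unfold pvxS
    rw [dif_pos (pvxl_image_finite hfin c), Set.Finite.mem_toFinset]
  rw [e]
  exact ⟨pvxl_stop g F, pvxl_meas hfin fun _ B => B⟩

/-- **PLAN 2** (owner 179 + 256): the white sites of the painted colours are the unexplored white sites -/
theorem pvx_paint_eq {g : PvGeoT} (hg : PvgOk g) (F : PvxFr) (hfin : (F.free (pvgSites g)).Finite) (c : PvColT) :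
    pvxH (pvgSites g) (pvgColAt g (pvxpPaint (pvxS g F c) c)) = pvxH (pvgSites g) (pvgColAt g c) \ F.W (pvgSites g) (pvgColAt g c) := by
  have e : pvxS g F c = pvxlS g F c := pvxl_S_unique hfin c fun i => by
    unfold pvxS
    rw [dif_pos (pvxl_image_finite hfin c), Set.Finite.mem_toFinset]
  rw [e]
  exact pvxl_paint_H hfin c

/-- **PLAN 3** (owner 179 + 256): dictionary sample / colouring of the site set -/
theorem pvx_dict {g : PvGeoT} (hg : PvgOk g) (c : PvColT) :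
    delsBk (pvConf (pvMerge (g, c))) = pvxK (pvgSites g) (pvgColAt g c) ∧ delsWh (pvConf (pvMerge (g, c))) = pvxH (pvgSites g) (pvgColAt g c) ∧
      ∀ W A B : Set ℂ, PvVC (pvConf (pvMerge (g, c))) W A B ↔ PvxVC (pvgSites g) (pvxK (pvgSites g) (pvgColAt g c) ∩ W) A B := by
  rw [hg.conf_eq c]
  obtain ⟨Y, hY⟩ : ∃ Y, Y = pvgSites g := ⟨_, rfl⟩
  obtain ⟨σ, hσ⟩ : ∃ σ, σ = pvgColAt g c := ⟨_, rfl⟩
  rw [← hY, ← hσ]
  have hB : ∀ v, (v, true) ∈ (cfOf Y σ).pts ↔ v ∈ pvxK Y σ := fun v => by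
    rw [cfOf_mem]; exact ⟨fun h => ⟨h.1, h.2.symm⟩, fun h => ⟨h.1, h.2.symm⟩⟩
  have hW : ∀ v, (v, false) ∈ (cfOf Y σ).pts ↔ v ∈ pvxH Y σ := fun v => by
    rw [cfOf_mem]; exact ⟨fun h => ⟨h.1, h.2.symm⟩, fun h => ⟨h.1, h.2.symm⟩⟩
  refine ⟨Set.ext hB, Set.ext hW, fun W A B => ?_⟩
  have hbk : ∀ v, PvBk (cfOf Y σ) W v ↔ v ∈ pvxK Y σ ∩ W := fun v => by
    unfold PvBk; rw [hB]; rfl
  have hrel : (fun a b => PvBk (cfOf Y σ) W b ∧ (cfCell (cfOf Y σ) a ∩ cfCell (cfOf Y σ) b).Nonempty)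
      = fun a b => b ∈ pvxK Y σ ∩ W ∧ pvxAdj Y a b := by
    funext a b
    rw [cfCell_eq_vor, cfCell_eq_vor, cfOf_sites]
    exact propext (and_congr (hbk b) Iff.rfl)
  unfold PvVC PvxVC
  rw [hrel]
  simp only [hbk]

theorem pvx_self_mem_cell (Y : Set ℂ) (v : ℂ) : v ∈ vorCell Y v := by
  intro u _
  rw [sub_self, norm_zero]
  exact norm_nonneg _

theorem pvx_free_mem_D {F : PvxFr} {W' AL' AR' : Set ℂ} {z1 z2 : ℂ} {τ ρ0 μ : ℝ} {Y : Set ℂ} (G : PvxGeo D d ψ x F W' AL' AR' z1 z2 τ ρ0 μ)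
    {v : ℂ} (hv : v ∈ F.free Y) : v ∈ D :=
  G.D2_in v (hv.2.1 (pvx_self_mem_cell Y v)) (mem_closedBall_self (by linarith [G.mu_pos]))

/-- free sites are finitely many (owner 288) -/
theorem pvx_free_finite {F : PvxFr} {W' AL' AR' : Set ℂ} {z1 z2 : ℂ} {τ ρ0 μ : ℝ} {Y : Set ℂ} (h : PvChart D d ψ) (G : PvxGeo D d ψ x F W' AL' AR' z1 z2 τ ρ0 μ)
    (hY : PvxOk Y (closure D) μ) : (F.free Y).Finite := by
  obtain ⟨R, hR⟩ := h.bdd.subset_closedBall (0 : ℂ)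
  exact (hY.lf R).subset fun v hv => ⟨hv.1, hR (pvx_free_mem_D G hv)⟩

/-- **ARM BRIDGE** (owner 54 + 298) -/
theorem pvx_arm_holds {g : PvGeoT} (hg : PvgOk g) (c : PvColT) {e z : ℂ} {r R u : ℝ} (hu : 0 < u)
    (ha : PvxArm (pvgSites g) (pvxH (pvgSites g) (pvgColAt g c)) e r R) (h1 : ‖z - e‖ + r ≤ u / 2) (h2 : 5 * u ≤ R - ‖z - e‖) :
    (pvxqAn z u).Holds (cfReg (pvConf (pvMerge (g, c))) false) :=
  pvxr_arm hg Subset.rfl ha h1 h2

/-- **CORNER, deterministic** (owner 27): off the corner event the ends of a bank are away from the corners -/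
theorem pvx_corner {F : PvxFr} {W' AL' AR' : Set ℂ} {z1 z2 : ℂ} {τ ρ0 μ : ℝ} (G : PvxGeo D d ψ x F W' AL' AR' z1 z2 τ ρ0 μ) {g : PvGeoT} (hg : PvgOk g)
    (hY : PvxOk (pvgSites g) (closure D) μ) (c : PvColT) {eL eR : ℂ} (hb : PvxBank F (pvgSites g) (F.B (pvgSites g) (pvgColAt g c)) eL eR)
    (hX : pvMerge (g, c) ∉ pvxX z1 z2 (3 * τ + 3 * μ) (ρ0 / 4)) : 3 * τ + 3 * μ < dist eL z1 ∧ 3 * τ + 3 * μ < dist eR z2 :=
  pvxo_corner G hg hY c hb (fun h1 => hX (Or.inl h1)) (fun h2 => hX (Or.inr h2))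

/-- **CORNER, probability** (owner 27): `pvre_arm1_vc` + `Measure.le_map_apply` -/
theorem pvx_corner_prob : ∃ C a : ℝ, 0 < C ∧ 0 < a ∧ ∀ ε : ℝ, 0 < ε → ∀ t r : ℝ, ε ≤ t → t ≤ r → ∀ z1 z2 : ℂ,
    pvLaw ε (pvxX z1 z2 t r) ≤ ENNReal.ofReal (2 * (C * (t / r) ^ a)) := by
  obtain ⟨C, a, hC, ha, h⟩ := pvre_arm1_vc
  refine ⟨C, a, hC, ha, fun ε hε t r h1 h2 z1 z2 => ?_⟩
  have ht : 0 < t := lt_of_lt_of_le hε h1
  have hr : 0 < r := lt_of_lt_of_le ht h2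
  have key : ∀ z : ℂ, pvLaw ε {ω | PvVC (pvConf ω) univ (rswRect (z.re - t) (z.re + t) (z.im - t) (z.im + t)) {b | ¬ (z.re - r < b.re ∧ b.re < z.re + r ∧ z.im - r < b.im ∧ b.im < z.im + r)}}
      ≤ ENNReal.ofReal (C * (t / r) ^ a) := by
    intro z
    refine le_trans ?_ (h ε hε t r h1 h2 z.re z.im univ)
    exact Measure.le_map_apply measurable_pvConf.aemeasurable _
  have hsub : pvxX z1 z2 t r = {ω | PvVC (pvConf ω) univ (rswRect (z1.re - t) (z1.re + t) (z1.im - t) (z1.im + t)) {b | ¬ (z1.re - r < b.re ∧ b.re < z1.re + r ∧ z1.im - r < b.im ∧ b.im < z1.im + r)}}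
      ∪ {ω | PvVC (pvConf ω) univ (rswRect (z2.re - t) (z2.re + t) (z2.im - t) (z2.im + t)) {b | ¬ (z2.re - r < b.re ∧ b.re < z2.re + r ∧ z2.im - r < b.im ∧ b.im < z2.im + r)}} := rfl
  rw [hsub, two_mul, ENNReal.ofReal_add (by positivity) (by positivity)]
  exact (measure_union_le _ _).trans (add_le_add (key z1) (key z2))

/-- the ends of a bank lie in `D` (owner 27) -/
theorem pvx_bank_mem {F : PvxFr} {W' AL' AR' : Set ℂ} {z1 z2 : ℂ} {τ ρ0 μ : ℝ} {Y : Set ℂ} (G : PvxGeo D d ψ x F W' AL' AR' z1 z2 τ ρ0 μ) (σ : ℂ → Bool) {eL eR : ℂ}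
    (hb : PvxBank F Y (F.B Y σ) eL eR) : eL ∈ D ∧ eR ∈ D := by
  obtain ⟨hL, -, -, hch⟩ := hb
  have hB : ∀ v, v ∈ F.B Y σ → v ∈ D := fun v hv => pvx_free_mem_D G hv.1
  refine ⟨hB _ hL, ?_⟩
  rcases Relation.ReflTransGen.cases_tail hch with h | ⟨c, -, hc⟩
  · rw [h]; exact hB _ hL
  · exact hB _ hc.1

/-! ## 4. the plan -/

/-- **THE PLAN** (compiled glue) -/
theorem pvx_plan {F : PvxFr} {W' AL' AR' : Set ℂ} {z1 z2 : ℂ} {τ ρ0 μ : ℝ} (h : PvChart D d ψ) (hx0 : 0 < x) (hx1 : x < 1) (G : PvxGeo D d ψ x F W' AL' AR' z1 z2 τ ρ0 μ)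
    {q : ℝ} (hq1 : q ≤ 1) {K : Set ℂ} (hKb : Bornology.IsBounded K) (hK : cthickening 1 (closure D) ⊆ K) {Z : Finset ℂ} {U : Finset ℝ} {g : PvGeoT} (Fr : PvxqFrame q μ K Z U g)
    {T : Set PVSample}
    (hT : ∀ ω, PvLF (pvConf ω) → ∀ t : ℝ, 0 < t → ∀ S : Set ℂ, IsPreconnected S → S ⊆ pvxkFat (delsBk (pvConf ω)) (delsWh (pvConf ω)) (-t) ∩ closure D →
      (S ∩ pvArcL D d ψ x).Nonempty → (S ∩ pvArcR D d ψ).Nonempty → ω ∈ T)
    {m : ℕ} {u0 : ℝ} (hu0 : 0 < u0) (hμu : 4 * μ < u0) (hU : ∀ j < m, pvxqSc u0 j ∈ U) (hKan : ∀ z ∈ Z, ∀ j < m, pvxqAnK z (pvxqSc u0 j) ⊆ K)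
    (gr : ℂ → ℂ) (hgr : ∀ e ∈ D, gr e ∈ Z ∧ ‖gr e - e‖ ≤ τ) (hin : 2 * τ + 5 * μ ≤ u0 / 2) (hout : ∀ j < m, 5 * pvxqSc u0 j ≤ ρ0 - 5 * μ - τ) :
    PvxpPlan T ({ω | PvVC (pvConf ω) W' AL' AR'} \ pvxX z1 z2 (3 * τ + 3 * μ) (ρ0 / 4)) g m q := by
  have hg : PvgOk g := Fr.ok
  have hne : (closure D).Nonempty := ⟨d, frontier_subset_closure h.hd⟩
  have hY : PvxOk (pvgSites g) (closure D) μ := pvx_ok Fr hne hK G.mu_pos G.mu_lt
  have hfin : (F.free (pvgSites g)).Finite := pvx_free_finite h G hY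
  obtain ⟨hS, hB⟩ := pvx_stop hg F hfin
  refine PvxpPlan.of_sample hq1 (pvxqFs g K) (Z : Set ℂ) (pvxS g F)
    (fun c => (gr (pvxSel F (pvgSites g) (F.B (pvgSites g) (pvgColAt g c))).1, gr (pvxSel F (pvgSites g) (F.B (pvgSites g) (pvgColAt g c))).2))
    (fun z k => {ω | (pvxqAn z (pvxqSc u0 k)).Holds (cfReg (pvConf ω) false)}) (fun z k => pvxqFin g z (pvxqSc u0 k)) hS ?_ ?_ ?_ ?_ ?_ ?_ ?_
  · intro c c' hcc
    have := hB c c' hcc
    simp only [this]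
  · intro z _ k _ c c' hcc hc
    refine pvxq_holds_mono hg false (fun i hi => ?_) hc
    by_contra hne'
    have h1 : c' i = true := by simpa using hne'
    rw [hcc i h1] at hi
    exact Bool.noConfusion hi
  · intro z hz k hk
    exact (pvxq_tower Fr hq1 hKb hu0 hμu hU (Finset.mem_coe.1 hz) (hKan z (Finset.mem_coe.1 hz)) false).1 k hk
  · intro z hz i hi k hk hik
    exact (pvxq_tower Fr hq1 hKb hu0 hμu hU (Finset.mem_coe.1 hz) (hKan z (Finset.mem_coe.1 hz)) false).2.1 i hi k hk hik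
  · intro z _ k _
    exact pvxq_loc hg z (pvxq_sc_pos hu0 k).le false
  · intro z hz k hk
    exact Fr.arm z (Finset.mem_coe.1 hz) _ (hU k (Finset.mem_range.1 hk)) false
  · intro c hc hcT
    obtain ⟨hvc, hX⟩ := hc
    obtain ⟨dB, dW, dV⟩ := pvx_dict hg c
    set σ := pvgColAt g c with hσ
    set Y := pvgSites g with hYd
    have hbank := pvx_sel_spec (pvx_bank h hx0 hx1 G hY σ ((dV W' AL' AR').1 hvc))
    set eL := (pvxSel F Y (F.B Y σ)).1 with heL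
    set eR := (pvxSel F Y (F.B Y σ)).2 with heR
    obtain ⟨hcL, hcR⟩ := pvx_corner G hg hY c hbank hX
    obtain ⟨hLD, hRD⟩ := pvx_bank_mem G σ hbank
    have hno : ∀ t : ℝ, 0 < t → ¬ ∃ S : Set ℂ, IsPreconnected S ∧ S ⊆ pvxkFat (pvxK Y σ) (pvxH Y σ) (-t) ∩ closure D ∧
        (S ∩ pvArcL D d ψ x).Nonempty ∧ (S ∩ pvArcR D d ψ).Nonempty := by
      rintro t ht ⟨S, hSp, hSs, hSL, hSR⟩
      refine hcT (hT _ (hg.ok c).pvlf t ht S hSp ?_ hSL hSR)
      rw [dB, dW]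
      exact hSs
    have hpaint := pvx_paint_eq hg F hfin c
    have key : ∀ e : ℂ, e ∈ D → PvxArm Y (pvxH Y σ \ F.W Y σ) e (τ + 5 * μ) (ρ0 - 5 * μ) →
        gr e ∈ (Z : Set ℂ) ∧ ∀ k ∈ Finset.range m, pvMerge (g, pvxpPaint (pvxS g F c) c) ∈ {ω | (pvxqAn (gr e) (pvxqSc u0 k)).Holds (cfReg (pvConf ω) false)} := by
      intro e he ha
      obtain ⟨h1, h2⟩ := hgr e he
      refine ⟨Finset.mem_coe.2 h1, fun k hk => ?_⟩
      rw [← hpaint] at ha
      have h3 : u0 ≤ pvxqSc u0 k := by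
        unfold pvxqSc
        exact le_mul_of_one_le_right hu0.le (one_le_pow₀ (by norm_num))
      refine pvx_arm_holds hg _ (pvxq_sc_pos hu0 k) ha (by linarith) ?_
      have := hout k (Finset.mem_range.1 hk)
      linarith
    rcases pvx_det h hx0 hx1 G hY σ hbank hcL hcR hno with ha | ha
    · exact Or.inl (key eL hLD ha)
    · exact Or.inr (key eR hRD ha)

end Claimed.Agent.R289
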