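import Claimed.Agent.R289.Chart
import Claimed.Agent.R289.Del.Strict

/-!
# Row 289 (S0537), unit EXT, file Ext/Kit : MODEL FREE TOPOLOGY KIT OF EXT      (owner helper93; prefixes `pvxu_`, `pvxj_`)

Design of EXT: helper74 (zones, white cluster of the floor, paint, white arms; msg of 09:10Z).      This file = the soft plane topology which HEX, TOPG + BUMP, TGT, DET-BANK and DET-MAIN share.
* (U)      `pvxu_convex`, **`pvxu_joined`**: a preconnected subset of `closure D ∩ O` (`O` open) lies in ONE path component of `closure D ∩ O` (through `h.disc`, `h.dinv` and the convexity of the closed disc);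
           `pvxu_comp_open`: the components of `closure D ∩ O` are relatively open in `closure D`;
           `pvxu_strict_eq`, `pvxu_white_closed`, **`pvxu_strict`**: a preconnected strictly black subset of `closure D` which meets `pvArcL` and `pvArcR` gives `PvStrict`.
* SPLIT    `pvxj_clopen` (compact Hausdorff spaces: components = quasi components, with two closed sets), **`pvxj_split`**, `pvxj_conn_or_split`.
* BUMP     **`pvxj_bump`**: boundary bumping.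
* CHAIN    **`pvxj_chain`**: nerve of a finite closed cover with two end sets ((c) of DET-BANK, helper290).
-/

set_option autoImplicit false

namespace Claimed.Agent.R289

open Set Metric Topology Claims.C0465

/-! ## (U) connected ⟹ path connected in relatively open subsets of `closure D` -/

/-- convex model: a preconnected subset of `B ∩ O` (`B` convex, `O` open) lies in one path component of `B ∩ O` -/
theorem pvxu_convex {B O S : Set ℂ} (hB : Convex ℝ B) (hO : IsOpen O) (hS : IsPreconnected S) (hSF : S ⊆ B ∩ O) {p q : ℂ}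
    (hp : p ∈ S) (hq : q ∈ S) : JoinedIn (B ∩ O) p q := by
  classical
  -- local step
  have hloc : ∀ x ∈ B ∩ O, ∃ ε > 0, ∀ y ∈ B, y ∈ ball x ε → JoinedIn (B ∩ O) x y := by
    intro x hx
    obtain ⟨ε, hε, hb⟩ := Metric.isOpen_iff.1 hO x hx.2
    refine ⟨ε, hε, fun y hyB hy => JoinedIn.of_segment_subset ?_⟩
    intro z hz
    exact ⟨hB.segment_subset hx.1 hyB hz, hb ((convex_ball x ε).segment_subset (mem_ball_self hε) hy hz)⟩
  choose! ε hε hj using hloc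
  by_contra hcon
  let U : Set ℂ := ⋃ x ∈ {x | x ∈ B ∩ O ∧ JoinedIn (B ∩ O) p x}, ball x (ε x)
  let V : Set ℂ := ⋃ x ∈ {x | x ∈ B ∩ O ∧ ¬ JoinedIn (B ∩ O) p x}, ball x (ε x)
  have hU : IsOpen U := isOpen_biUnion fun _ _ => isOpen_ball
  have hV : IsOpen V := isOpen_biUnion fun _ _ => isOpen_ball
  have hcov : S ⊆ U ∪ V := by
    intro y hy
    by_cases h : JoinedIn (B ∩ O) p y
    · exact Or.inl (mem_biUnion (show y ∈ {x | x ∈ B ∩ O ∧ JoinedIn (B ∩ O) p x} from ⟨hSF hy, h⟩) (mem_ball_self (hε y (hSF hy))))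
    · exact Or.inr (mem_biUnion (show y ∈ {x | x ∈ B ∩ O ∧ ¬ JoinedIn (B ∩ O) p x} from ⟨hSF hy, h⟩) (mem_ball_self (hε y (hSF hy))))
  have hpU : (S ∩ U).Nonempty :=
    ⟨p, hp, mem_biUnion (show p ∈ {x | x ∈ B ∩ O ∧ JoinedIn (B ∩ O) p x} from ⟨hSF hp, JoinedIn.refl (hSF hp)⟩) (mem_ball_self (hε p (hSF hp)))⟩
  have hqV : (S ∩ V).Nonempty :=
    ⟨q, hq, mem_biUnion (show q ∈ {x | x ∈ B ∩ O ∧ ¬ JoinedIn (B ∩ O) p x} from ⟨hSF hq, hcon⟩) (mem_ball_self (hε q (hSF hq)))⟩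
  obtain ⟨y, hyS, hyU, hyV⟩ := hS U V hU hV hcov hpU hqV
  obtain ⟨x, ⟨hx, hpx⟩, hyx⟩ := mem_iUnion₂.1 hyU
  obtain ⟨x', ⟨hx', hpx'⟩, hyx'⟩ := mem_iUnion₂.1 hyV
  exact hpx' ((hpx.trans (hj x hx y (hSF hyS).1 hyx)).trans (hj x' hx' y (hSF hyS).1 hyx').symm)

variable {D : Set ℂ} {d : ℂ} {ψ : ℂ → ℂ}

/-- **(U)** a preconnected subset of `closure D ∩ O`, `O` open, lies in one path component of `closure D ∩ O` -/
theorem pvxu_joined (h : PvChart D d ψ) {O S : Set ℂ} (hO : IsOpen O) (hS : IsPreconnected S) (hSF : S ⊆ closure D ∩ O) {p q : ℂ}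
    (hp : p ∈ S) (hq : q ∈ S) : JoinedIn (closure D ∩ O) p q := by
  obtain ⟨O', hO', hOO'⟩ := (_root_.continuousOn_iff'.1 h.dinv_cont) O hO
  have hS' : IsPreconnected (h.disc '' S) := hS.image _ (h.disc_cont.mono fun z hz => (hSF hz).1)
  have hSF' : h.disc '' S ⊆ closedBall (0 : ℂ) 1 ∩ O' := by
    rintro _ ⟨z, hz, rfl⟩
    have h1 : h.disc z ∈ closedBall (0 : ℂ) 1 := by
      rw [mem_closedBall_zero_iff]; exact h.disc_norm_le (hSF hz).1
    have h2 : h.disc z ∈ h.dinv ⁻¹' O ∩ closedBall (0 : ℂ) 1 := ⟨by rw [mem_preimage, h.dinv_disc (hSF hz).1]; exact (hSF hz).2, h1⟩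
    rw [hOO'] at h2
    exact ⟨h1, h2.1⟩
  have hj := pvxu_convex (convex_closedBall (0 : ℂ) 1) hO' hS' hSF' (mem_image_of_mem _ hp) (mem_image_of_mem _ hq)
  have hj2 := hj.map_continuousOn (h.dinv_cont.mono inter_subset_left)
  rw [h.dinv_disc (hSF hp).1, h.dinv_disc (hSF hq).1] at hj2
  refine hj2.mono ?_
  rintro _ ⟨ζ, hζ, rfl⟩
  have h1 : ‖ζ‖ ≤ 1 := by simpa using hζ.1
  have h2 : ζ ∈ O' ∩ closedBall (0 : ℂ) 1 := ⟨hζ.2, hζ.1⟩
  rw [← hOO'] at h2
  exact ⟨h.dinv_mem h1, h2.1⟩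

/-- components of relatively open subsets of `closure D` are relatively open -/
theorem pvxu_comp_open (h : PvChart D d ψ) {O : Set ℂ} (hO : IsOpen O) {p z : ℂ} (hz : z ∈ connectedComponentIn (closure D ∩ O) p) :
    ∃ ε > 0, ∀ y ∈ closure D, y ∈ ball z ε → y ∈ connectedComponentIn (closure D ∩ O) p := by
  have hzF : z ∈ closure D ∩ O := connectedComponentIn_subset _ _ hz
  have hζ : h.disc z ∈ closedBall (0 : ℂ) 1 := by
    rw [mem_closedBall_zero_iff]; exact h.disc_norm_le hzF.1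
  have hc : ContinuousWithinAt h.dinv (closedBall 0 1) (h.disc z) := h.dinv_cont _ hζ
  have h1 : ∀ᶠ ζ in 𝓝[closedBall 0 1] (h.disc z), h.dinv ζ ∈ O :=
    hc (hO.mem_nhds (by rw [h.dinv_disc hzF.1]; exact hzF.2))
  obtain ⟨δ, hδ, hδO⟩ := Metric.mem_nhdsWithin_iff.1 h1
  have hc2 : ContinuousWithinAt h.disc (closure D) z := h.disc_cont _ hzF.1
  have h2 : ∀ᶠ y in 𝓝[closure D] z, h.disc y ∈ ball (h.disc z) δ := hc2 (ball_mem_nhds _ hδ)
  obtain ⟨ε, hε, hεb⟩ := Metric.mem_nhdsWithin_iff.1 h2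
  refine ⟨ε, hε, fun y hyD hy => ?_⟩
  have hNpre : IsPreconnected (h.dinv '' (ball (h.disc z) δ ∩ closedBall 0 1)) :=
    ((convex_ball _ _).inter (convex_closedBall _ _)).isPreconnected.image _ (h.dinv_cont.mono inter_subset_right)
  have hNF : h.dinv '' (ball (h.disc z) δ ∩ closedBall 0 1) ⊆ closure D ∩ O := by
    rintro _ ⟨ζ, hζ', rfl⟩
    exact ⟨h.dinv_mem (by simpa using hζ'.2), hδO hζ'⟩
  have hzN : z ∈ h.dinv '' (ball (h.disc z) δ ∩ closedBall 0 1) := ⟨h.disc z, ⟨mem_ball_self hδ, hζ⟩, h.dinv_disc hzF.1⟩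
  have hyN : y ∈ h.dinv '' (ball (h.disc z) δ ∩ closedBall 0 1) :=
    ⟨h.disc y, ⟨hεb ⟨hy, hyD⟩, by rw [mem_closedBall_zero_iff]; exact h.disc_norm_le hyD⟩, h.dinv_disc hyD⟩
  rw [connectedComponentIn_eq hz]
  exact hNpre.subset_connectedComponentIn hzN hNF hyN

/-- the strict black region is `closure`-relatively open: it is the complement of the closed white cells -/
theorem pvxu_strict_eq {ω : PVSample} (hω : DelgpOk ω) (hne : (cfSites (pvConf ω)).Nonempty) : pvBlack ω \ pvWhite ω = (pvWhite ω)ᶜ := by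
  ext z
  refine ⟨fun hz => hz.2, fun hz => ⟨?_, hz⟩⟩
  obtain ⟨v, hv, hzv⟩ := vor_cover hω.lf hne z
  rw [dels_sites_eq] at hv
  rcases hv with hv | hv
  · rw [dels_black_eq]; exact ⟨v, hv, hzv⟩
  · exact absurd (by rw [dels_white_eq]; exact ⟨v, hv, hzv⟩) hz

theorem pvxu_white_closed {ω : PVSample} (hω : DelgpOk ω) : IsClosed (pvWhite ω) := by
  rw [dels_white_eq]
  exact vor_isClosed_un hω.lf (dels_wh_subset _)

/-- **(U), final form**: a preconnected set of `closure D` which is strictly black and meets both arcs gives `PvStrict` -/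
theorem pvxu_strict (h : PvChart D d ψ) {x : ℝ} {ω : PVSample} (hω : DelgpOk ω) {S : Set ℂ} (hS : IsPreconnected S) (hSD : S ⊆ closure D)
    (hSb : S ⊆ pvBlack ω \ pvWhite ω) {p q : ℂ} (hp : p ∈ S) (hq : q ∈ S) (hpL : p ∈ pvArcL D d ψ x) (hqR : q ∈ pvArcR D d ψ) :
    PvStrict D d ψ x ω := by
  have hne : (cfSites (pvConf ω)).Nonempty := by
    have h1 := (hSb hp).1
    rw [dels_black_eq] at h1
    obtain ⟨v, hv, -⟩ := h1
    exact ⟨v, dels_bk_subset _ hv⟩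
  have hj := pvxu_joined h (pvxu_white_closed hω).isOpen_compl hS (fun z hz => ⟨hSD hz, (hSb hz).2⟩) hp hq
  refine dels_pvstrict (F := closure D ∩ (pvWhite ω)ᶜ) ?_ hpL hqR hj
  rw [pvxu_strict_eq hω hne]


/-! ## SPLIT, BUMP, CHAIN -/

/-- compact Hausdorff space: a closed set `A` none of whose points has a component meeting the closed set `B` is separated from `B` by a clopen set -/
theorem pvxj_clopen {α : Type*} [TopologicalSpace α] [CompactSpace α] [T2Space α] {A B : Set α} (hA : IsClosed A) (hB : IsClosed B)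
    (h : ∀ a ∈ A, Disjoint (connectedComponent a) B) : ∃ Z : Set α, IsClopen Z ∧ A ⊆ Z ∧ Disjoint Z B := by
  have h1 : ∀ a ∈ A, ∃ Z : Set α, IsClopen Z ∧ a ∈ Z ∧ Disjoint Z B := by
    intro a ha
    have hcov : B ⊆ ⋃ Z : {Z : Set α // IsClopen Z ∧ a ∈ Z}, (Z : Set α)ᶜ := by
      intro b hb
      have hb' : b ∉ connectedComponent a := fun hb' => (Set.disjoint_left.1 (h a ha)) hb' hb
      rw [connectedComponent_eq_iInter_isClopen] at hb'
      simp only [mem_iInter, not_forall] at hb'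
      obtain ⟨Z, hZ⟩ := hb'
      exact mem_iUnion.2 ⟨Z, hZ⟩
    obtain ⟨t, ht⟩ := hB.isCompact.elim_finite_subcover _ (fun Z : {Z : Set α // IsClopen Z ∧ a ∈ Z} => Z.2.1.compl.isOpen) hcov
    refine ⟨⋂ Z ∈ t, (Z : Set α), isClopen_biInter_finset (fun Z _ => Z.2.1), mem_iInter₂.2 fun Z _ => Z.2.2, ?_⟩
    rw [Set.disjoint_left]
    intro b hb1 hb2
    obtain ⟨Z, hZ, hbZ⟩ := mem_iUnion₂.1 (ht hb2)
    exact hbZ (mem_iInter₂.1 hb1 Z hZ)
  choose! Z hZc hZa hZB using h1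
  have hcov : A ⊆ ⋃ a : A, Z a := fun a ha => mem_iUnion.2 ⟨⟨a, ha⟩, hZa a ha⟩
  obtain ⟨t, ht⟩ := hA.isCompact.elim_finite_subcover _ (fun a : A => (hZc a a.2).isOpen) hcov
  refine ⟨⋃ a ∈ t, Z (a : α), isClopen_biUnion_finset (fun a _ => hZc a a.2), ht, ?_⟩
  rw [Set.disjoint_left]
  intro b hb1 hb2
  obtain ⟨a, -, hba⟩ := mem_iUnion₂.1 hb1
  exact (Set.disjoint_left.1 (hZB a a.2)) hba hb2

/-- **SPLIT**: clopen splitting of a compact set -/
theorem pvxj_split {X A B : Set ℂ} (hX : IsCompact X) (hA : IsClosed A) (hB : IsClosed B) (hAX : A ⊆ X)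
    (hno : ∀ a ∈ A, Disjoint (connectedComponentIn X a) B) :
    ∃ X1 X2 : Set ℂ, IsClosed X1 ∧ IsClosed X2 ∧ Disjoint X1 X2 ∧ X = X1 ∪ X2 ∧ A ⊆ X1 ∧ B ∩ X ⊆ X2 := by
  have : CompactSpace X := isCompact_iff_compactSpace.1 hX
  have hA' : IsClosed ((↑) ⁻¹' A : Set X) := hA.preimage continuous_subtype_val
  have hB' : IsClosed ((↑) ⁻¹' B : Set X) := hB.preimage continuous_subtype_val
  have h' : ∀ a ∈ ((↑) ⁻¹' A : Set X), Disjoint (connectedComponent a) ((↑) ⁻¹' B : Set X) := by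
    intro a ha
    rw [Set.disjoint_left]
    intro b hb1 hb2
    have := hno a ha
    rw [connectedComponentIn_eq_image a.2] at this
    exact (Set.disjoint_left.1 this) ⟨b, hb1, rfl⟩ hb2
  obtain ⟨Z, hZ, hAZ, hZB⟩ := pvxj_clopen hA' hB' h'
  refine ⟨(↑) '' Z, (↑) '' Zᶜ, ?_, ?_, ?_, ?_, ?_, ?_⟩
  · exact (hZ.isClosed.isCompact.image continuous_subtype_val).isClosed
  · exact (hZ.compl.isClosed.isCompact.image continuous_subtype_val).isClosed
  · rw [Set.disjoint_left]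
    rintro _ ⟨z, hz, rfl⟩ ⟨z', hz', e⟩
    exact hz' (by rw [Subtype.ext e]; exact hz)
  · ext z
    constructor
    · intro hz
      by_cases hzZ : (⟨z, hz⟩ : X) ∈ Z
      · exact Or.inl ⟨_, hzZ, rfl⟩
      · exact Or.inr ⟨_, hzZ, rfl⟩
    · rintro (⟨z, -, rfl⟩ | ⟨z, -, rfl⟩) <;> exact z.2
  · intro a ha
    exact ⟨⟨a, hAX ha⟩, hAZ ha, rfl⟩
  · rintro b ⟨hb, hbX⟩
    exact ⟨⟨b, hbX⟩, fun hz => (Set.disjoint_left.1 hZB) hz hb, rfl⟩


/-- the components of a compact set are compact -/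
theorem pvxj_comp_compact {X : Set ℂ} (hX : IsCompact X) {a : ℂ} (ha : a ∈ X) : IsCompact (connectedComponentIn X a) := by
  have : CompactSpace X := isCompact_iff_compactSpace.1 hX
  rw [connectedComponentIn_eq_image ha]
  exact (isClosed_connectedComponent.isCompact).image continuous_subtype_val

/-- **SPLIT, dichotomy form**: a compact connected piece of `X` joins `A` to `B`, or `X` splits -/
theorem pvxj_conn_or_split {X A B : Set ℂ} (hX : IsCompact X) (hA : IsClosed A) (hB : IsClosed B) (hAX : A ⊆ X) :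
    (∃ K ⊆ X, IsCompact K ∧ IsConnected K ∧ (K ∩ A).Nonempty ∧ (K ∩ B).Nonempty) ∨
      ∃ X1 X2 : Set ℂ, IsClosed X1 ∧ IsClosed X2 ∧ Disjoint X1 X2 ∧ X = X1 ∪ X2 ∧ A ⊆ X1 ∧ B ∩ X ⊆ X2 := by
  by_cases hno : ∀ a ∈ A, Disjoint (connectedComponentIn X a) B
  · exact Or.inr (pvxj_split hX hA hB hAX hno)
  · left
    simp only [not_forall] at hno
    obtain ⟨a, ha, hab⟩ := hno
    obtain ⟨b, hb1, hb2⟩ := Set.not_disjoint_iff.1 hab
    exact ⟨connectedComponentIn X a, connectedComponentIn_subset _ _, pvxj_comp_compact hX (hAX ha), isConnected_connectedComponentIn_iff.2 (hAX ha),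
      ⟨a, mem_connectedComponentIn (hAX ha), ha⟩, ⟨b, hb1, hb2⟩⟩

/-- **BUMP** (boundary bumping) -/
theorem pvxj_bump {S A : Set ℂ} (hS : IsCompact S) (hSc : IsPreconnected S) (hA : IsClosed A) (hAS : A ⊆ S) {p : ℂ} (hp : p ∈ A) (hne : A ≠ S) :
    (connectedComponentIn A p ∩ closure (S \ A)).Nonempty := by
  by_contra hcon
  rw [Set.not_nonempty_iff_eq_empty] at hcon
  have hAc : IsCompact A := hS.of_isClosed_subset hA hAS
  have hno : ∀ a ∈ ({p} : Set ℂ), Disjoint (connectedComponentIn A a) (closure (S \ A)) := by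
    intro a ha
    rw [mem_singleton_iff.1 ha]
    exact Set.disjoint_iff_inter_eq_empty.2 hcon
  obtain ⟨A1, A2, h1, h2, hd, hU, hpA, hE⟩ := pvxj_split hAc isClosed_singleton isClosed_closure (singleton_subset_iff.2 hp) hno
  -- `A1` and `A2 ∪ closure (S \ A)` are closed, cover `S`, both meet `S`, and are disjoint on `S`
  have hcov : S ⊆ A1 ∪ (A2 ∪ closure (S \ A)) := by
    intro z hz
    by_cases hzA : z ∈ A
    · rw [hU] at hzA
      rcases hzA with h | h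
      · exact Or.inl h
      · exact Or.inr (Or.inl h)
    · exact Or.inr (Or.inr (subset_closure ⟨hz, hzA⟩))
  have hn1 : (S ∩ A1).Nonempty := ⟨p, hAS hp, hpA rfl⟩
  have hn2 : (S ∩ (A2 ∪ closure (S \ A))).Nonempty := by
    obtain ⟨z, hz, hzA⟩ : ∃ z ∈ S, z ∉ A := by
      by_contra hc
      exact hne (Subset.antisymm hAS fun z hz => by_contra fun hzA => hc ⟨z, hz, hzA⟩)
    exact ⟨z, hz, Or.inr (subset_closure ⟨hz, hzA⟩)⟩
  obtain ⟨z, -, hz1, hz2⟩ := (isPreconnected_closed_iff.1 hSc) A1 (A2 ∪ closure (S \ A)) h1 (h2.union isClosed_closure) hcov hn1 hn2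
  rcases hz2 with hz2 | hz2
  · exact (Set.disjoint_left.1 hd) hz1 hz2
  · have hzA : z ∈ A := by rw [hU]; exact Or.inl hz1
    exact (Set.disjoint_left.1 hd) hz1 (hE ⟨hz2, hzA⟩)

/-- **CHAIN** (nerve of a finite closed cover, with two end sets) -/
theorem pvxj_chain {Bs : Set ℂ} (hfin : Bs.Finite) {cell : ℂ → Set ℂ} (hcl : ∀ b ∈ Bs, IsClosed (cell b)) {AL AR S : Set ℂ} (hAL : IsClosed AL)
    (hAR : IsClosed AR) (hdis : Disjoint AL AR) (hS : IsPreconnected S) (hcov : S ⊆ AL ∪ AR ∪ ⋃ b ∈ Bs, cell b) (hL : (S ∩ AL).Nonempty)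
    (hR : (S ∩ AR).Nonempty) :
    ∃ u ∈ Bs, ∃ v ∈ Bs, (cell u ∩ AL).Nonempty ∧ (cell v ∩ AR).Nonempty ∧
      Relation.ReflTransGen (fun a b => b ∈ Bs ∧ (cell a ∩ cell b).Nonempty) u v := by
  classical
  let Re : Set ℂ := {b | b ∈ Bs ∧ ∃ u ∈ Bs, (cell u ∩ AL).Nonempty ∧ Relation.ReflTransGen (fun a b => b ∈ Bs ∧ (cell a ∩ cell b).Nonempty) u b}
  have hRe : Re ⊆ Bs := fun b hb => hb.1
  have hP : IsClosed (AL ∪ ⋃ b ∈ Re, cell b) := hAL.union ((hfin.subset hRe).isClosed_biUnion fun b hb => hcl b hb.1)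
  have hQ : IsClosed (AR ∪ ⋃ b ∈ Bs \ Re, cell b) := hAR.union ((hfin.subset sdiff_subset).isClosed_biUnion fun b hb => hcl b hb.1)
  have hc : S ⊆ (AL ∪ ⋃ b ∈ Re, cell b) ∪ (AR ∪ ⋃ b ∈ Bs \ Re, cell b) := by
    intro z hz
    rcases hcov hz with (h | h) | h
    · exact Or.inl (Or.inl h)
    · exact Or.inr (Or.inl h)
    · obtain ⟨b, hb, hzb⟩ := mem_iUnion₂.1 h
      by_cases hbR : b ∈ Re
      · exact Or.inl (Or.inr (mem_biUnion hbR hzb))
      · exact Or.inr (Or.inr (mem_biUnion (show b ∈ Bs \ Re from ⟨hb, hbR⟩) hzb))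
  obtain ⟨z, -, hz1, hz2⟩ := (isPreconnected_closed_iff.1 hS) _ _ hP hQ hc (hL.mono fun z hz => ⟨hz.1, Or.inl hz.2⟩)
    (hR.mono fun z hz => ⟨hz.1, Or.inl hz.2⟩)
  rcases hz1 with hz1 | hz1
  · rcases hz2 with hz2 | hz2
    · exact absurd hz2 ((Set.disjoint_left.1 hdis) hz1)
    · obtain ⟨b, hb, hzb⟩ := mem_iUnion₂.1 hz2
      exact absurd ⟨hb.1, b, hb.1, ⟨z, hzb, hz1⟩, Relation.ReflTransGen.refl⟩ hb.2
  · obtain ⟨b, hb, hzb⟩ := mem_iUnion₂.1 hz1
    rcases hz2 with hz2 | hz2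
    · obtain ⟨hbB, u, hu, huL, hub⟩ := hb
      exact ⟨u, hu, b, hbB, huL, ⟨z, hzb, hz2⟩, hub⟩
    · obtain ⟨b', hb', hzb'⟩ := mem_iUnion₂.1 hz2
      obtain ⟨-, u, hu, huL, hub⟩ := hb
      exact absurd ⟨hb'.1, u, hu, huL, hub.tail ⟨hb'.1, ⟨z, hzb, hzb'⟩⟩⟩ hb'.2

end Claimed.Agent.R289
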