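import Claimed.Agent.R289.Del.Strict
import Claimed.Agent.R289.Mesh.Net
import Claimed.Agent.R289.PppPv

/-!
# Row 289 (S0537), unit EXT, file Ext/Strict : X5 = FROM ONE BLACK VERTEX CHAIN TO THE STRICT CROSSING      (owner helper10; prefix `pvx5_`)

CONSUMER: the cut of `exit_pv_ext` (acting head helper61).      INPUTS: `Del/Strict` (helper285), `Mesh/Net` (helper127), `Del/GenPos` (helper120), `PppPv` (`pv_isPpp`).

* sec. 1  `pvx5_clip`      CLIPPING (the only continuous topology of the end of EXT): a path in `F ∩ (D ∪ NL ∪ NR)` from a point of `NL \ D` to a point of `NR \ D`,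
          `NL`, `NR` disjoint open sets, contains a path in `F ∩ closure D` from `frontier D ∩ NL` to `frontier D ∩ NR` (first visit of `NR \ D`, last visit of `NL \ D` before it).
* sec. 2  `pvx5_arcs_disj`, `pvx5_nbd_disj`, `pvx5_nbd_L`, `pvx5_nbd_R`: the neighbourhoods of the compact sub-arcs `AL`, `AR` of `pvx1_main` (E1).
* sec. 3  `Pvx5Good K ρ ω` (general position + `ρ`-net on `K`), `pvx5_good_ev`: a measurable event of probability `≥ 1 - η` of good samples, for small `ε`.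
* sec. 4  `pvx5_chain`: on a good sample a black vertex chain in `W` gives a path in `(pvBlack ω \ pvWhite ω) ∩ vorNbd W ρ`;   `pvx5_vc`.
* sec. 5  `pvx5_det` (deterministic form), **`pvx5_main`** (EXPORT).
-/

set_option autoImplicit false

namespace Claimed.Agent.R289

open MeasureTheory Set Metric Filter Topology Claims.C0465

/-! ## 1. clipping -/

/-- **clipping** -/
theorem pvx5_clip {D F NL NR : Set ℂ} (hD : IsOpen D) (hNL : IsOpen NL) (hNR : IsOpen NR) (hdis : Disjoint NL NR)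
    {p q : ℂ} (hpN : p ∈ NL) (hpD : p ∉ D) (hqN : q ∈ NR) (hqD : q ∉ D) (h : JoinedIn (F ∩ (D ∪ NL ∪ NR)) p q) :
    ∃ p' q' : ℂ, p' ∈ frontier D ∧ p' ∈ NL ∧ q' ∈ frontier D ∧ q' ∈ NR ∧ JoinedIn (F ∩ closure D) p' q' := by
  obtain ⟨γ, hγ⟩ := h
  obtain ⟨σ, hσc, hσ, hσ0, hσ1⟩ : ∃ σ : ℝ → ℂ, Continuous σ ∧ (∀ t ∈ Icc (0 : ℝ) 1, σ t ∈ F ∩ (D ∪ NL ∪ NR)) ∧ σ 0 = p ∧ σ 1 = q :=
    ⟨γ.extend, γ.continuous_extend, fun t ht => by rw [γ.extend_apply ht]; exact hγ ⟨t, ht⟩, γ.extend_zero, γ.extend_one⟩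
  have hnot : ∀ z, z ∈ NL → z ∉ NR := fun z h1 h2 => (Set.disjoint_left.1 hdis) h1 h2
  -- the first visit of `NR \ D`
  have hTRc : IsCompact (Icc (0 : ℝ) 1 ∩ σ ⁻¹' (Dᶜ ∩ NLᶜ)) :=
    isCompact_Icc.inter_right ((hD.isClosed_compl.inter hNL.isClosed_compl).preimage hσc)
  have hTRn : (Icc (0 : ℝ) 1 ∩ σ ⁻¹' (Dᶜ ∩ NLᶜ)).Nonempty :=
    ⟨1, ⟨zero_le_one, le_rfl⟩, by
      show σ 1 ∈ Dᶜ ∩ NLᶜ
      rw [hσ1]
      exact ⟨hqD, fun h1 => hnot q h1 hqN⟩⟩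
  set t1 : ℝ := sInf (Icc (0 : ℝ) 1 ∩ σ ⁻¹' (Dᶜ ∩ NLᶜ)) with ht1
  have ht1m : t1 ∈ Icc (0 : ℝ) 1 ∩ σ ⁻¹' (Dᶜ ∩ NLᶜ) := hTRc.sInf_mem hTRn
  have ht1le : ∀ t ∈ Icc (0 : ℝ) 1 ∩ σ ⁻¹' (Dᶜ ∩ NLᶜ), t1 ≤ t := fun t ht => csInf_le hTRc.bddBelow ht
  -- the last visit of `NL \ D` before it
  have hTLc : IsCompact (Icc (0 : ℝ) t1 ∩ σ ⁻¹' (Dᶜ ∩ NRᶜ)) :=
    isCompact_Icc.inter_right ((hD.isClosed_compl.inter hNR.isClosed_compl).preimage hσc)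
  have hTLn : (Icc (0 : ℝ) t1 ∩ σ ⁻¹' (Dᶜ ∩ NRᶜ)).Nonempty :=
    ⟨0, ⟨le_rfl, ht1m.1.1⟩, by
      show σ 0 ∈ Dᶜ ∩ NRᶜ
      rw [hσ0]
      exact ⟨hpD, hnot p hpN⟩⟩
  set t0 : ℝ := sSup (Icc (0 : ℝ) t1 ∩ σ ⁻¹' (Dᶜ ∩ NRᶜ)) with ht0
  have ht0m : t0 ∈ Icc (0 : ℝ) t1 ∩ σ ⁻¹' (Dᶜ ∩ NRᶜ) := hTLc.sSup_mem hTLn
  have ht0le : ∀ t ∈ Icc (0 : ℝ) t1 ∩ σ ⁻¹' (Dᶜ ∩ NRᶜ), t ≤ t0 := fun t ht => le_csSup hTLc.bddAbove ht
  have h0I : t0 ∈ Icc (0 : ℝ) 1 := ⟨ht0m.1.1, ht0m.1.2.trans ht1m.1.2⟩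
  -- where the two points are
  have hp' : σ t0 ∈ NL := by
    rcases (hσ t0 h0I).2 with (h1 | h1) | h1
    · exact absurd h1 ht0m.2.1
    · exact h1
    · exact absurd h1 ht0m.2.2
  have hq' : σ t1 ∈ NR := by
    rcases (hσ t1 ht1m.1).2 with (h1 | h1) | h1
    · exact absurd h1 ht1m.2.1
    · exact absurd h1 ht1m.2.2
    · exact h1
  have hne : t0 ≠ t1 := fun e => hnot _ hp' (e ▸ hq')
  have hlt : t0 < t1 := lt_of_le_of_ne ht0m.1.2 hne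
  -- between the two times the path is in `D`
  have hin : ∀ t ∈ Ioo t0 t1, σ t ∈ D := by
    intro t ht
    by_contra hD'
    have htI : t ∈ Icc (0 : ℝ) 1 := ⟨h0I.1.trans ht.1.le, ht.2.le.trans ht1m.1.2⟩
    rcases (hσ t htI).2 with (h1 | h1) | h1
    · exact hD' h1
    · exact absurd (ht0le t ⟨⟨htI.1, ht.2.le⟩, hD', hnot _ h1⟩) (not_le.2 ht.1)
    · exact absurd (ht1le t ⟨htI, hD', fun h2 => hnot _ h2 h1⟩) (not_le.2 ht.2)
  have hcl : ∀ t ∈ Icc t0 t1, σ t ∈ closure D := by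
    intro t ht
    have h1 : t ∈ closure (Ioo t0 t1) := by rw [closure_Ioo hne]; exact ht
    have h2 : σ t ∈ closure (σ '' Ioo t0 t1) := image_closure_subset_closure_image hσc ⟨t, h1, rfl⟩
    exact closure_mono (by rintro _ ⟨s, hs, rfl⟩; exact hin s hs) h2
  refine ⟨σ t0, σ t1, ?_, hp', ?_, hq', ?_⟩
  · rw [frontier, hD.interior_eq]; exact ⟨hcl t0 ⟨le_rfl, hlt.le⟩, ht0m.2.1⟩
  · rw [frontier, hD.interior_eq]; exact ⟨hcl t1 ⟨hlt.le, le_rfl⟩, ht1m.2.1⟩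
  · refine JoinedIn.ofLine (f := fun s : ℝ => σ (t0 + s * (t1 - t0))) ?_ (by simp) (by simp) ?_
    · exact (hσc.comp (by fun_prop)).continuousOn
    · rintro _ ⟨s, hs, rfl⟩
      have hs0 : 0 ≤ s * (t1 - t0) := mul_nonneg hs.1 (by linarith)
      have hs1 : s * (t1 - t0) ≤ t1 - t0 := mul_le_of_le_one_left (by linarith) hs.2
      have hm : t0 + s * (t1 - t0) ∈ Icc t0 t1 := ⟨by linarith, by linarith⟩
      exact ⟨(hσ _ ⟨h0I.1.trans hm.1, hm.2.trans ht1m.1.2⟩).1, hcl _ hm⟩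

/-! ## 2. the neighbourhoods of the compact sub-arcs of E1 -/

theorem pvx5_arcs_disj {D : Set ℂ} {d : ℂ} {ψ : ℂ → ℂ} {x : ℝ} (hx1 : x < 1) {z : ℂ} (h1 : z ∈ pvArcL D d ψ x) (h2 : z ∈ pvArcR D d ψ) : False := by
  rcases h2 with h2 | h2
  · exact h1.2.1 h2
  · linarith [h1.2.2.2, h2.2.2]

theorem pvx5_nbd_L {D AL : Set ℂ} {d : ℂ} {ψ : ℂ → ℂ} {x ρ0 : ℝ} (hρ0 : 0 < ρ0)
    (HL : ∀ z ∈ AL, ∀ w ∈ frontier D, dist w z < ρ0 → w ∈ pvArcL D d ψ x) {w : ℂ} (hw : w ∈ frontier D) (hwN : w ∈ thickening (ρ0 / 2) AL) :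
    w ∈ pvArcL D d ψ x := by
  obtain ⟨z, hz, hwz⟩ := mem_thickening_iff.1 hwN
  exact HL z hz w hw (by linarith)

theorem pvx5_nbd_R {D AR : Set ℂ} {d : ℂ} {ψ : ℂ → ℂ} {ρ0 : ℝ} (hρ0 : 0 < ρ0)
    (HR : ∀ z ∈ AR, ∀ w ∈ frontier D, dist w z < ρ0 → w ∈ pvArcR D d ψ) {w : ℂ} (hw : w ∈ frontier D) (hwN : w ∈ thickening (ρ0 / 2) AR) :
    w ∈ pvArcR D d ψ := by
  obtain ⟨z, hz, hwz⟩ := mem_thickening_iff.1 hwN
  exact HR z hz w hw (by linarith)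

/-- the two neighbourhoods are disjoint -/
theorem pvx5_nbd_disj {D AL AR : Set ℂ} {d : ℂ} {ψ : ℂ → ℂ} {x ρ0 : ℝ} (hx1 : x < 1) (hρ0 : 0 < ρ0) (hAR : AR ⊆ frontier D)
    (HL : ∀ z ∈ AL, ∀ w ∈ frontier D, dist w z < ρ0 → w ∈ pvArcL D d ψ x) (HR : ∀ z ∈ AR, ∀ w ∈ frontier D, dist w z < ρ0 → w ∈ pvArcR D d ψ) :
    Disjoint (thickening (ρ0 / 2) AL) (thickening (ρ0 / 2) AR) := by
  rw [Set.disjoint_left]
  intro w h1 h2
  obtain ⟨z, hz, hwz⟩ := mem_thickening_iff.1 h1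
  obtain ⟨z', hz', hwz'⟩ := mem_thickening_iff.1 h2
  have h3 : dist z' z < ρ0 := by
    have := dist_triangle_left z' z w
    linarith
  exact pvx5_arcs_disj hx1 (HL z hz z' (hAR hz') h3) (HR z' hz' z' (hAR hz') (by rw [dist_self]; exact hρ0))

/-! ## 3. the good samples -/

/-- good sample: general position, and every point of `K` has a site within `ρ` -/
structure Pvx5Good (K : Set ℂ) (ρ : ℝ) (ω : PVSample) : Prop where
  ok : DelgpOk ω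
  net : VorDense (cfSites (pvConf ω)) K ρ

theorem pvx5_dense_of_net {K : Set ℂ} {ρ : ℝ} {η : Conf PvPt} (h : PvNetC univ ρ K η) : VorDense (cfSites η) K ρ := by
  intro z hz
  obtain ⟨p, hp, -, hpz⟩ := h z hz
  exact ⟨p.1, ⟨p, hp, rfl⟩, by rw [norm_sub_rev]; exact hpz.le⟩

/-- **the good event**: measurable, made of good samples, probability `≥ 1 - η` for small `ε` -/
theorem pvx5_good_ev {K : Set ℂ} (hK : Bornology.IsBounded K) {ρ η : ℝ} (hρ : 0 < ρ) (hη : 0 < η) :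
    ∀ᶠ ε in 𝓝[>] (0 : ℝ), ∃ G : Set PVSample, MeasurableSet G ∧ pvLaw ε Gᶜ ≤ ENNReal.ofReal η ∧ ∀ ω ∈ G, Pvx5Good K ρ ω := by
  obtain ⟨L, hL, -, hnet⟩ := pvm_net_bdd hK hρ univ
  have ht := pvm_good_tendsto hρ hL (μ := pvP) (fun ε _ => pv_isPpp ε) (c := univ) univ_nonempty 0
  have hev : ∀ᶠ ε in 𝓝[>] (0 : ℝ), pvP ε (pvmGood univ ρ 0 L)ᶜ < ENNReal.ofReal η :=
    ht.eventually (gt_mem_nhds (ENNReal.ofReal_pos.2 hη))
  filter_upwards [hev] with ε hε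
  have hm : MeasurableSet (pvmGood univ ρ 0 L) := pvm_good_meas _ _ _ _
  have hnull : pvLaw ε (toMeasurable (pvLaw ε) {ω | ¬ DelgpOk ω}) = 0 := by
    rw [measure_toMeasurable]
    exact ae_iff.1 (delgp_ae ε)
  refine ⟨pvConf ⁻¹' pvmGood univ ρ 0 L ∩ (toMeasurable (pvLaw ε) {ω | ¬ DelgpOk ω})ᶜ,
    (measurable_pvConf hm).inter (measurableSet_toMeasurable _ _).compl, ?_, ?_⟩
  · rw [compl_inter, compl_compl]
    refine (measure_union_le _ _).trans ?_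
    rw [hnull, add_zero, ← preimage_compl, ← Measure.map_apply measurable_pvConf hm.compl]
    exact hε.le
  · rintro ω ⟨h1, h2⟩
    refine ⟨?_, pvx5_dense_of_net (hnet _ h1)⟩
    by_contra h3
    exact h2 (subset_toMeasurable _ _ h3)

theorem Pvx5Good.mono {K K' : Set ℂ} {ρ : ℝ} {ω : PVSample} (h : Pvx5Good K ρ ω) (hK : K' ⊆ K) : Pvx5Good K' ρ ω :=
  ⟨h.ok, fun z hz => h.net z (hK hz)⟩

/-! ## 4. from the chain to the path -/

/-- on a good sample a black vertex chain in `W` gives a strict path within `ρ` of `W` -/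
theorem pvx5_chain {K W : Set ℂ} {ρ R : ℝ} {ω : PVSample} (hg : Pvx5Good K ρ ω) (hρ : 0 ≤ ρ) (hR : ρ < R) (hWK : ∀ v ∈ W, closedBall v R ⊆ K)
    {u v : ℂ} (hu : PvBk (pvConf ω) W u)
    (h : Relation.ReflTransGen (fun a b => PvBk (pvConf ω) W b ∧ (cfCell (pvConf ω) a ∩ cfCell (pvConf ω) b).Nonempty) u v) :
    JoinedIn ((pvBlack ω \ pvWhite ω) ∩ vorNbd W ρ) u v := by
  have hd : ∀ w, PvBk (pvConf ω) W w → VorDense (cfSites (pvConf ω)) (closedBall w R) ρ := fun w hw z hz => hg.net z (hWK w hw.2 hz)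
  have h1 := (dels_vc hg.ok.lf hg.ok.gp (fun w hw => dels_bdd_of_dense hρ hR (hd w hw)) hu h).2
  refine h1.mono ?_
  rw [dels_frozen_ok hg.ok]
  refine inter_subset_inter_right _ ?_
  refine (dels_un_nbd hρ hR (S := {w | PvBk (pvConf ω) W w}) hd).trans ?_
  rintro z ⟨w, hw, hzw⟩
  exact ⟨w, hw.2, hzw⟩

/-- the same for `PvVC` -/
theorem pvx5_vc {K W A B : Set ℂ} {ρ R : ℝ} {ω : PVSample} (hg : Pvx5Good K ρ ω) (hρ : 0 ≤ ρ) (hR : ρ < R) (hWK : ∀ v ∈ W, closedBall v R ⊆ K)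
    (h : PvVC (pvConf ω) W A B) : ∃ u ∈ A, ∃ v ∈ B, JoinedIn ((pvBlack ω \ pvWhite ω) ∩ vorNbd W ρ) u v := by
  obtain ⟨u, v, hu, hv, hbk, hch⟩ := h
  exact ⟨u, hu, v, hv, pvx5_chain hg hρ hR hWK hbk hch⟩

/-! ## 5. THE EXPORT OF X5 -/

/-- deterministic form -/
theorem pvx5_det {D AL AR D0 K : Set ℂ} {d : ℂ} {ψ : ℂ → ℂ} {x ρ0 r ρ R : ℝ} {ω : PVSample} (hD : IsOpen D) (hx1 : x < 1) (hρ0 : 0 < ρ0) (hAR : AR ⊆ frontier D)
    (HL : ∀ z ∈ AL, ∀ w ∈ frontier D, dist w z < ρ0 → w ∈ pvArcL D d ψ x) (HR : ∀ z ∈ AR, ∀ w ∈ frontier D, dist w z < ρ0 → w ∈ pvArcR D d ψ)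
    (hD0 : thickening r D0 ⊆ D) (hρ : 0 ≤ ρ) (hρr : ρ < r) (hρ4 : ρ < ρ0 / 4) (hR : ρ < R)
    (hWK : ∀ v ∈ D0 ∪ thickening (ρ0 / 4) AL ∪ thickening (ρ0 / 4) AR, closedBall v R ⊆ K) (hg : Pvx5Good K ρ ω)
    (h : PvVC (pvConf ω) (D0 ∪ thickening (ρ0 / 4) AL ∪ thickening (ρ0 / 4) AR) (thickening (ρ0 / 4) AL \ D) (thickening (ρ0 / 4) AR \ D)) :
    PvStrict D d ψ x ω := by
  obtain ⟨u, hu, v, hv, hj⟩ := pvx5_vc hg hρ hR hWK h
  have hmono : ∀ A : Set ℂ, thickening (ρ0 / 4) A ⊆ thickening (ρ0 / 2) A := fun A => thickening_mono (by linarith) A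
  have hloc : vorNbd (D0 ∪ thickening (ρ0 / 4) AL ∪ thickening (ρ0 / 4) AR) ρ ⊆ D ∪ thickening (ρ0 / 2) AL ∪ thickening (ρ0 / 2) AR := by
    rintro z ⟨w, (hw | hw) | hw, hzw⟩
    · exact Or.inl (Or.inl (hD0 (mem_thickening_iff.2 ⟨w, hw, by rw [dist_eq_norm]; linarith⟩)))
    · obtain ⟨a, ha, hwa⟩ := mem_thickening_iff.1 hw
      refine Or.inl (Or.inr (mem_thickening_iff.2 ⟨a, ha, ?_⟩))
      have := dist_triangle z w a
      rw [dist_eq_norm z w] at this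
      linarith
    · obtain ⟨a, ha, hwa⟩ := mem_thickening_iff.1 hw
      refine Or.inr (mem_thickening_iff.2 ⟨a, ha, ?_⟩)
      have := dist_triangle z w a
      rw [dist_eq_norm z w] at this
      linarith
  obtain ⟨p', q', hp1, hp2, hq1, hq2, hj'⟩ := pvx5_clip hD isOpen_thickening isOpen_thickening (pvx5_nbd_disj hx1 hρ0 hAR HL HR)
    (hmono _ hu.1) hu.2 (hmono _ hv.1) hv.2 (hj.mono (inter_subset_inter_right _ hloc))
  exact dels_pvstrict (F := (pvBlack ω \ pvWhite ω) ∩ closure D) (fun z hz => ⟨hz.2, hz.1⟩) (pvx5_nbd_L hρ0 HL hp1 hp2) (pvx5_nbd_R hρ0 HR hq1 hq2) hj'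

/-- **X5**: on a measurable event of probability `≥ 1 - η` (small `ε`), ONE black vertex chain, from a site outside `D` near `AL` to a site outside `D` near `AR`,
all of whose sites lie in `D0` (well inside `D`) or near `AL`, `AR`, gives the strict crossing of `D` -/
theorem pvx5_main {D AL AR D0 : Set ℂ} {d : ℂ} {ψ : ℂ → ℂ} {x ρ0 r η : ℝ} (hD : IsOpen D) (hDb : Bornology.IsBounded D) (hx1 : x < 1) (hρ0 : 0 < ρ0)
    (hAL : AL ⊆ frontier D) (hAR : AR ⊆ frontier D)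
    (HL : ∀ z ∈ AL, ∀ w ∈ frontier D, dist w z < ρ0 → w ∈ pvArcL D d ψ x) (HR : ∀ z ∈ AR, ∀ w ∈ frontier D, dist w z < ρ0 → w ∈ pvArcR D d ψ)
    (hr : 0 < r) (hD0 : thickening r D0 ⊆ D) (hη : 0 < η) :
    ∀ᶠ ε in 𝓝[>] (0 : ℝ), ∃ G : Set PVSample, MeasurableSet G ∧ pvLaw ε Gᶜ ≤ ENNReal.ofReal η ∧ ∀ ω ∈ G,
      PvVC (pvConf ω) (D0 ∪ thickening (ρ0 / 4) AL ∪ thickening (ρ0 / 4) AR) (thickening (ρ0 / 4) AL \ D) (thickening (ρ0 / 4) AR \ D) →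
        PvStrict D d ψ x ω := by
  have hρ : 0 < min r (ρ0 / 4) / 2 := by
    have : 0 < min r (ρ0 / 4) := lt_min hr (by linarith)
    linarith
  have hρr : min r (ρ0 / 4) / 2 < r := by
    have := min_le_left r (ρ0 / 4)
    linarith
  have hρ4 : min r (ρ0 / 4) / 2 < ρ0 / 4 := by
    have := min_le_right r (ρ0 / 4)
    linarith
  have hKb : Bornology.IsBounded (cthickening (ρ0 / 4 + r) (closure D)) := hDb.closure.cthickening
  have hWK : ∀ v ∈ D0 ∪ thickening (ρ0 / 4) AL ∪ thickening (ρ0 / 4) AR, closedBall v r ⊆ cthickening (ρ0 / 4 + r) (closure D) := by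
    have key : ∀ v a : ℂ, a ∈ closure D → dist v a ≤ ρ0 / 4 → closedBall v r ⊆ cthickening (ρ0 / 4 + r) (closure D) := by
      intro v a ha hva z hz
      refine mem_cthickening_of_dist_le z a _ _ ha ?_
      have := dist_triangle z v a
      have := mem_closedBall.1 hz
      linarith
    rintro v ((hv | hv) | hv)
    · exact key v v (subset_closure (hD0 (self_subset_thickening hr D0 hv))) (by rw [dist_self]; linarith)
    · obtain ⟨a, ha, hva⟩ := mem_thickening_iff.1 hv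
      exact key v a (frontier_subset_closure (hAL ha)) hva.le
    · obtain ⟨a, ha, hva⟩ := mem_thickening_iff.1 hv
      exact key v a (frontier_subset_closure (hAR ha)) hva.le
  filter_upwards [pvx5_good_ev hKb hρ hη] with ε ⟨G, hGm, hGp, hG⟩
  exact ⟨G, hGm, hGp, fun ω hω h => pvx5_det hD hx1 hρ0 hAR HL HR hD0 hρ.le hρr hρ4 hρr hWK (hG ω hω) h⟩

/-- the good event and the chain-to-path step in ONE statement, for any bounded `W` (consumers which do not use `pvx5_main`) -/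
theorem pvx5_path_ev {W : Set ℂ} (hW : Bornology.IsBounded W) {ρ η : ℝ} (hρ : 0 < ρ) (hη : 0 < η) :
    ∀ᶠ ε in 𝓝[>] (0 : ℝ), ∃ G : Set PVSample, MeasurableSet G ∧ pvLaw ε Gᶜ ≤ ENNReal.ofReal η ∧ ∀ ω ∈ G, DelgpOk ω ∧ ∀ A B : Set ℂ,
      PvVC (pvConf ω) W A B → ∃ u ∈ A, ∃ v ∈ B, JoinedIn ((pvBlack ω \ pvWhite ω) ∩ vorNbd W ρ) u v := by
  have hKb : Bornology.IsBounded (cthickening (2 * ρ) W) := hW.cthickening
  have hWK : ∀ v ∈ W, closedBall v (2 * ρ) ⊆ cthickening (2 * ρ) W := fun v hv z hz =>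
    mem_cthickening_of_dist_le z v _ _ hv (mem_closedBall.1 hz)
  filter_upwards [pvx5_good_ev hKb hρ hη] with ε ⟨G, hGm, hGp, hG⟩
  exact ⟨G, hGm, hGp, fun ω hω => ⟨(hG ω hω).ok, fun A B h => pvx5_vc (hG ω hω) hρ.le (by linarith) hWK h⟩⟩

end Claimed.Agent.R289
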